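import Mathlib

/-!
Doubly regular Hadamard matrices of order six and the three functionals whose averages vanish on a
complete set of mutually unbiased bases.
-/

namespace Vale.Agent.P355.Seven

open scoped ComplexConjugate BigOperators

/-- Entries of modulus one, orthogonal rows and columns, all twelve line sums equal to `√6`. -/
structure DReg (h : Fin 6 → Fin 6 → ℂ) : Prop where
  unim : ∀ i j, Complex.normSq (h i j) = 1
  rows : ∀ a b, ∑ j, h a j * conj (h b j) = if a = b then 6 else 0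
  cols : ∀ j k, ∑ i, conj (h i j) * h i k = if j = k then 6 else 0
  rowSum : ∀ i, ∑ j, h i j = ((Real.sqrt 6 : ℝ) : ℂ)
  colSum : ∀ j, ∑ i, h i j = ((Real.sqrt 6 : ℝ) : ℂ)

/-- `S = Re ∑ h_ij²`. -/
def Sq (h : Fin 6 → Fin 6 → ℂ) : ℝ := (∑ i, ∑ j, h i j ^ 2).re

/-- `Q`, the squared moduli of the line sums of `h ∘ h`. -/
def qLine (h : Fin 6 → Fin 6 → ℂ) : ℝ :=
  (∑ i, Complex.normSq (∑ j, h i j ^ 2)) + ∑ j, Complex.normSq (∑ i, h i j ^ 2)

/-- `T`, the squared Frobenius norm of `X Xᴴ` for `X = h ∘ h`. -/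
def Tq (h : Fin 6 → Fin 6 → ℂ) : ℝ :=
  ∑ a, ∑ b, Complex.normSq (∑ j, h a j ^ 2 * conj (h b j ^ 2))

/-- `W_ab = ∑_j conj (h_aj²) h_bj`. -/
def Wm (h : Fin 6 → Fin 6 → ℂ) (a b : Fin 6) : ℂ := ∑ j, conj (h a j ^ 2) * h b j

/-- `t = Re tr (W²)`. -/
def tq (h : Fin 6 → Fin 6 → ℂ) : ℝ := (∑ a, ∑ b, Wm h a b * Wm h b a).re

/-- `U = 15 Q + T - 1296`. -/
def Uq (h : Fin 6 → Fin 6 → ℂ) : ℝ := 15 * qLine h + Tq h - 1296

/-- `V = 5 t + 5 S - T + 216`. -/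
def Vq (h : Fin 6 → Fin 6 → ℂ) : ℝ := 5 * tq h + 5 * Sq h - Tq h + 216

/-- The functional `q = S + a U + b V`. -/
def qfun (a b : ℝ) (h : Fin 6 → Fin 6 → ℂ) : ℝ := Sq h + a * Uq h + b * Vq h

end Vale.Agent.P355.Seven
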