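import Mathlib
import Vale.Agent.P355.Moments

/-!
The quartic averages of a complete set of mutually unbiased bases, and their restriction to the
thirty vectors outside the first two bases.
-/

namespace Vale.Agent.P355.Seven

open scoped ComplexConjugate BigOperators
open Matrix

variable {B : Fin 7 → Fin 6 → Fin 6 → ℂ}

/-- A linear form. -/
def lin (α v : Fin 6 → ℂ) : ℂ := ∑ k, α k * v k

/-- The inner product of two linear forms, linear in the first slot. -/
def pr (α γ : Fin 6 → ℂ) : ℂ := ∑ k, α k * conj (γ k)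

/-- The quartic built from four linear forms. -/
def quart (α β γ δ v : Fin 6 → ℂ) : ℂ := lin α v * lin β v * conj (lin γ v * lin δ v)

/-- The tensor form of the two-design identity. -/
theorem design_entry (hB : IsMUBSet B) (a b c d : Fin 6) :
    ∑ i, ∑ k, B i k a * B i k b * conj (B i k c * B i k d) =
      (if a = c then (if b = d then (1 : ℂ) else 0) else 0) +
        (if a = d then (if b = c then (1 : ℂ) else 0) else 0) := by
  have h := congrFun (congrFun (frame_eq hB) (a, c)) (d, b)
  simp only [mul_apply, conjTranspose_apply, frameMat, of_apply, Fintype.sum_prod_type,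
    Matrix.add_apply, Matrix.one_apply, vecMulVec_apply, vecId, RCLike.star_def, map_mul,
    Complex.conj_conj, Prod.mk.injEq] at h
  have e : ∀ i k, B i k a * B i k b * conj (B i k c * B i k d) =
      B i k a * conj (B i k c) * (conj (B i k d) * B i k b) := by
    intro i k; rw [map_mul]; ring
  simp only [e]
  rw [h]
  grind

/-- The two-design identity for products of linear forms. -/
theorem design_lin (hB : IsMUBSet B) (α β γ δ : Fin 6 → ℂ) :
    ∑ i, ∑ k, quart α β γ δ (B i k) = pr α γ * pr β δ + pr α δ * pr β γ := by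
  have e : ∀ i k, quart α β γ δ (B i k) = ∑ a, ∑ b, ∑ c, ∑ d,
      α a * β b * conj (γ c) * conj (δ d) * (B i k a * B i k b * conj (B i k c * B i k d)) := by
    intro i k
    simp only [quart, lin, map_mul, map_sum]
    rw [Finset.sum_mul_sum, Finset.sum_mul]
    refine Finset.sum_congr rfl fun a _ => ?_
    rw [Finset.sum_mul]
    refine Finset.sum_congr rfl fun b _ => ?_
    rw [Finset.sum_mul_sum, Finset.mul_sum]
    refine Finset.sum_congr rfl fun c _ => ?_
    rw [Finset.mul_sum]
    exact Finset.sum_congr rfl fun d _ => by ring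
  simp only [e]
  have e2 : ∀ f : Fin 7 → Fin 6 → Fin 6 → ℂ,
      ∑ i, ∑ k, ∑ a, f i k a = ∑ a, ∑ i, ∑ k, f i k a := fun f =>
    (Finset.sum_congr rfl fun i _ => Finset.sum_comm).trans Finset.sum_comm
  rw [e2]
  simp only [e2, ← Finset.mul_sum, design_entry hB]
  simp [pr, mul_add, Finset.sum_add_distrib, Finset.sum_mul_sum]
  congr 1 <;> exact Finset.sum_congr rfl fun x _ => Finset.sum_congr rfl fun y _ => by ring

/-- The square root of six as a complex number. -/
noncomputable def rt : ℂ := ((Real.sqrt 6 : ℝ) : ℂ)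

lemma rt_mul_self : rt * rt = 6 := by
  rw [rt, ← Complex.ofReal_mul, Real.mul_self_sqrt (by norm_num)]; norm_num

lemma conj_rt : conj rt = rt := Complex.conj_ofReal _

lemma rt_ne : rt ≠ 0 := by
  intro h
  have := rt_mul_self
  rw [h] at this
  norm_num at this

/-- The rescaled vectors outside the first two bases. -/
noncomputable def vec (B : Fin 7 → Fin 6 → Fin 6 → ℂ) (p : Fin 5 × Fin 6) : Fin 6 → ℂ :=
  fun k => rt * B p.1.succ.succ p.2 k

lemma lin_smul (α : Fin 6 → ℂ) (s : ℂ) (v : Fin 6 → ℂ) :
    lin α (fun k => s * v k) = s * lin α v := by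
  simp only [lin, Finset.mul_sum]
  exact Finset.sum_congr rfl fun k _ => by ring

lemma quart_rt (α β γ δ v : Fin 6 → ℂ) :
    quart α β γ δ (fun k => rt * v k) = 36 * quart α β γ δ v := by
  simp only [quart, lin_smul, map_mul, conj_rt]
  linear_combination
    (rt * rt + 6) * (lin α v * lin β v * (conj (lin γ v) * conj (lin δ v))) * rt_mul_self

/-- Quartic averages over the thirty vectors, the first basis being standard and the columns of
`H` being the second one. -/
theorem rest_lin (hB : IsMUBSet B) (hstd : ∀ l k, B 0 l k = if l = k then 1 else 0)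
    (H : Fin 6 → Fin 6 → ℂ) (hH : ∀ k m, H k m = rt * B 1 m k) (α β γ δ : Fin 6 → ℂ) :
    ∑ p, quart α β γ δ (vec B p) =
      36 * (pr α γ * pr β δ + pr α δ * pr β γ) - 36 * (∑ l, α l * β l * conj (γ l * δ l)) -
        ∑ m, quart α β γ δ (fun k => H k m) := by
  have h1 : ∑ m, quart α β γ δ (fun k => H k m) = 36 * ∑ m, quart α β γ δ (B 1 m) := by
    simp only [hH, quart_rt, Finset.mul_sum]
  have h0 : ∑ l, α l * β l * conj (γ l * δ l) = ∑ l, quart α β γ δ (B 0 l) := by
    refine Finset.sum_congr rfl fun l _ => ?_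
    simp [quart, lin, hstd]
  have h2 : ∑ p, quart α β γ δ (vec B p) =
      36 * ∑ b : Fin 5, ∑ m, quart α β γ δ (B b.succ.succ m) := by
    rw [Fintype.sum_prod_type]
    simp only [Finset.mul_sum]
    exact Finset.sum_congr rfl fun b _ => Finset.sum_congr rfl fun m _ => quart_rt _ _ _ _ _
  have h3 : ∀ f : Fin 7 → ℂ, ∑ i, f i = f 0 + f 1 + ∑ b : Fin 5, f b.succ.succ := fun f => by
    rw [Fin.sum_univ_succ, Fin.sum_univ_succ, add_assoc]
    rfl
  rw [h1, h0, h2, ← design_lin hB, h3 fun i => ∑ k, quart α β γ δ (B i k)]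
  ring

end Vale.Agent.P355.Seven
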