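import Mathlib
import Vale.Agent.P355.Seven.Defs
import Vale.Agent.P355.Seven.Design

/-!
Seven mutually unbiased bases of `ℂ^6` would give thirty doubly regular Hadamard matrices on which
`S`, `U` and `V` have zero average; so a negative `S + aU + bV` excludes seven bases.
-/

namespace Vale.Agent.P355.Seven

open scoped ComplexConjugate BigOperators
open Matrix

/-- A form picking one coordinate. -/
def eF (i : Fin 6) : Fin 6 → ℂ := fun k => if i = k then 1 else 0

/-- The form `v ↦ (Hᴴ v)_j`. -/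
def cF (H : Fin 6 → Fin 6 → ℂ) (j : Fin 6) : Fin 6 → ℂ := fun k => conj (H k j)

/-- The pair H, u in normal form. -/
noncomputable def nf (H : Fin 6 → Fin 6 → ℂ) (u : Fin 6 → ℂ) : Fin 6 → Fin 6 → ℂ :=
  fun i j => conj (u i) * H i j * (lin (cF H j) u / rt)

section Algebra

variable {H : Fin 6 → Fin 6 → ℂ} {u : Fin 6 → ℂ}

lemma lin_eF (i : Fin 6) (v : Fin 6 → ℂ) : lin (eF i) v = v i := by simp [lin, eF]

lemma pr_eF (i k : Fin 6) : pr (eF i) (eF k) = if i = k then 1 else 0 := by
  simp [pr, eF]

lemma pr_eF_cF (i j : Fin 6) : pr (eF i) (cF H j) = H i j := by simp [pr, eF, cF]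

lemma pr_cF_eF (i j : Fin 6) : pr (cF H j) (eF i) = conj (H i j) := by simp [pr, eF, cF]

lemma conj_mul_one {z : ℂ} (h : Complex.normSq z = 1) : conj z * z = 1 := by
  rw [← Complex.normSq_eq_conj_mul_self, h, Complex.ofReal_one]

lemma pr_cF (hc : ∀ j k, ∑ i, conj (H i j) * H i k = if j = k then 6 else 0) (j k : Fin 6) :
    pr (cF H j) (cF H k) = if j = k then 6 else 0 := by
  rw [← hc j k]
  simp [pr, cF]

lemma lin_cF_col (hc : ∀ j k, ∑ i, conj (H i j) * H i k = if j = k then 6 else 0) (j m : Fin 6) :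
    lin (cF H j) (fun k => H k m) = if j = m then 6 else 0 := by
  rw [← hc j m]
  rfl

lemma dreg_nf (hH : ∀ i j, Complex.normSq (H i j) = 1)
    (hr : ∀ a b, ∑ j, H a j * conj (H b j) = if a = b then 6 else 0)
    (hc : ∀ j k, ∑ i, conj (H i j) * H i k = if j = k then 6 else 0)
    (hu : ∀ i, Complex.normSq (u i) = 1) (hw : ∀ j, Complex.normSq (lin (cF H j) u) = 6) :
    DReg (nf H u) := by
  set w : Fin 6 → ℂ := fun j => lin (cF H j) u / rt with hwdef
  have hw1 : ∀ j, Complex.normSq (w j) = 1 := by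
    intro j
    rw [hwdef, map_div₀, hw, rt, Complex.normSq_ofReal, Real.mul_self_sqrt (by norm_num)]
    norm_num
  have hn : ∀ i j, nf H u i j = conj (u i) * H i j * w j := fun i j => rfl
  refine ⟨fun i j => ?_, fun a b => ?_, fun j k => ?_, fun i => ?_, fun j => ?_⟩
  · simp [hn, hu, hH, hw1]
  · have e : ∀ j, nf H u a j * conj (nf H u b j) = conj (u a) * u b * (H a j * conj (H b j)) := by
      intro j
      simp only [hn, map_mul, Complex.conj_conj]
      linear_combination (conj (u a) * u b * H a j * conj (H b j)) * conj_mul_one (hw1 j)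
    simp only [e, ← Finset.mul_sum, hr]
    split_ifs with h
    · subst h; rw [conj_mul_one (hu a)]; ring
    · ring
  · have e : ∀ i, conj (nf H u i j) * nf H u i k = conj (w j) * w k * (conj (H i j) * H i k) := by
      intro i
      simp only [hn, map_mul, Complex.conj_conj]
      linear_combination (conj (w j) * w k * conj (H i j) * H i k) * conj_mul_one (hu i)
    simp only [e, ← Finset.mul_sum, hc]
    split_ifs with h
    · subst h; rw [conj_mul_one (hw1 j)]; ring
    · ring
  · have e : ∑ j, H i j * lin (cF H j) u = 6 * u i := by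
      simp only [lin, cF, Finset.mul_sum]
      rw [Finset.sum_comm]
      simp only [← mul_assoc, ← Finset.sum_mul, hr]
      simp
    have e' : ∑ j, nf H u i j = conj (u i) * (6 * u i) / rt := by
      rw [← e, Finset.mul_sum, Finset.sum_div]
      exact Finset.sum_congr rfl fun j _ => by rw [nf]; ring
    rw [e', show ((Real.sqrt 6 : ℝ) : ℂ) = rt from rfl, div_eq_iff rt_ne]
    linear_combination 6 * conj_mul_one (hu i) - rt_mul_self
  · have e : ∑ i, conj (u i) * H i j = conj (lin (cF H j) u) := by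
      simp [lin, cF, mul_comm]
    have e' : ∑ i, nf H u i j = conj (lin (cF H j) u) * (lin (cF H j) u / rt) := by
      rw [← e, Finset.sum_mul]
      rfl
    rw [e', mul_div_assoc', div_eq_iff rt_ne, ← Complex.normSq_eq_conj_mul_self, hw, ← rt, rt_mul_self]
    norm_num

/-- `∑_l conj (H_lj²) H_lk²`. -/
def colG (H : Fin 6 → Fin 6 → ℂ) (j k : Fin 6) : ℂ := ∑ l, conj (H l j ^ 2) * H l k ^ 2

/-- `∑_j H_aj² conj (H_bj²)`. -/
def rowG (H : Fin 6 → Fin 6 → ℂ) (a b : Fin 6) : ℂ := ∑ j, H a j ^ 2 * conj (H b j ^ 2)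

lemma Tq_eq (H : Fin 6 → Fin 6 → ℂ) :
    (Tq H : ℂ) = ∑ a, ∑ b, rowG H a b * rowG H b a := by
  simp only [Tq, Complex.ofReal_sum, ← Complex.mul_conj]
  refine Finset.sum_congr rfl fun a _ => Finset.sum_congr rfl fun b _ => ?_
  simp [rowG, mul_comm]

lemma colG_rowG (H : Fin 6 → Fin 6 → ℂ) :
    ∑ j, ∑ k, colG H j k * colG H k j = ∑ a, ∑ b, rowG H a b * rowG H b a := by
  simp only [colG, rowG, Finset.sum_mul_sum]
  have e : ∀ f : Fin 6 → Fin 6 → Fin 6 → Fin 6 → ℂ,
      ∑ a, ∑ b, ∑ c, ∑ d, f a b c d = ∑ c, ∑ d, ∑ a, ∑ b, f a b c d := fun f => by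
    calc ∑ a, ∑ b, ∑ c, ∑ d, f a b c d = ∑ a, ∑ c, ∑ b, ∑ d, f a b c d :=
          Finset.sum_congr rfl fun a _ => Finset.sum_comm
      _ = ∑ c, ∑ a, ∑ b, ∑ d, f a b c d := Finset.sum_comm
      _ = ∑ c, ∑ a, ∑ d, ∑ b, f a b c d :=
          Finset.sum_congr rfl fun c _ => Finset.sum_congr rfl fun a _ => Finset.sum_comm
      _ = ∑ c, ∑ d, ∑ a, ∑ b, f a b c d := Finset.sum_congr rfl fun c _ => Finset.sum_comm
  rw [e]
  refine Finset.sum_congr rfl fun a _ => Finset.sum_congr rfl fun b _ => ?_
  rw [Finset.sum_comm]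
  refine Finset.sum_congr rfl fun j _ => Finset.sum_congr rfl fun k _ => ?_
  ring

lemma Tq_nf (hu : ∀ i, Complex.normSq (u i) = 1) (hw : ∀ j, Complex.normSq (lin (cF H j) u) = 6) :
    Tq (nf H u) = Tq H := by
  refine Finset.sum_congr rfl fun a _ => Finset.sum_congr rfl fun b _ => ?_
  have e : ∀ j, nf H u a j ^ 2 * conj (nf H u b j ^ 2) =
      (conj (u a) * u b) ^ 2 * (H a j ^ 2 * conj (H b j ^ 2)) := by
    intro j
    have h6 : (lin (cF H j) u / rt) * conj (lin (cF H j) u / rt) = 1 := by
      rw [Complex.mul_conj, map_div₀, hw, rt, Complex.normSq_ofReal,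
        Real.mul_self_sqrt (by norm_num)]
      norm_num
    simp only [nf, map_pow, map_mul, Complex.conj_conj]
    linear_combination ((conj (u a) * u b) ^ 2 * (H a j ^ 2 * conj (H b j) ^ 2) *
      ((lin (cF H j) u / rt) * conj (lin (cF H j) u / rt) + 1)) * h6
  simp only [e, ← Finset.mul_sum]
  simp [Complex.normSq_mul, hu]

end Algebra

section Averages

variable {B : Fin 7 → Fin 6 → Fin 6 → ℂ} {H : Fin 6 → Fin 6 → ℂ}

/-- The data extracted from seven bases whose first one is standard. -/
structure Setup (B : Fin 7 → Fin 6 → Fin 6 → ℂ) (H : Fin 6 → Fin 6 → ℂ) : Prop where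
  mub : IsMUBSet B
  std : ∀ l k, B 0 l k = if l = k then 1 else 0
  col : ∀ k m, H k m = rt * B 1 m k
  unim : ∀ i j, Complex.normSq (H i j) = 1
  rows : ∀ a b, ∑ j, H a j * conj (H b j) = if a = b then 6 else 0
  cols : ∀ j k, ∑ i, conj (H i j) * H i k = if j = k then 6 else 0
  uu : ∀ p i, Complex.normSq (vec B p i) = 1
  ww : ∀ p j, Complex.normSq (lin (cF H j) (vec B p)) = 6

theorem sum_Sq (s : Setup B H) : ∑ p, Sq (nf H (vec B p)) = 0 := by
  have e : ∀ p, (∑ i, ∑ j, nf H (vec B p) i j ^ 2) =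
      ∑ i, ∑ j, H i j ^ 2 / 6 * quart (cF H j) (cF H j) (eF i) (eF i) (vec B p) := by
    intro p
    refine Finset.sum_congr rfl fun i _ => Finset.sum_congr rfl fun j _ => ?_
    have h6 : rt ^ 2 = 6 := by rw [sq, rt_mul_self]
    simp only [nf, quart, lin_eF, mul_pow, div_pow, h6, map_mul]
    ring
  simp only [Sq, e]
  rw [← Complex.re_sum, Finset.sum_comm,
    Finset.sum_eq_zero fun i _ => ?_, Complex.zero_re]
  rw [Finset.sum_comm]
  refine Finset.sum_eq_zero fun j _ => ?_
  rw [← Finset.mul_sum, rest_lin s.mub s.std H s.col, pr_cF_eF]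
  have g : ∑ l, cF H j l * cF H j l * conj (eF i l * eF i l) = conj (H i j) * conj (H i j) := by
    rw [Finset.sum_eq_single i]
    · simp [cF, eF]
    · intro l _ hl; simp [eF, Ne.symm hl]
    · simp
  have g' : ∑ m, quart (cF H j) (cF H j) (eF i) (eF i) (fun k => H k m) =
      36 * (conj (H i j) * conj (H i j)) := by
    rw [Finset.sum_eq_single j]
    · simp only [quart, lin_eF, lin_cF_col s.cols, if_true, map_mul]; ring
    · intro m _ hm; simp [quart, lin_cF_col s.cols, Ne.symm hm]
    · simp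
  rw [g, g']
  ring

theorem sum_Qq (s : Setup B H) : ∑ p, qLine (nf H (vec B p)) = 2592 - 2 * Tq H := by
  have hHH : ∀ i j, H i j ^ 2 * conj (H i j ^ 2) = 1 := fun i j => by
    rw [map_pow, ← mul_pow, Complex.mul_conj, s.unim]; simp
  have e1 : ∀ p i, ((Complex.normSq (∑ j, nf H (vec B p) i j ^ 2) : ℝ) : ℂ) =
      ∑ j, ∑ k, H i j ^ 2 * conj (H i k ^ 2) / 36 *
        quart (cF H j) (cF H j) (cF H k) (cF H k) (vec B p) := by
    intro p i
    rw [← Complex.mul_conj, map_sum, Finset.sum_mul_sum]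
    refine Finset.sum_congr rfl fun j _ => Finset.sum_congr rfl fun k _ => ?_
    have hu := conj_mul_one (s.uu p i)
    have h6 : rt ^ 2 = 6 := by rw [sq, rt_mul_self]
    simp only [nf, quart, mul_pow, div_pow, h6, map_mul, map_pow, map_div₀, Complex.conj_conj,
      map_ofNat]
    linear_combination (H i j ^ 2 * conj (H i k) ^ 2 / 36 * lin (cF H j) (vec B p) ^ 2 *
      conj (lin (cF H k) (vec B p)) ^ 2 * (conj (vec B p i) * vec B p i + 1)) * hu
  have e2 : ∀ p j, ((Complex.normSq (∑ i, nf H (vec B p) i j ^ 2) : ℝ) : ℂ) =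
      ∑ i, ∑ k, H i j ^ 2 * conj (H k j ^ 2) *
        quart (eF k) (eF k) (eF i) (eF i) (vec B p) := by
    intro p j
    rw [← Complex.mul_conj, map_sum, Finset.sum_mul_sum]
    refine Finset.sum_congr rfl fun i _ => Finset.sum_congr rfl fun k _ => ?_
    have hw : conj (lin (cF H j) (vec B p)) * lin (cF H j) (vec B p) = 6 := by
      rw [← Complex.normSq_eq_conj_mul_self, s.ww]; norm_num
    have h6 : rt ^ 2 = 6 := by rw [sq, rt_mul_self]
    simp only [nf, quart, lin_eF, mul_pow, div_pow, h6, map_mul, map_pow, map_div₀,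
      Complex.conj_conj, map_ofNat]
    linear_combination (H i j ^ 2 * conj (H k j) ^ 2 / 36 * vec B p k ^ 2 *
      conj (vec B p i) ^ 2 * (conj (lin (cF H j) (vec B p)) * lin (cF H j) (vec B p) + 6)) * hw
  apply Complex.ofReal_injective
  simp only [qLine, Complex.ofReal_sum, Complex.ofReal_add, Complex.ofReal_sub, Complex.ofReal_mul,
    Complex.ofReal_ofNat, Tq_eq, e1, e2, Finset.sum_add_distrib]
  simp only [Finset.sum_comm (γ := Fin 5 × Fin 6), ← Finset.mul_sum]
  have f1 : ∀ j k, ∑ p, quart (cF H j) (cF H j) (cF H k) (cF H k) (vec B p) =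
      (if j = k then 1296 else 0) - 36 * colG H j k := by
    intro j k
    rw [rest_lin s.mub s.std H s.col, pr_cF s.cols]
    have g : ∑ l, cF H j l * cF H j l * conj (cF H k l * cF H k l) = colG H j k := by
      simp [cF, colG, pow_two]
    rw [g]
    simp only [quart, lin_cF_col s.cols]
    by_cases h : j = k
    · subst h; simp [map_ofNat]; ring
    · simp [h, Ne.symm h]
  have f2 : ∀ i k, ∑ p, quart (eF k) (eF k) (eF i) (eF i) (vec B p) =
      (if k = i then 36 else 0) - rowG H k i := by
    intro i k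
    rw [rest_lin s.mub s.std H s.col, pr_eF]
    have g : ∑ m, quart (eF k) (eF k) (eF i) (eF i) (fun l => H l m) = rowG H k i := by
      simp [quart, lin_eF, rowG, pow_two]
    rw [g]
    by_cases h : k = i
    · subst h; simp [eF]; ring
    · simp [eF, h, Ne.symm h]
  simp only [f1, f2]
  have g1 : ∑ i, ∑ j, ∑ k, H i j ^ 2 * conj (H i k ^ 2) / 36 *
      ((if j = k then (1296 : ℂ) else 0) - 36 * colG H j k) =
      1296 - ∑ a, ∑ b, rowG H a b * rowG H b a := by
    rw [← colG_rowG]
    simp only [mul_sub, Finset.sum_sub_distrib, mul_ite, mul_zero, Finset.sum_ite_eq,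
      Finset.mem_univ, if_true, div_mul_eq_mul_div, hHH]
    congr 1
    · norm_num
    · rw [Finset.sum_comm]
      refine Finset.sum_congr rfl fun j _ => ?_
      rw [Finset.sum_comm]
      refine Finset.sum_congr rfl fun k _ => ?_
      rw [show colG H k j = ∑ l, conj (H l k ^ 2) * H l j ^ 2 from rfl, Finset.mul_sum]
      exact Finset.sum_congr rfl fun l _ => by ring
  have g2 : ∑ j, ∑ i, ∑ k, H i j ^ 2 * conj (H k j ^ 2) *
      ((if k = i then (36 : ℂ) else 0) - rowG H k i) =
      1296 - ∑ a, ∑ b, rowG H a b * rowG H b a := by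
    simp only [mul_sub, Finset.sum_sub_distrib, mul_ite, mul_zero, Finset.sum_ite_eq',
      Finset.mem_univ, if_true, hHH]
    congr 1
    · norm_num
    · rw [Finset.sum_comm]
      refine Finset.sum_congr rfl fun i _ => ?_
      rw [Finset.sum_comm]
      refine Finset.sum_congr rfl fun k _ => ?_
      rw [← Finset.sum_mul]
      rfl
  rw [g1, g2]
  ring

theorem sum_tq (s : Setup B H) : ∑ p, tq (nf H (vec B p)) = 6 * Tq H - 1296 := by
  have eW : ∀ p a b, Wm (nf H (vec B p)) a b = vec B p a ^ 2 * conj (vec B p b) / rt *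
      ∑ j, conj (H a j ^ 2) * H b j * conj (lin (cF H j) (vec B p)) := by
    intro p a b
    rw [Wm, Finset.mul_sum]
    refine Finset.sum_congr rfl fun j _ => ?_
    have hw : conj (lin (cF H j) (vec B p)) * lin (cF H j) (vec B p) = rt ^ 2 := by
      rw [← Complex.normSq_eq_conj_mul_self, s.ww, sq, rt_mul_self]; norm_num
    simp only [nf, mul_pow, map_mul, map_pow, map_div₀, Complex.conj_conj, conj_rt, div_pow]
    field_simp [rt_ne]
    linear_combination (vec B p a ^ 2 * conj (H a j) ^ 2 * conj (vec B p b) * H b j *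
      conj (lin (cF H j) (vec B p))) * hw
  have eP : ∀ p, ∑ a, ∑ b, Wm (nf H (vec B p)) a b * Wm (nf H (vec B p)) b a =
      ∑ a, ∑ b, ∑ j, ∑ k, conj (H a j ^ 2) * H b j * (conj (H b k ^ 2) * H a k) / 6 *
        quart (eF a) (eF b) (cF H j) (cF H k) (vec B p) := by
    intro p
    refine Finset.sum_congr rfl fun a _ => Finset.sum_congr rfl fun b _ => ?_
    rw [eW, eW, mul_mul_mul_comm, Finset.sum_mul_sum, Finset.mul_sum]
    refine Finset.sum_congr rfl fun j _ => ?_
    rw [Finset.mul_sum]
    refine Finset.sum_congr rfl fun k _ => ?_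
    have h6 : rt ^ 2 = 6 := by rw [sq, rt_mul_self]
    simp only [quart, lin_eF, map_mul, map_pow]
    field_simp [rt_ne]
    rw [h6]
    linear_combination (6 * vec B p a * vec B p b * conj (H a j) ^ 2 * H b j * conj (H b k) ^ 2 *
      H a k * conj (lin (cF H j) (vec B p)) * conj (lin (cF H k) (vec B p))) *
      ((conj (vec B p a) * vec B p a) * conj_mul_one (s.uu p b) + conj_mul_one (s.uu p a))
  simp only [tq, eP, ← Complex.re_sum]
  rw [Finset.sum_comm]
  simp only [Finset.sum_comm (γ := Fin 5 × Fin 6), ← Finset.mul_sum]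
  have f : ∀ a b j k, ∑ p, quart (eF a) (eF b) (cF H j) (cF H k) (vec B p) =
      36 * (H a j * H b k + H a k * H b j) - 36 * (if a = b then H a j * H a k else 0) -
        36 * (if j = k then H a j * H b j else 0) := by
    intro a b j k
    rw [rest_lin s.mub s.std H s.col]
    simp only [pr_eF_cF, quart, lin_eF, lin_cF_col s.cols]
    congr 1
    · congr 1
      by_cases h : a = b
      · subst h; simp [eF, cF]
      · simp [eF, h]
    · by_cases h : j = k
      · subst h
        rw [Finset.sum_eq_single j]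
        · simp [map_ofNat]; ring
        · intro m _ hm; simp [Ne.symm hm]
        · simp
      · rw [if_neg h, mul_zero]
        refine Finset.sum_eq_zero fun m _ => ?_
        by_cases h' : j = m
        · subst h'; simp [Ne.symm h]
        · simp [h']
  simp only [f]
  have e1 : ∀ a b j, conj (H a j) * H a j = 1 ∧ conj (H b j) * H b j = 1 :=
    fun a b j => ⟨conj_mul_one (s.unim a j), conj_mul_one (s.unim b j)⟩
  have c1 : ∀ a b j k, conj (H a j ^ 2) * H b j * (conj (H b k ^ 2) * H a k) / 6 *
      (36 * (H a j * H b k + H a k * H b j) - 36 * (if a = b then H a j * H a k else 0) -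
        36 * (if j = k then H a j * H b j else 0)) =
      6 * (conj (H a j) * H b j * (conj (H b k) * H a k)) +
        6 * ((H b j ^ 2 * conj (H a j ^ 2)) * (H a k ^ 2 * conj (H b k ^ 2))) -
        6 * (if a = b then 1 else 0) - 6 * (if j = k then 1 else 0) := by
    intro a b j k
    have ha := conj_mul_one (s.unim a j)
    have hb := conj_mul_one (s.unim b k)
    have hak := conj_mul_one (s.unim a k)
    have hbj := conj_mul_one (s.unim b j)
    simp only [map_pow]
    by_cases h1 : a = b <;> by_cases h2 : j = k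
    all_goals simp only [h1, h2, if_true, if_false, mul_zero, sub_zero]
    all_goals grind
  simp only [c1, Finset.sum_sub_distrib, Finset.sum_add_distrib, ← Finset.mul_sum,
    ← Finset.sum_mul]
  have d1 : ∀ a b, (∑ j, conj (H a j) * H b j) * (∑ k, conj (H b k) * H a k) =
      if a = b then (36 : ℂ) else 0 := by
    intro a b
    have h1 := s.rows b a
    have h2 := s.rows a b
    simp only [mul_comm (H _ _)] at h1 h2
    rw [h1, h2]
    by_cases h : a = b
    · subst h; simp; norm_num
    · simp [h, Ne.symm h]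
  simp only [d1]
  have hT : ∀ a b, (∑ j, H b j ^ 2 * conj (H a j ^ 2)) * (∑ k, H a k ^ 2 * conj (H b k ^ 2)) =
      rowG H a b * rowG H b a := fun a b => mul_comm _ _
  simp only [hT, ← Tq_eq]
  simp
  ring

end Averages

/-- Seven bases yield a standard first basis and a Hadamard second one, the rescaled transition
matrix from the first to the second. -/
theorem exists_setup' (A : Fin 7 → Fin 6 → Fin 6 → ℂ) (hA : IsMUBSet A) :
    ∃ B H, Setup B H ∧ ∀ k m, H k m = rt * ip (A 0 k) (A 1 m) := by
  set B : Fin 7 → Fin 6 → Fin 6 → ℂ := fun c i l => ip (A 0 l) (A c i) with hBdef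
  have hip : ∀ c d i k, ip (B c i) (B d k) = ip (A c i) (A d k) := by
    intro c d i k
    rw [← (hA.1 0).parseval (A c i) (A d k)]
    rfl
  have hB : IsMUBSet B :=
    ⟨fun c i k => by rw [hip]; exact hA.1 c i k,
      fun c d hcd i k => by rw [hip]; exact hA.2 c d hcd i k⟩
  have hstd : ∀ l k, B 0 l k = if l = k then 1 else 0 := by
    intro l k
    change ip (A 0 k) (A 0 l) = _
    rw [hA.1 0 k l]
    simp [eq_comm]
  have hip0 : ∀ l v, ip (B 0 l) v = v l := by
    intro l v; simp [ip, hstd]
  set H : Fin 6 → Fin 6 → ℂ := fun k m => rt * B 1 m k with hHdef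
  have hrt : Complex.normSq rt = 6 := by
    rw [rt, Complex.normSq_ofReal, Real.mul_self_sqrt (by norm_num)]
  have hflat : ∀ c, c ≠ 0 → ∀ i k, Complex.normSq (rt * B c i k) = 1 := by
    intro c hc i k
    have := hB.2 0 c (Ne.symm hc) k i
    rw [hip0] at this
    rw [map_mul, hrt, this]; norm_num
  have s : Setup B H := by
    refine ⟨hB, hstd, fun k m => rfl, fun i j => hflat 1 (by decide) j i, fun c d => ?_,
      fun j k => ?_, fun p i => hflat _ (Fin.succ_ne_zero _) _ _, fun p j => ?_⟩
    · have := (hB.1 1).complete c d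
      have e : ∀ j, H c j * conj (H d j) = 6 * (B 1 j c * conj (B 1 j d)) := by
        intro j; simp only [hHdef, map_mul, conj_rt]
        linear_combination (B 1 j c * conj (B 1 j d)) * rt_mul_self
      simp only [e, ← Finset.mul_sum, this]; simp
    · have := hB.1 1 j k
      have e : ∀ i, conj (H i j) * H i k = 6 * (conj (B 1 j i) * B 1 k i) := by
        intro i; simp only [hHdef, map_mul, conj_rt]
        linear_combination (conj (B 1 j i) * B 1 k i) * rt_mul_self
      simp only [e, ← Finset.mul_sum]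
      rw [ip] at this
      rw [this]; simp
    · have h1 : (1 : Fin 7) ≠ p.1.succ.succ := by
        intro h
        exact Fin.succ_ne_zero p.1 (Fin.succ_inj.1 (show (0 : Fin 6).succ = p.1.succ.succ from h)).symm
      have := hB.2 1 p.1.succ.succ h1 j p.2
      have e : lin (cF H j) (vec B p) = 6 * ip (B 1 j) (B p.1.succ.succ p.2) := by
        simp only [lin, cF, vec, hHdef, ip, map_mul, conj_rt, Finset.mul_sum]
        exact Finset.sum_congr rfl fun k _ => by
          linear_combination (conj (B 1 j k) * B p.1.succ.succ p.2 k) * rt_mul_self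
      rw [e, map_mul, this, Complex.normSq_ofNat]; norm_num
  exact ⟨B, H, s, fun k m => rfl⟩

/-- Seven bases yield a standard first basis and a Hadamard second one. -/
theorem exists_setup (A : Fin 7 → Fin 6 → Fin 6 → ℂ) (hA : IsMUBSet A) :
    ∃ B H, Setup B H := by
  obtain ⟨B, H, s, -⟩ := exists_setup' A hA
  exact ⟨B, H, s⟩

/-- A negative combination `S + aU + bV` on all doubly regular matrices excludes seven bases. -/
theorem no_seven_of_cert (a b : ℝ) (hq : ∀ h, DReg h → qfun a b h < 0)
    (A : Fin 7 → Fin 6 → Fin 6 → ℂ) : ¬ IsMUBSet A := by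
  intro hA
  obtain ⟨B, H, s⟩ := exists_setup A hA
  have hT : ∀ p, Tq (nf H (vec B p)) = Tq H := fun p => Tq_nf (s.uu p) (s.ww p)
  have hsum : ∑ p, qfun a b (nf H (vec B p)) = 0 := by
    simp only [qfun, Uq, Vq, hT, Finset.sum_add_distrib, ← Finset.mul_sum, Finset.sum_sub_distrib,
      sum_Sq s, sum_Qq s, sum_tq s]
    simp
    ring
  have hlt : ∑ p, qfun a b (nf H (vec B p)) < ∑ _p : Fin 5 × Fin 6, (0 : ℝ) :=
    Finset.sum_lt_sum_of_nonempty Finset.univ_nonempty fun p _ =>
      hq _ (dreg_nf s.unim s.rows s.cols (s.uu p) (s.ww p))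
  rw [hsum, Finset.sum_const_zero] at hlt
  exact lt_irrefl 0 hlt

end Vale.Agent.P355.Seven
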