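import Mathlib
import Vale.Agent.P355.Seven.Reduce

/-!
Every covariant function of a doubly regular matrix yields a function whose sum over the thirty
matrices coming from seven bases is zero. A strictly negative combination of these excludes seven
bases.
-/

namespace Vale.Agent.P355.Seven

open scoped ComplexConjugate BigOperators

/-- The twelve linear forms of a pair of bases. -/
abbrev Slot := Fin 6 ⊕ Fin 6

/-- The coefficient vector of a slot, scaled so that the form is unimodular on unbiased vectors. -/
noncomputable def sForm (H : Fin 6 → Fin 6 → ℂ) : Slot → Fin 6 → ℂ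
  | .inl i => eF i
  | .inr j => fun k => cF H j k / rt

/-- The value of a slot form. -/
noncomputable def phi (H : Fin 6 → Fin 6 → ℂ) (u : Fin 6 → ℂ) (s : Slot) : ℂ := lin (sForm H s) u

/-- The sum of a quartic over the thirty vectors, as a function of the first two bases. -/
noncomputable def restSum (H : Fin 6 → Fin 6 → ℂ) (A B C D : Slot) : ℂ :=
  36 * (pr (sForm H A) (sForm H C) * pr (sForm H B) (sForm H D) +
      pr (sForm H A) (sForm H D) * pr (sForm H B) (sForm H C)) -
    36 * (∑ l, sForm H A l * sForm H B l * conj (sForm H C l * sForm H D l)) -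
      ∑ m, quart (sForm H A) (sForm H B) (sForm H C) (sForm H D) (fun k => H k m)

/-- A literal: an entry (`true`) or its conjugate (`false`). -/
abbrev Lit := Fin 6 × Fin 6 × Bool

/-- The value of a literal. -/
noncomputable def litVal (h : Fin 6 → Fin 6 → ℂ) (l : Lit) : ℂ :=
  if l.2.2 then h l.1 l.2.1 else conj (h l.1 l.2.1)

/-- The value of a monomial. -/
noncomputable def monVal (h : Fin 6 → Fin 6 → ℂ) (ls : List Lit) : ℂ := (ls.map (litVal h)).prod

/-- A unit exponent. -/
def unit1 (s : Slot) : Slot → ℤ := fun t => if t = s then 1 else 0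

/-- The gauge weight of a literal. -/
def litWt (l : Lit) : Slot → ℤ :=
  if l.2.2 then unit1 (.inr l.2.1) - unit1 (.inl l.1) else unit1 (.inl l.1) - unit1 (.inr l.2.1)

/-- The gauge weight of a monomial. -/
def monWt (ls : List Lit) : Slot → ℤ := (ls.map litWt).sum

/-- The weight of a quartic in the slot forms. -/
def quartWt (A B C D : Slot) : Slot → ℤ := unit1 A + unit1 B - unit1 C - unit1 D

/-- The centred feature attached to a monomial and four slots. -/
noncomputable def feat (ls : List Lit) (A B C D : Slot) (h : Fin 6 → Fin 6 → ℂ) : ℂ :=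
  monVal h ls * (30 - restSum h A B C D)

/-- The product of integer powers of the slot values. -/
noncomputable def phz (H : Fin 6 → Fin 6 → ℂ) (u : Fin 6 → ℂ) (n : Slot → ℤ) : ℂ :=
  ∏ s, phi H u s ^ n s

section Gauge

variable {H : Fin 6 → Fin 6 → ℂ} {u : Fin 6 → ℂ}
  (hu : ∀ i, Complex.normSq (u i) = 1) (hw : ∀ j, Complex.normSq (lin (cF H j) u) = 6)

lemma phi_inl (i : Fin 6) : phi H u (.inl i) = u i := lin_eF i u

lemma phi_inr (j : Fin 6) : phi H u (.inr j) = lin (cF H j) u / rt := by
  simp [phi, sForm, lin, Finset.sum_div, div_mul_eq_mul_div]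

include hu hw

lemma normSq_phi (s : Slot) : Complex.normSq (phi H u s) = 1 := by
  cases s with
  | inl i => rw [phi_inl, hu]
  | inr j =>
    rw [phi_inr, map_div₀, hw, rt, Complex.normSq_ofReal, Real.mul_self_sqrt (by norm_num)]
    norm_num

lemma phi_ne (s : Slot) : phi H u s ≠ 0 := by
  intro h
  have := normSq_phi hu hw s
  rw [h, map_zero] at this
  exact zero_ne_one this

lemma phz_add (m n : Slot → ℤ) : phz H u (m + n) = phz H u m * phz H u n := by
  simp only [phz, Pi.add_apply, zpow_add₀ (phi_ne hu hw _), Finset.prod_mul_distrib]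

lemma phz_neg (n : Slot → ℤ) : phz H u (-n) = (phz H u n)⁻¹ := by
  simp only [phz, Pi.neg_apply, zpow_neg, Finset.prod_inv_distrib]

lemma phz_unit (s : Slot) : phz H u (unit1 s) = phi H u s := by
  rw [phz, Finset.prod_eq_single s]
  · simp [unit1]
  · intro t _ ht; simp [unit1, ht]
  · simp

lemma inv_phi (s : Slot) : (phi H u s)⁻¹ = conj (phi H u s) :=
  inv_eq_of_mul_eq_one_left (conj_mul_one (normSq_phi hu hw s))

lemma phz_quartWt (A B C D : Slot) :
    phz H u (quartWt A B C D) = phi H u A * phi H u B * conj (phi H u C * phi H u D) := by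
  rw [quartWt, sub_eq_add_neg, sub_eq_add_neg, phz_add hu hw, phz_add hu hw, phz_add hu hw,
    phz_neg hu hw, phz_neg hu hw, phz_unit hu hw, phz_unit hu hw, phz_unit hu hw, phz_unit hu hw,
    inv_phi hu hw, inv_phi hu hw, map_mul]
  ring

lemma litVal_nf (l : Lit) : litVal (nf H u) l = litVal H l * phz H u (litWt l) := by
  obtain ⟨i, j, b⟩ := l
  have hn : nf H u i j = conj (phi H u (.inl i)) * H i j * phi H u (.inr j) := by
    rw [phi_inl, phi_inr]; rfl
  cases b <;>
    simp only [litVal, litWt, Bool.false_eq_true, if_true, if_false, hn, sub_eq_add_neg,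
      phz_add hu hw, phz_neg hu hw, phz_unit hu hw, inv_phi hu hw, map_mul, Complex.conj_conj] <;>
    ring

lemma monVal_nf (ls : List Lit) : monVal (nf H u) ls = monVal H ls * phz H u (monWt ls) := by
  induction ls with
  | nil => simp [monVal, monWt, phz]
  | cons a ls ih =>
    simp only [monVal, monWt, List.map_cons, List.prod_cons, List.sum_cons] at ih ⊢
    rw [phz_add hu hw, litVal_nf hu hw, ih]
    ring

lemma sForm_nf (s : Slot) (k : Fin 6) :
    sForm (nf H u) s k = conj (phi H u s) * (sForm H s k * u k) := by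
  cases s with
  | inl i =>
    rw [phi_inl]
    simp only [sForm, eF]
    split_ifs with h
    · subst h; rw [one_mul, conj_mul_one (hu i)]
    · ring
  | inr j =>
    rw [phi_inr]
    simp only [sForm, cF, nf, map_mul, Complex.conj_conj]
    ring

lemma pr_nf (s t : Slot) : pr (sForm (nf H u) s) (sForm (nf H u) t) =
    conj (phi H u s) * phi H u t * pr (sForm H s) (sForm H t) := by
  simp only [pr, sForm_nf hu hw, map_mul, Complex.conj_conj, Finset.mul_sum]
  refine Finset.sum_congr rfl fun k _ => ?_
  linear_combination (conj (phi H u s) * phi H u t * sForm H s k * conj (sForm H t k)) *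
    conj_mul_one (hu k)

lemma lin_nf (s : Slot) (m : Fin 6) :
    lin (sForm (nf H u) s) (fun k => nf H u k m) =
      conj (phi H u s) * (lin (cF H m) u / rt) * lin (sForm H s) (fun k => H k m) := by
  simp only [lin, sForm_nf hu hw, nf, Finset.mul_sum]
  refine Finset.sum_congr rfl fun k _ => ?_
  linear_combination (conj (phi H u s) * sForm H s k * H k m *
    ((∑ i, cF H m i * u i) / rt)) * conj_mul_one (hu k)

lemma restSum_nf (A B C D : Slot) : restSum (nf H u) A B C D =
    conj (phi H u A * phi H u B) * (phi H u C * phi H u D) * restSum H A B C D := by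
  have e1 : ∀ l, sForm (nf H u) A l * sForm (nf H u) B l *
      conj (sForm (nf H u) C l * sForm (nf H u) D l) =
      conj (phi H u A * phi H u B) * (phi H u C * phi H u D) *
        (sForm H A l * sForm H B l * conj (sForm H C l * sForm H D l)) := by
    intro l
    simp only [sForm_nf hu hw, map_mul, Complex.conj_conj]
    linear_combination (conj (phi H u A) * conj (phi H u B) * phi H u C * phi H u D *
      sForm H A l * sForm H B l * conj (sForm H C l) * conj (sForm H D l) *
      (conj (u l) * u l + 1)) * conj_mul_one (hu l)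
  have e2 : ∀ m, quart (sForm (nf H u) A) (sForm (nf H u) B) (sForm (nf H u) C)
      (sForm (nf H u) D) (fun k => nf H u k m) =
      conj (phi H u A * phi H u B) * (phi H u C * phi H u D) *
        quart (sForm H A) (sForm H B) (sForm H C) (sForm H D) (fun k => H k m) := by
    intro m
    have hm : conj (lin (cF H m) u / rt) * (lin (cF H m) u / rt) = 1 := by
      rw [← phi_inr]; exact conj_mul_one (normSq_phi hu hw _)
    simp only [quart, lin_nf hu hw, map_mul, Complex.conj_conj]
    linear_combination (conj (phi H u A) * conj (phi H u B) * phi H u C * phi H u D *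
      lin (sForm H A) (fun k => H k m) * lin (sForm H B) (fun k => H k m) *
      conj (lin (sForm H C) (fun k => H k m)) * conj (lin (sForm H D) (fun k => H k m)) *
      (conj (lin (cF H m) u / rt) * (lin (cF H m) u / rt) + 1)) * hm
  unfold restSum
  simp only [e1, e2, pr_nf hu hw, ← Finset.mul_sum]
  simp only [map_mul]
  ring

end Gauge

variable {B : Fin 7 → Fin 6 → Fin 6 → ℂ} {H : Fin 6 → Fin 6 → ℂ}

/-- A centred feature has zero sum over the thirty normal forms. -/
theorem sum_feat (s : Setup B H) (ls : List Lit) (a b c d : Slot)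
    (hv : monWt ls = quartWt a b c d) : ∑ p, feat ls a b c d (nf H (vec B p)) = 0 := by
  have e : ∀ p, feat ls a b c d (nf H (vec B p)) =
      monVal H ls * (30 * quart (sForm H a) (sForm H b) (sForm H c) (sForm H d) (vec B p) -
        restSum H a b c d) := by
    intro p
    have ha := conj_mul_one (normSq_phi (H := H) (s.uu p) (s.ww p) a)
    have hb := conj_mul_one (normSq_phi (H := H) (s.uu p) (s.ww p) b)
    have hc := conj_mul_one (normSq_phi (H := H) (s.uu p) (s.ww p) c)
    have hd := conj_mul_one (normSq_phi (H := H) (s.uu p) (s.ww p) d)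
    rw [feat, monVal_nf (s.uu p) (s.ww p), restSum_nf (s.uu p) (s.ww p), hv,
      phz_quartWt (s.uu p) (s.ww p)]
    simp only [quart, phi, map_mul] at ha hb hc hd ⊢
    grind
  simp only [e, ← Finset.mul_sum, Finset.sum_sub_distrib]
  rw [rest_lin s.mub s.std H s.col]
  simp [restSum]
  right
  ring

/-- A combination of centred features with negative real part on all doubly regular matrices
excludes seven bases. -/
theorem no_seven_of_feat {ι : Type} [Fintype ι] (cf : ι → ℂ) (ls : ι → List Lit)
    (sl : ι → Slot × Slot × Slot × Slot)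
    (hv : ∀ k, monWt (ls k) = quartWt (sl k).1 (sl k).2.1 (sl k).2.2.1 (sl k).2.2.2)
    (hneg : ∀ h, DReg h →
      (∑ k, cf k * feat (ls k) (sl k).1 (sl k).2.1 (sl k).2.2.1 (sl k).2.2.2 h).re < 0)
    (A : Fin 7 → Fin 6 → Fin 6 → ℂ) : ¬ IsMUBSet A := by
  intro hA
  obtain ⟨B, H, s⟩ := exists_setup A hA
  have hsum : ∑ p, ∑ k, cf k *
      feat (ls k) (sl k).1 (sl k).2.1 (sl k).2.2.1 (sl k).2.2.2 (nf H (vec B p)) = 0 := by
    rw [Finset.sum_comm]
    refine Finset.sum_eq_zero fun k _ => ?_
    rw [← Finset.mul_sum, sum_feat s _ _ _ _ _ (hv k), mul_zero]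
  have hlt : ∑ p, (∑ k, cf k *
      feat (ls k) (sl k).1 (sl k).2.1 (sl k).2.2.1 (sl k).2.2.2 (nf H (vec B p))).re <
      ∑ _p : Fin 5 × Fin 6, (0 : ℝ) :=
    Finset.sum_lt_sum_of_nonempty Finset.univ_nonempty fun p _ =>
      hneg _ (dreg_nf s.unim s.rows s.cols (s.uu p) (s.ww p))
  rw [← Complex.re_sum, hsum, Finset.sum_const_zero, Complex.zero_re] at hlt
  exact lt_irrefl 0 hlt

end Vale.Agent.P355.Seven
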