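import Mathlib
import Vale.Agent.P355.Seven.Feature

/-!
The consequence in the conventions of the problem: every family of pairwise mutually unbiased
orthonormal bases of `ℂ^6` has at most six members, if `S + aU + bV` is negative.
-/

namespace Vale.Agent.P355.Seven

open scoped ComplexConjugate InnerProductSpace

/-- No set of seven or more pairwise mutually unbiased orthonormal bases of `ℂ^6` exists, given a
negative combination `S + aU + bV` on doubly regular Hadamard matrices. -/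
theorem card_le_six_of_cert (a b : ℝ) (hq : ∀ h, DReg h → qfun a b h < 0) (k : ℕ)
    (B : Fin k → OrthonormalBasis (Fin 6) ℂ (EuclideanSpace ℂ (Fin 6)))
    (hB : ∀ c d, c ≠ d → ∀ i j, ‖⟪B c i, B d j⟫_ℂ‖ ^ 2 = 1 / 6) : k ≤ 6 := by
  by_contra hk
  let e : Fin 7 → Fin k := Fin.castLE (by omega)
  let A : Fin 7 → Fin 6 → Fin 6 → ℂ := fun c i l => B (e c) i l
  have hip : ∀ c d i j, ip (A c i) (A d j) = ⟪B (e c) i, B (e d) j⟫_ℂ := by
    intro c d i j
    simp [ip, A, PiLp.inner_apply, mul_comm]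
  refine no_seven_of_cert a b hq A ⟨fun c i j => ?_, fun c d hcd i j => ?_⟩
  · rw [hip]
    exact orthonormal_iff_ite.1 (B (e c)).orthonormal i j
  · rw [hip, Complex.normSq_eq_norm_sq]
    exact hB _ _ (fun h => hcd (Fin.castLE_injective _ h)) i j

/-- The same consequence from a negative combination of centred features. -/
theorem card_le_six_of_feat {ι : Type} [Fintype ι] (cf : ι → ℂ) (ls : ι → List Lit)
    (sl : ι → Slot × Slot × Slot × Slot)
    (hv : ∀ m, monWt (ls m) = quartWt (sl m).1 (sl m).2.1 (sl m).2.2.1 (sl m).2.2.2)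
    (hneg : ∀ h, DReg h →
      (∑ m, cf m * feat (ls m) (sl m).1 (sl m).2.1 (sl m).2.2.1 (sl m).2.2.2 h).re < 0)
    (k : ℕ) (B : Fin k → OrthonormalBasis (Fin 6) ℂ (EuclideanSpace ℂ (Fin 6)))
    (hB : ∀ c d, c ≠ d → ∀ i j, ‖⟪B c i, B d j⟫_ℂ‖ ^ 2 = 1 / 6) : k ≤ 6 := by
  by_contra hk
  let e : Fin 7 → Fin k := Fin.castLE (by omega)
  let A : Fin 7 → Fin 6 → Fin 6 → ℂ := fun c i l => B (e c) i l
  have hip : ∀ c d i j, ip (A c i) (A d j) = ⟪B (e c) i, B (e d) j⟫_ℂ := by
    intro c d i j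
    simp [ip, A, PiLp.inner_apply, mul_comm]
  refine no_seven_of_feat cf ls sl hv hneg A ⟨fun c i j => ?_, fun c d hcd i j => ?_⟩
  · rw [hip]
    exact orthonormal_iff_ite.1 (B (e c)).orthonormal i j
  · rw [hip, Complex.normSq_eq_norm_sq]
    exact hB _ _ (fun h => hcd (Fin.castLE_injective _ h)) i j

end Vale.Agent.P355.Seven
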