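import Mathlib
import Vale.Agent.P355.Seven.Statement

/-!
The symmetries of doubly regular matrices (row and column permutations, transposition, complex
conjugation) transport centred features to centred features. So a combination of features that is
negative after averaging over these symmetries already excludes seven bases.
-/

namespace Vale.Agent.P355.Seven

open scoped ComplexConjugate BigOperators InnerProductSpace

/-- A row permutation, a column permutation, a conjugation flag and a transposition flag. -/
abbrev Gsym := Equiv.Perm (Fin 6) × Equiv.Perm (Fin 6) × Bool × Bool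

/-- The position read by the transformed matrix at `(i, j)`. -/
def gPos (g : Gsym) (i j : Fin 6) : Fin 6 × Fin 6 :=
  if g.2.2.2 then (g.2.1 j, g.1 i) else (g.1 i, g.2.1 j)

/-- The action on literals. -/
def litMap (g : Gsym) (l : Lit) : Lit :=
  ((gPos g l.1 l.2.1).1, (gPos g l.1 l.2.1).2, xor l.2.2 g.2.2.1)

/-- The action on slots. -/
def sMap (g : Gsym) (s : Slot) : Slot :=
  if g.2.2.2 then (Sum.map g.1 g.2.1 s).swap else Sum.map g.1 g.2.1 s

/-- The action on the four slots of a quartic. -/
def qMap (g : Gsym) (q : Slot × Slot × Slot × Slot) : Slot × Slot × Slot × Slot :=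
  if xor g.2.2.1 g.2.2.2 then
    (sMap g q.2.2.1, sMap g q.2.2.2, sMap g q.1, sMap g q.2.1)
  else (sMap g q.1, sMap g q.2.1, sMap g q.2.2.1, sMap g q.2.2.2)

/-- The action on matrices. -/
noncomputable def act (g : Gsym) (h : Fin 6 → Fin 6 → ℂ) : Fin 6 → Fin 6 → ℂ :=
  fun i j => litVal h (litMap g (i, j, true))

lemma litVal_flip (h : Fin 6 → Fin 6 → ℂ) (i j : Fin 6) (b : Bool) :
    litVal h (i, j, !b) = conj (litVal h (i, j, b)) := by
  cases b <;> simp [litVal]

lemma litVal_act (g : Gsym) (h : Fin 6 → Fin 6 → ℂ) (l : Lit) :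
    litVal (act g h) l = litVal h (litMap g l) := by
  obtain ⟨i, j, b⟩ := l
  obtain ⟨r, c, f, t⟩ := g
  cases b <;> cases f <;> simp [litVal, act, litMap, gPos]

lemma monVal_act (g : Gsym) (h : Fin 6 → Fin 6 → ℂ) (m : List Lit) :
    monVal (act g h) m = monVal h (m.map (litMap g)) := by
  simp only [monVal, List.map_map]
  congr 1
  exact List.map_congr_left fun l _ => litVal_act g h l

section Primitive

/-- Permuted rows and columns. -/
def hP (r c : Equiv.Perm (Fin 6)) (h : Fin 6 → Fin 6 → ℂ) : Fin 6 → Fin 6 → ℂ :=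
  fun i j => h (r i) (c j)

/-- The conjugate matrix. -/
noncomputable def hC (h : Fin 6 → Fin 6 → ℂ) : Fin 6 → Fin 6 → ℂ := fun i j => conj (h i j)

/-- The conjugate transpose. -/
noncomputable def hT (h : Fin 6 → Fin 6 → ℂ) : Fin 6 → Fin 6 → ℂ := fun i j => conj (h j i)

variable {h : Fin 6 → Fin 6 → ℂ}

lemma dreg_hP (r c : Equiv.Perm (Fin 6)) (hh : DReg h) : DReg (hP r c h) where
  unim i j := hh.unim _ _
  rows a b := by
    simp only [hP]
    rw [Equiv.sum_comp c (fun j => h (r a) j * conj (h (r b) j)), hh.rows]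
    simp
  cols j k := by
    simp only [hP]
    rw [Equiv.sum_comp r (fun i => conj (h i (c j)) * h i (c k)), hh.cols]
    simp
  rowSum i := by simp only [hP]; rw [Equiv.sum_comp c (fun j => h (r i) j), hh.rowSum]
  colSum j := by simp only [hP]; rw [Equiv.sum_comp r (fun i => h i (c j)), hh.colSum]

lemma dreg_hC (hh : DReg h) : DReg (hC h) where
  unim i j := by simp [hC, hh.unim]
  rows a b := by
    have e := congrArg conj (hh.rows a b)
    simp only [map_sum, map_mul] at e
    simp only [hC]
    rw [e]
    split_ifs <;> simp [map_ofNat]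
  cols j k := by
    have e := congrArg conj (hh.cols j k)
    simp only [map_sum, map_mul] at e
    simp only [hC]
    rw [e]
    split_ifs <;> simp [map_ofNat]
  rowSum i := by simp only [hC, ← map_sum, hh.rowSum, Complex.conj_ofReal]
  colSum j := by simp only [hC, ← map_sum, hh.colSum, Complex.conj_ofReal]

lemma dreg_hT (hh : DReg h) : DReg (hT h) where
  unim i j := by simp [hT, hh.unim]
  rows a b := by simpa [hT] using hh.cols a b
  cols j k := by simpa [hT] using hh.rows j k
  rowSum i := by simp only [hT, ← map_sum, hh.colSum, Complex.conj_ofReal]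
  colSum j := by simp only [hT, ← map_sum, hh.rowSum, Complex.conj_ofReal]

lemma restSum_hP (r c : Equiv.Perm (Fin 6)) (h : Fin 6 → Fin 6 → ℂ) (A B C D : Slot) :
    restSum (hP r c h) A B C D = restSum h (A.map r c) (B.map r c) (C.map r c) (D.map r c) := by
  have e : ∀ s k, sForm (hP r c h) s k = sForm h (s.map r c) (r k) := by
    rintro (i | j) k
    · simp [sForm, eF]
    · simp [sForm, cF, hP]
  have p : ∀ s t, pr (sForm (hP r c h) s) (sForm (hP r c h) t) =
      pr (sForm h (s.map r c)) (sForm h (t.map r c)) := by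
    intro s t
    simp only [pr, e]
    exact Equiv.sum_comp r (fun k => sForm h (s.map r c) k * conj (sForm h (t.map r c) k))
  have l : ∀ s m, lin (sForm (hP r c h) s) (fun k => hP r c h k m) =
      lin (sForm h (s.map r c)) (fun k => h k (c m)) := by
    intro s m
    simp only [lin, e, hP]
    exact Equiv.sum_comp r (fun k => sForm h (s.map r c) k * h k (c m))
  simp only [restSum, p, quart, l, e]
  rw [Equiv.sum_comp r (fun k => sForm h (A.map r c) k * sForm h (B.map r c) k *
      conj (sForm h (C.map r c) k * sForm h (D.map r c) k)),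
    Equiv.sum_comp c (fun m => lin (sForm h (A.map r c)) (fun k => h k m) *
      lin (sForm h (B.map r c)) (fun k => h k m) *
      conj (lin (sForm h (C.map r c)) (fun k => h k m) *
        lin (sForm h (D.map r c)) (fun k => h k m)))]

lemma restSum_hC (h : Fin 6 → Fin 6 → ℂ) (A B C D : Slot) :
    restSum (hC h) A B C D = restSum h C D A B := by
  have e : ∀ s k, sForm (hC h) s k = conj (sForm h s k) := by
    rintro (i | j) k
    · simp only [sForm, eF]; split_ifs <;> simp
    · simp [sForm, cF, hC, rt]
  have p : ∀ s t, pr (sForm (hC h) s) (sForm (hC h) t) = pr (sForm h t) (sForm h s) := by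
    intro s t
    simp only [pr, e, Complex.conj_conj]
    exact Finset.sum_congr rfl fun k _ => mul_comm _ _
  have l : ∀ s m, lin (sForm (hC h) s) (fun k => hC h k m) =
      conj (lin (sForm h s) (fun k => h k m)) := by
    intro s m
    simp [lin, e, hC]
  have g : ∀ k, sForm (hC h) A k * sForm (hC h) B k * conj (sForm (hC h) C k * sForm (hC h) D k) =
      sForm h C k * sForm h D k * conj (sForm h A k * sForm h B k) := by
    intro k
    simp only [e, map_mul, Complex.conj_conj]
    ring
  have q : ∀ m, quart (sForm (hC h) A) (sForm (hC h) B) (sForm (hC h) C) (sForm (hC h) D)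
      (fun k => hC h k m) =
      quart (sForm h C) (sForm h D) (sForm h A) (sForm h B) (fun k => h k m) := by
    intro m
    simp only [quart, l, map_mul, Complex.conj_conj]
    ring
  simp only [restSum, p, g, q]
  ring

lemma restSum_hT (hh : DReg h) (A B C D : Slot) :
    restSum (hT h) A B C D = restSum h A.swap B.swap C.swap D.swap := by
  have e : ∀ s m, sForm (hT h) s m = lin (sForm h s.swap) (fun k => h k m) / rt := by
    rintro (i | j) m
    · have := lin_cF_col hh.cols i m
      simp only [Sum.swap_inl, sForm, eF, lin, div_mul_eq_mul_div, ← Finset.sum_div] at this ⊢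
      rw [this, div_div, rt_mul_self]
      split_ifs <;> norm_num
    · simp [sForm, cF, hT, lin_eF]
  have key : ∀ (f : Fin 6 → ℂ) n, ∑ m, lin f (fun k => h k m) * conj (h n m) = 6 * f n := by
    intro f n
    simp only [lin, Finset.sum_mul]
    rw [Finset.sum_comm]
    simp only [mul_assoc, ← Finset.mul_sum, hh.rows]
    simp [mul_comm]
  have p : ∀ s t, pr (sForm (hT h) s) (sForm (hT h) t) =
      pr (sForm h s.swap) (sForm h t.swap) := by
    intro s t
    have h6 : conj rt = rt := Complex.conj_ofReal _
    simp only [pr, e, map_div₀, h6, div_mul_div_comm, rt_mul_self, ← Finset.sum_div]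
    rw [div_eq_iff (by norm_num), Finset.sum_mul]
    have el : ∀ m, conj (lin (sForm h t.swap) (fun k => h k m)) =
        ∑ n, conj (sForm h t.swap n) * conj (h n m) := fun m => by simp [lin]
    simp only [el, Finset.mul_sum]
    rw [Finset.sum_comm]
    refine Finset.sum_congr rfl fun n _ => ?_
    have := key (sForm h s.swap) n
    calc ∑ m, lin (sForm h s.swap) (fun k => h k m) * (conj (sForm h t.swap n) * conj (h n m))
        = conj (sForm h t.swap n) *
          ∑ m, lin (sForm h s.swap) (fun k => h k m) * conj (h n m) := by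
          rw [Finset.mul_sum]
          exact Finset.sum_congr rfl fun m _ => by ring
      _ = _ := by rw [this]; ring
  have l : ∀ s m, lin (sForm (hT h) s) (fun k => hT h k m) = rt * sForm h s.swap m := by
    intro s m
    show ∑ k, sForm (hT h) s k * conj (h m k) = _
    simp only [e, div_mul_eq_mul_div, ← Finset.sum_div]
    rw [key, div_eq_iff rt_ne]
    linear_combination (-sForm h s.swap m) * rt_mul_self
  have h6 : conj rt = rt := Complex.conj_ofReal _
  have g : ∀ k, sForm (hT h) A k * sForm (hT h) B k * conj (sForm (hT h) C k * sForm (hT h) D k) =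
      quart (sForm h A.swap) (sForm h B.swap) (sForm h C.swap) (sForm h D.swap)
        (fun n => h n k) / 36 := by
    intro k
    simp only [e, quart, map_mul, map_div₀, h6]
    rw [div_mul_div_comm, div_mul_div_comm, div_mul_div_comm, rt_mul_self]
    norm_num
  have q : ∀ m, quart (sForm (hT h) A) (sForm (hT h) B) (sForm (hT h) C) (sForm (hT h) D)
      (fun k => hT h k m) =
      36 * (sForm h A.swap m * sForm h B.swap m *
        conj (sForm h C.swap m * sForm h D.swap m)) := by
    intro m
    simp only [quart, l, map_mul, h6]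
    linear_combination (sForm h A.swap m * sForm h B.swap m * conj (sForm h C.swap m) *
      conj (sForm h D.swap m) * (rt * rt + 6)) * rt_mul_self
  simp only [restSum, p, g, q, ← Finset.mul_sum, ← Finset.sum_div]
  ring

end Primitive

lemma act_eq (g : Gsym) (h : Fin 6 → Fin 6 → ℂ) : act g h = hP g.1 g.2.1
    (match g.2.2.2, g.2.2.1 with
      | false, false => h
      | false, true => hC h
      | true, false => hC (hT h)
      | true, true => hT h) := by
  obtain ⟨r, c, f, t⟩ := g
  funext i j
  cases f <;> cases t <;> simp [act, litVal, litMap, gPos, hP, hC, hT]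

lemma dreg_act (g : Gsym) {h : Fin 6 → Fin 6 → ℂ} (hh : DReg h) : DReg (act g h) := by
  rw [act_eq]
  apply dreg_hP
  obtain ⟨r, c, f, t⟩ := g
  cases f <;> cases t
  · exact hh
  · exact dreg_hC (dreg_hT hh)
  · exact dreg_hC hh
  · exact dreg_hT hh

lemma feat_act (g : Gsym) {h : Fin 6 → Fin 6 → ℂ} (hh : DReg h) (m : List Lit)
    (q : Slot × Slot × Slot × Slot) :
    feat m q.1 q.2.1 q.2.2.1 q.2.2.2 (act g h) =
      feat (m.map (litMap g)) (qMap g q).1 (qMap g q).2.1 (qMap g q).2.2.1 (qMap g q).2.2.2 h := by
  obtain ⟨A, B, C, D⟩ := q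
  obtain ⟨r, c, f, t⟩ := g
  simp only [feat, monVal_act]
  congr 2
  rw [act_eq, restSum_hP]
  cases f <;> cases t <;> simp [qMap, sMap, restSum_hC, restSum_hT hh]

/-- The sign by which a symmetry acts on gauge weights. -/
def gSgn (g : Gsym) : ℤ := if xor g.2.2.1 g.2.2.2 then -1 else 1

lemma sMap_bij (g : Gsym) : Function.Bijective (sMap g) := by
  obtain ⟨r, c, f, t⟩ := g
  cases t
  · have e : sMap (r, c, f, false) = Equiv.sumCongr r c := by funext s; cases s <;> simp [sMap]
    rw [e]; exact Equiv.bijective _
  · have e : sMap (r, c, f, true) = (Equiv.sumCongr r c).trans (Equiv.sumComm _ _) := by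
      funext s; cases s <;> simp [sMap]
    rw [e]; exact Equiv.bijective _

lemma unit1_sMap (g : Gsym) (a s : Slot) : unit1 (sMap g a) (sMap g s) = unit1 a s := by
  simp [unit1, (sMap_bij g).1.eq_iff]

lemma litWt_sMap (g : Gsym) (l : Lit) (s : Slot) :
    litWt (litMap g l) (sMap g s) = gSgn g * litWt l s := by
  obtain ⟨i, j, b⟩ := l
  obtain ⟨r, c, f, t⟩ := g
  have e1 := unit1_sMap (r, c, f, t) (.inl i) s
  have e2 := unit1_sMap (r, c, f, t) (.inr j) s
  cases b <;> cases f <;> cases t <;>
    simp [sMap, gSgn, litWt, litMap, gPos] at e1 e2 ⊢ <;> rw [e1, e2]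

lemma monWt_sMap (g : Gsym) (m : List Lit) (s : Slot) :
    monWt (m.map (litMap g)) (sMap g s) = gSgn g * monWt m s := by
  induction m with
  | nil => simp [monWt]
  | cons a m ih =>
    simp only [monWt, List.map_cons, List.sum_cons, Pi.add_apply] at ih ⊢
    rw [litWt_sMap, ih]
    ring

lemma wt_qMap (g : Gsym) (m : List Lit) (q : Slot × Slot × Slot × Slot)
    (hv : monWt m = quartWt q.1 q.2.1 q.2.2.1 q.2.2.2) :
    monWt (m.map (litMap g)) =
      quartWt (qMap g q).1 (qMap g q).2.1 (qMap g q).2.2.1 (qMap g q).2.2.2 := by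
  funext t
  obtain ⟨s, rfl⟩ := (sMap_bij g).2 t
  rw [monWt_sMap, hv]
  obtain ⟨A, B, C, D⟩ := q
  cases hx : xor g.2.2.1 g.2.2.2 <;>
    simp [qMap, gSgn, hx, quartWt, unit1_sMap] <;> ring

/-- A combination of centred features whose average over the symmetries has negative real part
excludes seven bases. -/
theorem card_le_six_of_avg {ι : Type} [Fintype ι] (cf : ι → ℂ) (ls : ι → List Lit)
    (sl : ι → Slot × Slot × Slot × Slot)
    (hv : ∀ m, monWt (ls m) = quartWt (sl m).1 (sl m).2.1 (sl m).2.2.1 (sl m).2.2.2)
    (hneg : ∀ h, DReg h → (∑ g : Gsym, ∑ m, cf m *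
      feat (ls m) (sl m).1 (sl m).2.1 (sl m).2.2.1 (sl m).2.2.2 (act g h)).re < 0)
    (k : ℕ) (B : Fin k → OrthonormalBasis (Fin 6) ℂ (EuclideanSpace ℂ (Fin 6)))
    (hB : ∀ c d, c ≠ d → ∀ i j, ‖⟪B c i, B d j⟫_ℂ‖ ^ 2 = 1 / 6) : k ≤ 6 := by
  refine card_le_six_of_feat (ι := Gsym × ι) (fun p => cf p.2)
    (fun p => (ls p.2).map (litMap p.1)) (fun p => qMap p.1 (sl p.2))
    (fun p => wt_qMap p.1 _ _ (hv p.2)) (fun h hh => ?_) k B hB
  rw [Fintype.sum_prod_type]
  have := hneg h hh
  simpa only [feat_act _ hh] using this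

end Vale.Agent.P355.Seven
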