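import Mathlib
import Vale.Agent.P355.Seven.Sym

/-!
The average of a Laurent monomial over the symmetries, and the linear relations it satisfies:
invariance, cancellation of a literal against its conjugate, line sums and orthogonality.
-/

namespace Vale.Agent.P355.Seven

open scoped ComplexConjugate BigOperators

/-- Composition, the right factor acting first on literals. -/
def gMul (g k : Gsym) : Gsym :=
  (if k.2.2.2 then k.1.trans g.2.1 else k.1.trans g.1,
    if k.2.2.2 then k.2.1.trans g.1 else k.2.1.trans g.2.1,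
    xor k.2.2.1 g.2.2.1, xor k.2.2.2 g.2.2.2)

lemma litMap_gMul (g k : Gsym) (l : Lit) : litMap g (litMap k l) = litMap (gMul g k) l := by
  obtain ⟨r, c, f, t⟩ := g
  obtain ⟨r', c', f', t'⟩ := k
  obtain ⟨i, j, b⟩ := l
  cases t <;> cases t' <;> simp [litMap, gMul, gPos]

lemma gMul_bijective (k : Gsym) : Function.Bijective fun g => gMul g k := by
  refine Finite.injective_iff_bijective.1 ?_
  intro g g' he
  obtain ⟨r, c, f, t⟩ := g
  obtain ⟨r₁, c₁, f₁, t₁⟩ := g'
  obtain ⟨r', c', f', t'⟩ := k
  simp only [gMul, Prod.mk.injEq] at he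
  obtain ⟨h1, h2, h3, h4⟩ := he
  simp only [Bool.xor_right_inj] at h3 h4
  have hc : ∀ (a b b' : Equiv.Perm (Fin 6)), a.trans b = a.trans b' → b = b' := by
    intro a b b' e
    ext x
    simpa using congrArg (fun p : Equiv.Perm (Fin 6) => (p (a.symm x) : ℕ)) e
  cases t' <;> simp only [Bool.false_eq_true, if_true, if_false] at h1 h2
  · rw [hc _ _ _ h1, hc _ _ _ h2, h3, h4]
  · rw [hc _ _ _ h2, hc _ _ _ h1, h3, h4]

/-- The sum of a monomial over all transformed matrices. -/
noncomputable def orbVal (h : Fin 6 → Fin 6 → ℂ) (m : List Lit) : ℂ :=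
  ∑ g : Gsym, monVal (act g h) m

/-- The averaged monomial only depends on the orbit. -/
lemma orbVal_map (h : Fin 6 → Fin 6 → ℂ) (k : Gsym) (m : List Lit) :
    orbVal h (m.map (litMap k)) = orbVal h m := by
  unfold orbVal
  refine Fintype.sum_bijective (fun g => gMul g k) (gMul_bijective k) _ _ fun g => ?_
  rw [monVal_act, monVal_act, List.map_map]
  exact congrArg (monVal h) (List.map_congr_left fun l _ => litMap_gMul g k l)

/-- The averaged monomial only depends on the multiset of literals. -/
lemma orbVal_perm (h : Fin 6 → Fin 6 → ℂ) {m m' : List Lit} (e : m.Perm m') :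
    orbVal h m = orbVal h m' :=
  Finset.sum_congr rfl fun _ _ => (e.map _).prod_eq

lemma monVal_cons (h : Fin 6 → Fin 6 → ℂ) (l : Lit) (m : List Lit) :
    monVal h (l :: m) = litVal h l * monVal h m := by
  simp [monVal]

lemma monVal_append (h : Fin 6 → Fin 6 → ℂ) (m m' : List Lit) :
    monVal h (m ++ m') = monVal h m * monVal h m' := by
  simp [monVal]

variable {h : Fin 6 → Fin 6 → ℂ}

/-- A literal cancels against its conjugate. -/
lemma orbVal_cancel (hh : DReg h) (i j : Fin 6) (b : Bool) (m : List Lit) :
    orbVal h ((i, j, b) :: (i, j, !b) :: m) = orbVal h m := by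
  refine Finset.sum_congr rfl fun g _ => ?_
  rw [monVal_cons, monVal_cons, litVal_flip, ← mul_assoc, mul_comm (litVal _ _),
    conj_mul_one, one_mul]
  cases b <;> simp [litVal, (dreg_act g hh).unim]

/-- The empty monomial. -/
lemma orbVal_nil : orbVal h [] = (Fintype.card Gsym : ℂ) := by
  have e : ∀ g : Gsym, monVal (act g h) [] = 1 := fun g => rfl
  unfold orbVal
  rw [Finset.sum_congr rfl fun g _ => e g, Finset.sum_const, Finset.card_univ, nsmul_one]

/-- The row sum relation, multiplied by a monomial. -/
lemma orbVal_row (hh : DReg h) (i : Fin 6) (m : List Lit) :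
    ∑ j, orbVal h ((i, j, true) :: m) = ((Real.sqrt 6 : ℝ) : ℂ) * orbVal h m := by
  simp only [orbVal, monVal_cons]
  rw [Finset.sum_comm, Finset.mul_sum]
  refine Finset.sum_congr rfl fun g _ => ?_
  rw [← Finset.sum_mul]
  simp [litVal, (dreg_act g hh).rowSum]

/-- The orthogonality of two rows, multiplied by a monomial. -/
lemma orbVal_orth (hh : DReg h) {a b : Fin 6} (hab : a ≠ b) (m : List Lit) :
    ∑ j, orbVal h ((a, j, true) :: (b, j, false) :: m) = 0 := by
  simp only [orbVal, monVal_cons]
  rw [Finset.sum_comm]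
  refine Finset.sum_eq_zero fun g _ => ?_
  simp only [← mul_assoc, ← Finset.sum_mul]
  have := (dreg_act g hh).rows a b
  rw [if_neg hab] at this
  simp [litVal, this]

/-- The average of a polynomial equals the combination of averaged monomials. -/
lemma sum_act_combination {ι : Type} [Fintype ι] (cf : ι → ℂ) (ms : ι → List Lit) :
    ∑ g : Gsym, ∑ k, cf k * monVal (act g h) (ms k) = ∑ k, cf k * orbVal h (ms k) := by
  rw [Finset.sum_comm]
  simp [orbVal, Finset.mul_sum]

end Vale.Agent.P355.Seven
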