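import Mathlib
import Vale.Agent.P355.Seven.Avg

/-!
Numeric codes of literals, packed keys of monomials and a witness check which shows that two
monomials have the same average over the symmetries. The functions that the kernel evaluates use
only `Nat` operations and recursors.
-/

namespace Vale.Agent.P355.Seven

/-- The numeric code of a literal. -/
def lcode (l : Lit) : ℕ := 16 * (l.1 : ℕ) + 2 * (l.2.1 : ℕ) + cond l.2.2 1 0

/-- The literal of a code. -/
def ldec (n : ℕ) : Lit :=
  (⟨(n / 16) % 6, Nat.mod_lt _ (by norm_num)⟩, ⟨((n / 2) % 8) % 6, Nat.mod_lt _ (by norm_num)⟩,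
    Nat.beq (n % 2) 1)

/-- Whether a number is the code of a literal. -/
def okCode (n : ℕ) : Bool := and (Nat.blt n 96) (Nat.blt (Nat.land (Nat.shiftRight n 1) 7) 6)

lemma okCode_lcode (l : Lit) : okCode (lcode l) = true := by
  revert l; decide +kernel

lemma ldec_lcode (l : Lit) : ldec (lcode l) = l := by
  revert l; decide +kernel

lemma lcode_ldec {n : ℕ} (hn : okCode n = true) : lcode (ldec n) = n := by
  have key : ∀ k : Fin 96, okCode k = true → lcode (ldec k) = k := by decide +kernel
  have hlt : n < 96 := by
    simp only [okCode, Bool.and_eq_true, Nat.blt_eq] at hn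
    exact hn.1
  exact key ⟨n, hlt⟩ hn

/-- The `i`th entry of a packed permutation. -/
def pget (p i : ℕ) : ℕ := Nat.land (Nat.shiftRight p (Nat.mul 3 i)) 7

/-- The image of a code under packed permutations and the two flags. -/
def mapCode (p q f t n : ℕ) : ℕ :=
  let a := pget p (Nat.shiftRight n 4)
  let c := pget q (Nat.land (Nat.shiftRight n 1) 7)
  Nat.add
    (cond (Nat.beq t 1) (Nat.add (Nat.mul 16 c) (Nat.mul 2 a))
      (Nat.add (Nat.mul 16 a) (Nat.mul 2 c)))
    (Nat.xor (Nat.land n 1) f)

/-- The key of the image of a monomial. -/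
noncomputable def keyMap (p q f t : ℕ) : List ℕ → ℕ :=
  List.rec 0 fun n _ ih => Nat.add (Nat.shiftLeft 1 (Nat.mul 4 (mapCode p q f t n))) ih

/-- The key of a monomial. -/
noncomputable def keyList : List ℕ → ℕ :=
  List.rec 0 fun n _ ih => Nat.add (Nat.shiftLeft 1 (Nat.mul 4 n)) ih

/-- The key of a list of cancelling pairs. -/
noncomputable def padKey : List ℕ → ℕ :=
  List.rec 0 fun n _ ih => Nat.add (Nat.shiftLeft 1 (Nat.mul 4 n))
    (Nat.add (Nat.shiftLeft 1 (Nat.mul 4 (Nat.xor n 1))) ih)

/-- Whether all numbers of a list are codes. -/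
noncomputable def okList : List ℕ → Bool := List.rec true fun n _ ih => and (okCode n) ih

/-- The length of a list, by recursion. -/
noncomputable def lenList : List ℕ → ℕ := List.rec 0 fun _ _ ih => Nat.succ ih

/-- The union of the singletons of the six entries of a packed permutation. -/
def permBits (p : ℕ) : ℕ :=
  Nat.lor (Nat.shiftLeft 1 (pget p 0)) (Nat.lor (Nat.shiftLeft 1 (pget p 1))
    (Nat.lor (Nat.shiftLeft 1 (pget p 2)) (Nat.lor (Nat.shiftLeft 1 (pget p 3))
      (Nat.lor (Nat.shiftLeft 1 (pget p 4)) (Nat.shiftLeft 1 (pget p 5))))))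

/-- Whether a number packs a permutation of six points. -/
def okPerm (p : ℕ) : Bool := Nat.beq (permBits p) 63

/-- Whether a packed witness is a symmetry. -/
def okWit (p q f t : ℕ) : Bool :=
  and (okPerm p) (and (okPerm q) (and (Nat.ble f 1) (Nat.ble t 1)))

lemma testBit_permBits (p k : ℕ) :
    (permBits p).testBit k = true ↔ ∃ i : Fin 6, pget p i = k := by
  simp [permBits, Nat.shiftLeft_eq, Fin.exists_fin_succ, Nat.testBit_two_pow,
    show ∀ a b : ℕ, Nat.lor a b = a ||| b from fun _ _ => rfl]

lemma pget_lt {p : ℕ} (hp : okPerm p = true) (i : Fin 6) : pget p i < 6 := by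
  have h : (permBits p).testBit (pget p i) = true := (testBit_permBits p _).2 ⟨i, rfl⟩
  rw [Nat.eq_of_beq_eq_true hp] at h
  by_contra hc
  rw [Nat.testBit_lt_two_pow] at h
  · simp at h
  · calc 63 < 2 ^ 6 := by norm_num
      _ ≤ _ := Nat.pow_le_pow_right (by norm_num) (by omega)

/-- The permutation packed in a number. -/
noncomputable def pPerm (p : ℕ) (hp : okPerm p = true) : Equiv.Perm (Fin 6) :=
  Equiv.ofBijective (fun i => ⟨pget p i, pget_lt hp i⟩) <| by
    refine Finite.surjective_iff_bijective.1 fun k => ?_
    have h : (permBits p).testBit k = true := by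
      rw [Nat.eq_of_beq_eq_true hp]
      revert k
      decide
    obtain ⟨i, hi⟩ := (testBit_permBits p k).1 h
    exact ⟨i, Fin.ext hi⟩

lemma pPerm_apply (p : ℕ) (hp : okPerm p = true) (i : Fin 6) :
    ((pPerm p hp i : Fin 6) : ℕ) = pget p i := rfl

lemma exists_litMap {p q f t : ℕ} (h : okWit p q f t = true) :
    ∃ g : Gsym, ∀ n, okCode n = true → mapCode p q f t n = lcode (litMap g (ldec n)) := by
  simp only [okWit, Bool.and_eq_true, Nat.ble_eq] at h
  obtain ⟨hp, hq, hf, ht⟩ := h
  refine ⟨(pPerm p hp, pPerm q hq, Nat.beq f 1, Nat.beq t 1), fun n hn => ?_⟩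
  have e : ∀ k : Fin 96, okCode k = true →
      Nat.shiftRight k 4 = ((ldec k).1 : ℕ) ∧
      Nat.land (Nat.shiftRight k 1) 7 = ((ldec k).2.1 : ℕ) ∧
      Nat.land k 1 = cond (ldec k).2.2 1 0 := by decide +kernel
  have hlt : n < 96 := by
    simp only [okCode, Bool.and_eq_true, Nat.blt_eq] at hn
    exact hn.1
  obtain ⟨e1, e2, e3⟩ := e ⟨n, hlt⟩ hn
  simp only [mapCode, e1, e2, e3]
  obtain rfl | rfl : f = 0 ∨ f = 1 := by omega
  all_goals
    obtain rfl | rfl : t = 0 ∨ t = 1 := by omega
    all_goals
      simp only [show Nat.beq 0 1 = false from rfl, show Nat.beq 1 1 = true from rfl, lcode,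
        litMap, gPos, pPerm_apply, if_true, Bool.false_eq_true, if_false, cond_true, cond_false]
      generalize (ldec n).2.2 = b
      cases b <;> rfl

lemma keyMap_eq (p q f t : ℕ) (m : List ℕ) :
    keyMap p q f t m = keyList (m.map (mapCode p q f t)) := by
  induction m with
  | nil => rfl
  | cons n m ih => exact congrArg (Nat.add (Nat.shiftLeft 1 (Nat.mul 4 (mapCode p q f t n)))) ih

lemma keyList_eq (m : List ℕ) : keyList m = (m.map fun n => 16 ^ n).sum := by
  induction m with
  | nil => rfl
  | cons n m ih =>
    show Nat.shiftLeft 1 (Nat.mul 4 n) + keyList m = _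
    rw [ih, List.map_cons, List.sum_cons]
    congr 1
    rw [show Nat.shiftLeft 1 (Nat.mul 4 n) = 1 <<< (4 * n) from rfl, Nat.shiftLeft_eq, one_mul,
      pow_mul]
    norm_num

lemma keyList_append (m m' : List ℕ) : keyList (m ++ m') = keyList m + keyList m' := by
  simp [keyList_eq]

lemma lenList_eq (m : List ℕ) : lenList m = m.length := by
  induction m with
  | nil => rfl
  | cons n m ih => exact congrArg Nat.succ ih

lemma okList_iff (m : List ℕ) : okList m = true ↔ ∀ n ∈ m, okCode n = true := by
  induction m with
  | nil => simp [okList]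
  | cons n m ih =>
    show (okCode n && okList m) = true ↔ _
    simp [ih]

/-- The digit of a key is the multiplicity. -/
lemma keyList_digit (m : List ℕ) (hm : m.length < 16) (c : ℕ) :
    keyList m / 16 ^ c % 16 = m.count c := by
  obtain ⟨low, high, hlow, hkey⟩ : ∃ low high, low ≤ m.length * 16 ^ c / 16 ∧
      keyList m = low + 16 ^ c * (m.count c + 16 * high) := by
    clear hm
    induction m with
    | nil => exact ⟨0, 0, by simp, by simp [keyList_eq]⟩
    | cons n m ih =>
      obtain ⟨low, high, hlow, hkey⟩ := ih
      have hk : keyList (n :: m) = 16 ^ n + keyList m := by simp [keyList_eq]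
      have h16 : low * 16 ≤ m.length * 16 ^ c :=
        (Nat.le_div_iff_mul_le (by norm_num)).1 hlow
      rcases lt_trichotomy n c with h | rfl | h
      · refine ⟨16 ^ n + low, high, ?_, ?_⟩
        · rw [Nat.le_div_iff_mul_le (by norm_num), List.length_cons]
          have : 16 ^ n * 16 ≤ 16 ^ c := by
            rw [← pow_succ]; exact Nat.pow_le_pow_right (by norm_num) h
          nlinarith
        · rw [hk, hkey, List.count_cons_of_ne (by omega)]
          ring
      · refine ⟨low, high, le_trans hlow (Nat.div_le_div_right ?_), ?_⟩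
        · simp [add_mul]
        · rw [hk, hkey, List.count_cons_self]
          ring
      · refine ⟨low, high + 16 ^ (n - (c + 1)), le_trans hlow (Nat.div_le_div_right ?_), ?_⟩
        · simp [add_mul]
        · rw [hk, hkey, List.count_cons_of_ne (by omega)]
          have : (16 : ℕ) ^ n = 16 ^ c * (16 * 16 ^ (n - (c + 1))) := by
            rw [← pow_succ', ← pow_add]; congr 1; omega
          rw [this]
          ring
  have hlt : low < 16 ^ c := by
    have hc : 0 < (16 : ℕ) ^ c := pow_pos (by norm_num) c
    have h16 : low * 16 ≤ m.length * 16 ^ c := (Nat.le_div_iff_mul_le (by norm_num)).1 hlow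
    nlinarith
  rw [hkey, Nat.add_mul_div_left _ _ (pow_pos (by norm_num) c), Nat.div_eq_of_lt hlt, zero_add,
    Nat.add_mul_mod_self_left, Nat.mod_eq_of_lt (lt_of_le_of_lt List.count_le_length hm)]

lemma perm_of_keyList {m m' : List ℕ} (hm : m.length < 16) (hm' : m'.length < 16)
    (e : keyList m = keyList m') : m.Perm m' := by
  rw [List.perm_iff_count]
  intro c
  rw [← keyList_digit m hm c, ← keyList_digit m' hm' c, e]

/-- The averaged value of a coded monomial. -/
noncomputable def codeVal (h : Fin 6 → Fin 6 → ℂ) (m : List ℕ) : ℂ := orbVal h (m.map ldec)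

/-- The list of cancelling pairs. -/
def padList : List ℕ → List ℕ
  | [] => []
  | n :: l => n :: Nat.xor n 1 :: padList l

lemma padKey_eq (l : List ℕ) : padKey l = keyList (padList l) := by
  induction l with
  | nil => rfl
  | cons n l ih =>
    show Nat.shiftLeft 1 (Nat.mul 4 n) + (Nat.shiftLeft 1 (Nat.mul 4 (Nat.xor n 1)) + padKey l) = _
    rw [ih]
    rfl

lemma length_padList (l : List ℕ) : (padList l).length = 2 * l.length := by
  induction l with
  | nil => rfl
  | cons n l ih => simp only [padList, List.length_cons, ih]; ring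

lemma codeVal_pad {h : Fin 6 → Fin 6 → ℂ} (hh : DReg h) (l rep : List ℕ)
    (hl : okList l = true) : codeVal h (padList l ++ rep) = codeVal h rep := by
  induction l with
  | nil => rfl
  | cons n l ih =>
    rw [okList_iff] at hl
    have e : ∀ k : Fin 96, okCode k = true →
        ldec (Nat.xor k 1) = ((ldec k).1, (ldec k).2.1, !(ldec k).2.2) := by decide +kernel
    have hn : okCode n = true := hl n List.mem_cons_self
    have hlt : n < 96 := by
      simp only [okCode, Bool.and_eq_true, Nat.blt_eq] at hn
      exact hn.1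
    have e' := e ⟨n, hlt⟩ hn
    have i := ih ((okList_iff l).2 fun k hk => hl k (List.mem_cons_of_mem _ hk))
    simp only [codeVal, padList, List.cons_append, List.map_cons] at i ⊢
    simp only at e'
    rw [e', orbVal_cancel hh, i]

/-- The witness check for one term: the transformed monomial is the representative up to
cancelling pairs. -/
noncomputable def okTerm (p q f t : ℕ) (m pad rep : List ℕ) : Bool :=
  and (okWit p q f t) (and (okList pad)
    (and (Nat.blt (Nat.add (lenList rep) (Nat.mul 2 (lenList pad))) 16)
      (and (Nat.beq (lenList m) (Nat.add (lenList rep) (Nat.mul 2 (lenList pad))))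
        (Nat.beq (keyMap p q f t m) (Nat.add (keyList rep) (padKey pad))))))

/-- A passed check identifies the two averages. -/
theorem codeVal_of_okTerm {h : Fin 6 → Fin 6 → ℂ} (hh : DReg h) {p q f t : ℕ}
    {m pad rep : List ℕ} (hm : okList m = true) (hok : okTerm p q f t m pad rep = true) :
    codeVal h m = codeVal h rep := by
  simp only [okTerm, Bool.and_eq_true, lenList_eq, Nat.blt_eq] at hok
  obtain ⟨hw, hpad, h16, hlen, hkey⟩ := hok
  have hlen' : m.length = rep.length + 2 * pad.length := Nat.eq_of_beq_eq_true hlen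
  have hkey' : keyMap p q f t m = keyList rep + padKey pad := Nat.eq_of_beq_eq_true hkey
  have h16' : rep.length + 2 * pad.length < 16 := h16
  obtain ⟨g, hg⟩ := exists_litMap hw
  have hperm : (m.map (mapCode p q f t)).Perm (padList pad ++ rep) := by
    refine perm_of_keyList ?_ ?_ ?_
    · rw [List.length_map]; omega
    · rw [List.length_append, length_padList]; omega
    · rw [← keyMap_eq, hkey', keyList_append, ← padKey_eq]; ring
  have e : (m.map (mapCode p q f t)).map ldec = (m.map ldec).map (litMap g) := by
    rw [List.map_map, List.map_map]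
    refine List.map_congr_left fun n hn => ?_
    simp [hg n ((okList_iff m).1 hm n hn), ldec_lcode]
  calc codeVal h m = orbVal h ((m.map (mapCode p q f t)).map ldec) := by
        rw [e, orbVal_map]; rfl
    _ = codeVal h (padList pad ++ rep) := orbVal_perm h (hperm.map ldec)
    _ = codeVal h rep := codeVal_pad hh pad rep hpad

end Vale.Agent.P355.Seven
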