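import Mathlib
import Vale.Agent.P355.Seven.Key

/-!
The checker for linear identities between averaged monomials. Source terms are moved to a table of
orbit representatives by packed witnesses and their coefficients are added up in a binary tree.
-/

namespace Vale.Agent.P355.Seven

open scoped BigOperators

/-- A binary tree with values at the leaves. -/
inductive ATree (α : Type) : Type
  | none : ATree α
  | leaf (v : α) : ATree α
  | node (l r : ATree α) : ATree α

namespace ATree

/-- The left subtree. -/
noncomputable def left {α : Type} (T : ATree α) : ATree α :=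
  ATree.rec ATree.none (fun _ => ATree.none) (fun l _ _ _ => l) T

/-- The right subtree. -/
noncomputable def right {α : Type} (T : ATree α) : ATree α :=
  ATree.rec ATree.none (fun _ => ATree.none) (fun _ r _ _ => r) T

/-- The value of a leaf, with a default. -/
noncomputable def val {α : Type} (d : α) (T : ATree α) : α :=
  ATree.rec d (fun v => v) (fun _ _ _ _ => d) T

/-- The value stored at an index. -/
noncomputable def get {α : Type} (d : α) : ℕ → ATree α → ℕ → α :=
  Nat.rec (fun T _ => T.val d) fun k ih T i =>
    cond (Nat.ble (Nat.shiftLeft 1 k) i) (ih T.right (Nat.sub i (Nat.shiftLeft 1 k)))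
      (ih T.left i)

/-- Add a number at an index. -/
noncomputable def bump : ℕ → ATree ℤ → ℕ → ℤ → ATree ℤ :=
  Nat.rec (fun T _ c => ATree.leaf (Int.add (T.val 0) c)) fun k ih T i c =>
    cond (Nat.ble (Nat.shiftLeft 1 k) i)
      (ATree.node T.left (ih T.right (Nat.sub i (Nat.shiftLeft 1 k)) c))
      (ATree.node (ih T.left i c) T.right)

/-- All stored numbers vanish. -/
noncomputable def allZero : ATree ℤ → Bool :=
  ATree.rec true (fun v => Int.beq' v 0) fun _ _ a b => and a b

/-- The weighted sum of the entries of a tree of a given depth. -/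
noncomputable def value (F : ℕ → ℂ) : ℕ → ATree ℤ → ℕ → ℂ :=
  Nat.rec (fun T o => ((T.val (0 : ℤ) : ℤ) : ℂ) * F o) fun k ih T o =>
    ih T.left o + ih T.right (o + 2 ^ k)

lemma val_eq_zero {T : ATree ℤ} (h : T.allZero = true) : T.val 0 = 0 := by
  cases T with
  | none => rfl
  | leaf v =>
    change Int.beq' v 0 = true at h
    show v = 0
    simpa using h
  | node l r => rfl

lemma allZero_left {T : ATree ℤ} (h : T.allZero = true) : T.left.allZero = true := by
  cases T with
  | none => rfl
  | leaf v => rfl
  | node l r =>
    change (l.allZero && r.allZero) = true at h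
    exact ((Bool.and_eq_true _ _).mp h).1

lemma allZero_right {T : ATree ℤ} (h : T.allZero = true) : T.right.allZero = true := by
  cases T with
  | none => rfl
  | leaf v => rfl
  | node l r =>
    change (l.allZero && r.allZero) = true at h
    exact ((Bool.and_eq_true _ _).mp h).2

lemma value_eq_zero (F : ℕ → ℂ) (k : ℕ) (T : ATree ℤ) (o : ℕ) (h : T.allZero = true) :
    value F k T o = 0 := by
  induction k generalizing T o with
  | zero =>
    show ((T.val (0 : ℤ) : ℤ) : ℂ) * F o = 0
    rw [val_eq_zero h]
    simp
  | succ k ih =>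
    show value F k T.left o + value F k T.right (o + 2 ^ k) = 0
    rw [ih _ _ (allZero_left h), ih _ _ (allZero_right h), add_zero]

lemma value_bump (F : ℕ → ℂ) (k : ℕ) (T : ATree ℤ) (o i : ℕ) (c : ℤ) (hi : i < 2 ^ k) :
    value F k (bump k T i c) o = value F k T o + (c : ℂ) * F (o + i) := by
  induction k generalizing T o i with
  | zero =>
    obtain rfl : i = 0 := by simpa using hi
    show ((T.val 0 + c : ℤ) : ℂ) * F o = ((T.val (0 : ℤ) : ℤ) : ℂ) * F o + _
    rw [add_zero]
    push_cast
    ring
  | succ k ih =>
    have hb : bump (k + 1) T i c = cond (Nat.ble (Nat.shiftLeft 1 k) i)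
        (ATree.node T.left (bump k T.right (Nat.sub i (Nat.shiftLeft 1 k)) c))
        (ATree.node (bump k T.left i c) T.right) := rfl
    have hs : Nat.shiftLeft 1 k = 2 ^ k := by
      rw [show Nat.shiftLeft 1 k = 1 <<< k from rfl, Nat.shiftLeft_eq, one_mul]
    rw [hb, hs]
    by_cases hc : 2 ^ k ≤ i
    · have h' : i - 2 ^ k < 2 ^ k := by
        have : 2 ^ (k + 1) = 2 ^ k + 2 ^ k := by ring
        omega
      rw [Nat.ble_eq_true_of_le hc, cond_true]
      show value F k T.left o + value F k (bump k T.right (i - 2 ^ k) c) (o + 2 ^ k) = _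
      rw [ih _ _ _ h', show o + 2 ^ k + (i - 2 ^ k) = o + i by omega]
      show _ = value F k T.left o + value F k T.right (o + 2 ^ k) + _
      ring
    · rw [Bool.eq_false_iff.2 fun h => hc (Nat.le_of_ble_eq_true h), cond_false]
      show value F k (bump k T.left i c) o + value F k T.right (o + 2 ^ k) = _
      rw [ih _ _ _ (Nat.not_le.1 hc)]
      show _ = value F k T.left o + value F k T.right (o + 2 ^ k) + _
      ring

lemma value_none (F : ℕ → ℂ) (k o : ℕ) : value F k ATree.none o = 0 :=
  value_eq_zero F k _ o rfl

end ATree

/-- The parity scaled averaged value of a coded monomial: odd monomials carry a factor `√6`. -/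
noncomputable def wVal (h : Fin 6 → Fin 6 → ℂ) (m : List ℕ) : ℂ :=
  ((Real.sqrt 6 : ℝ) : ℂ) ^ (m.length % 2) * codeVal h m

/-- Field of a witness: the packed row permutation. -/
def wP (w : ℕ) : ℕ := Nat.land w 262143

/-- Field of a witness: the packed column permutation. -/
def wQ (w : ℕ) : ℕ := Nat.land (Nat.shiftRight w 18) 262143

/-- Field of a witness: the conjugation flag. -/
def wF (w : ℕ) : ℕ := Nat.land (Nat.shiftRight w 36) 1

/-- Field of a witness: the transposition flag. -/
def wT (w : ℕ) : ℕ := Nat.land (Nat.shiftRight w 37) 1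

/-- Field of a witness: the index of the representative. -/
def wIdx (w : ℕ) : ℕ := Nat.land (Nat.shiftRight w 38) 65535

/-- Field of a witness: the cancelling pairs. -/
noncomputable def wPad (w : ℕ) : List ℕ :=
  Nat.rec (motive := fun _ => ℕ → List ℕ) (fun _ => [])
    (fun _ ih p => List.cons (Nat.land p 127) (ih (Nat.shiftRight p 7)))
    (Nat.land (Nat.shiftRight w 54) 7) (Nat.shiftRight w 57)

/-- The weighted sum of a list of coded monomials. -/
noncomputable def termSum (h : Fin 6 → Fin 6 → ℂ) (S : List (ℤ × List ℕ)) : ℂ :=
  (S.map fun x => (x.1 : ℂ) * wVal h x.2).sum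

/-- The weighted sum of a list of indices into a table. -/
noncomputable def idxSum (h : Fin 6 → Fin 6 → ℂ) (tbl : ℕ → List ℕ) (P : List (ℕ × ℤ)) : ℂ :=
  (P.map fun x => (x.2 : ℂ) * wVal h (tbl x.1)).sum

/-- Subtract the claimed totals. -/
noncomputable def loadTotals : List (ℕ × ℤ) → Option (ATree ℤ) :=
  List.rec (some ATree.none) fun x _ ih =>
    Option.rec Option.none (fun T => cond (Nat.blt x.1 65536)
      (some (ATree.bump 16 T x.1 (Int.neg x.2))) Option.none) ih

/-- Add the source terms through their witnesses. -/
noncomputable def loadTerms (tbl : ℕ → List ℕ) :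
    List (ℤ × List ℕ) → List ℕ → Option (ATree ℤ) → Option (ATree ℤ) :=
  List.rec (fun W acc => List.rec acc (fun _ _ _ => Option.none) W) fun x _ ih W acc =>
    List.rec Option.none (fun w W' _ => Option.rec Option.none (fun T =>
      cond (and (okList x.2)
        (okTerm (wP w) (wQ w) (wF w) (wT w) x.2 (wPad w) (tbl (wIdx w))))
        (ih W' (some (ATree.bump 16 T (wIdx w) x.1))) Option.none) acc) W

/-- The whole check. -/
noncomputable def checkTerms (tbl : ℕ → List ℕ) (S : List (ℤ × List ℕ)) (W : List ℕ)
    (P : List (ℕ × ℤ)) : Bool :=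
  Option.rec false ATree.allZero (loadTerms tbl S W (loadTotals P))

lemma wVal_of_okTerm {h : Fin 6 → Fin 6 → ℂ} (hh : DReg h) {p q f t : ℕ} {m pad rep : List ℕ}
    (hm : okList m = true) (hok : okTerm p q f t m pad rep = true) : wVal h m = wVal h rep := by
  have hlen := hok
  simp only [okTerm, Bool.and_eq_true, lenList_eq] at hlen
  have e : m.length = rep.length + 2 * pad.length := Nat.eq_of_beq_eq_true hlen.2.2.2.1
  rw [wVal, wVal, codeVal_of_okTerm hh hm hok, e, Nat.add_mul_mod_self_left]

lemma wIdx_lt (w : ℕ) : wIdx w < 2 ^ 16 :=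
  lt_of_le_of_lt Nat.and_le_right (by norm_num)

lemma loadTotals_value {h : Fin 6 → Fin 6 → ℂ} (tbl : ℕ → List ℕ) :
    ∀ (P : List (ℕ × ℤ)) (T : ATree ℤ), loadTotals P = some T →
      ATree.value (fun i => wVal h (tbl i)) 16 T 0 = -idxSum h tbl P := by
  intro P
  induction P with
  | nil =>
    intro T e
    obtain rfl : ATree.none = T := Option.some.inj e
    simp [ATree.value_none, idxSum]
  | cons x P ih =>
    intro T e
    obtain ⟨i, c⟩ := x
    change Option.rec Option.none (fun T => cond (Nat.blt i 65536)
      (some (ATree.bump 16 T i (-c))) Option.none) (loadTotals P) = some T at e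
    cases hp : loadTotals P with
    | none => rw [hp] at e; exact absurd e (by simp)
    | some U =>
      rw [hp] at e
      cases hb : Nat.blt i 65536 with
      | false => simp [hb] at e
      | true =>
        simp only [hb, cond_true, Option.some.injEq] at e
        subst e
        rw [Nat.blt_eq] at hb
        rw [ATree.value_bump _ _ _ _ _ _ (by norm_num; omega), ih U hp]
        simp [idxSum]

lemma loadTerms_value {h : Fin 6 → Fin 6 → ℂ} (hh : DReg h) (tbl : ℕ → List ℕ) :
    ∀ (S : List (ℤ × List ℕ)) (W : List ℕ) (acc : Option (ATree ℤ)) (T : ATree ℤ),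
      loadTerms tbl S W acc = some T → ∃ U, acc = some U ∧
        ATree.value (fun i => wVal h (tbl i)) 16 T 0 =
          ATree.value (fun i => wVal h (tbl i)) 16 U 0 + termSum h S := by
  intro S
  induction S with
  | nil =>
    intro W acc T e
    cases W with
    | nil => exact ⟨T, e, by simp [termSum]⟩
    | cons w W => exact absurd e (by simp [loadTerms])
  | cons x S ih =>
    intro W acc T e
    cases W with
    | nil => exact absurd e (by simp [loadTerms])
    | cons w W =>
      cases acc with
      | none => exact absurd e (by simp [loadTerms])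
      | some U =>
        change cond (and (okList x.2)
          (okTerm (wP w) (wQ w) (wF w) (wT w) x.2 (wPad w) (tbl (wIdx w))))
          (loadTerms tbl S W (some (ATree.bump 16 U (wIdx w) x.1))) Option.none = some T at e
        cases hb : (okList x.2 &&
            okTerm (wP w) (wQ w) (wF w) (wT w) x.2 (wPad w) (tbl (wIdx w))) with
        | false => simp [hb] at e
        | true =>
          rw [hb, cond_true] at e
          obtain ⟨V, hV, hval⟩ := ih W _ T e
          obtain rfl := Option.some.inj hV
          rw [Bool.and_eq_true] at hb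
          refine ⟨U, rfl, ?_⟩
          rw [hval, ATree.value_bump _ _ _ _ _ _ (wIdx_lt w), zero_add,
            ← wVal_of_okTerm hh hb.1 hb.2]
          simp [termSum]
          ring

/-- A passed check turns a source sum into a sum over the table. -/
theorem termSum_of_check {h : Fin 6 → Fin 6 → ℂ} (hh : DReg h) {tbl : ℕ → List ℕ}
    {S : List (ℤ × List ℕ)} {W : List ℕ} {P : List (ℕ × ℤ)}
    (hc : checkTerms tbl S W P = true) : termSum h S = idxSum h tbl P := by
  unfold checkTerms at hc
  cases hT : loadTerms tbl S W (loadTotals P) with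
  | none => rw [hT] at hc; exact absurd hc (by simp)
  | some T =>
    rw [hT] at hc
    obtain ⟨U, hU, hval⟩ := loadTerms_value hh tbl S W _ T hT
    rw [ATree.value_eq_zero _ _ _ _ hc, loadTotals_value tbl P U hU] at hval
    linear_combination -hval

/-- Totals that cancel have vanishing sum. -/
theorem idxSum_eq_zero {h : Fin 6 → Fin 6 → ℂ} {tbl : ℕ → List ℕ} {P : List (ℕ × ℤ)}
    (hc : Option.rec false ATree.allZero (loadTotals P) = true) : idxSum h tbl P = 0 := by
  cases hT : loadTotals P with
  | none => rw [hT] at hc; exact absurd hc (by simp)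
  | some T =>
    rw [hT] at hc
    have := loadTotals_value (h := h) tbl P T hT
    rw [ATree.value_eq_zero _ _ _ _ hc] at this
    linear_combination this

lemma idxSum_append (h : Fin 6 → Fin 6 → ℂ) (tbl : ℕ → List ℕ) (P Q : List (ℕ × ℤ)) :
    idxSum h tbl (P ++ Q) = idxSum h tbl P + idxSum h tbl Q := by
  simp [idxSum]

lemma termSum_append (h : Fin 6 → Fin 6 → ℂ) (S R : List (ℤ × List ℕ)) :
    termSum h (S ++ R) = termSum h S + termSum h R := by
  simp [termSum]

end Vale.Agent.P355.Seven
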