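import Mathlib
import Vale.Agent.P355.Seven.Acc

/-!
Correlations of weight vectors. A product of two symmetrised vectors averages to a short
combination indexed by patterns: each pair of permutations is moved to its pattern by a witness
permutation which agrees with the first one on the rows of the first monomial.
-/

namespace Vale.Agent.P355.Seven

open scoped BigOperators

/-- A monomial with permuted rows and columns. -/
noncomputable def mapRC (p q : ℕ) : List ℕ → List ℕ :=
  List.rec [] fun n _ ih => List.cons (mapCode p q 0 0 n) ih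

/-- Whether a monomial lives in the first `r` rows and the first `c` columns. -/
noncomputable def okSupp (r c : ℕ) : List ℕ → Bool :=
  List.rec true fun n _ ih => and (okCode n) (and (Nat.blt (Nat.shiftRight n 4) r)
    (and (Nat.blt (Nat.land (Nat.shiftRight n 1) 7) c) ih))

/-- Whether two packed permutations agree on the first `r` points. -/
noncomputable def agree (x y : ℕ) : ℕ → Bool :=
  Nat.rec true fun k ih => and (Nat.beq (pget x k) (pget y k)) ih

/-- Whether `x ∘ d` agrees with `y` on the first `r` points. -/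
noncomputable def agreeComp (x d y : ℕ) : ℕ → Bool :=
  Nat.rec true fun k ih => and (Nat.beq (pget x (pget d k)) (pget y k)) ih

/-- The check that the pair `(s, s')` has pattern `d`, with witness `w`. -/
noncomputable def okPush (r r' s s' w d : ℕ) : Bool :=
  and (okPerm s) (and (okPerm s') (and (okPerm w) (and (okPerm d)
    (and (agree w s r) (agreeComp w d s' r')))))

/-- Push one row of pairs into the tree of totals. -/
noncomputable def pushRow (r r' : ℕ) (pat : ℕ → ℕ) (s : ℕ) (c : ℤ) :
    List (ℕ × ℤ) → List ℕ → Option (ATree ℤ) → Option (ATree ℤ) :=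
  List.rec (fun _ acc => acc) fun y _ ih W acc =>
    List.rec Option.none (fun w W' _ => Option.rec Option.none (fun T =>
      cond (okPush r r' s y.1 (Nat.land w 262143) (pat (Nat.land (Nat.shiftRight w 18) 65535)))
        (ih W' (some (ATree.bump 16 T (Nat.land (Nat.shiftRight w 18) 65535) (Int.mul c y.2))))
        Option.none) acc) W

/-- Push all pairs; the witnesses come in one list for each element of the first vector. -/
noncomputable def pushAll (r r' : ℕ) (pat : ℕ → ℕ) (b : List (ℕ × ℤ)) :
    List (ℕ × ℤ) → List (List ℕ) → Option (ATree ℤ) → Option (ATree ℤ) :=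
  List.rec (fun W acc => List.rec acc (fun _ _ _ => Option.none) W) fun x _ ih W acc =>
    List.rec Option.none (fun w W' _ => ih W' (pushRow r r' pat x.1 x.2 b w acc)) W

/-- The check of a correlation table. -/
noncomputable def checkCorr (r r' : ℕ) (pat : ℕ → ℕ) (a b : List (ℕ × ℤ)) (W : List (List ℕ))
    (z : List (ℕ × ℤ)) : Bool :=
  Option.rec false ATree.allZero (pushAll r r' pat b a W (loadTotals z))

/-- A weighted sum over a vector. -/
noncomputable def vecSum (a : List (ℕ × ℤ)) (f : ℕ → ℂ) : ℂ :=
  (a.map fun x => (x.2 : ℂ) * f x.1).sum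

lemma vecSum_nil (f : ℕ → ℂ) : vecSum [] f = 0 := rfl

lemma vecSum_cons (x : ℕ × ℤ) (a : List (ℕ × ℤ)) (f : ℕ → ℂ) :
    vecSum (x :: a) f = (x.2 : ℂ) * f x.1 + vecSum a f := by
  simp [vecSum]

lemma vecSum_congr {a : List (ℕ × ℤ)} {f g : ℕ → ℂ} (h : ∀ n, f n = g n) :
    vecSum a f = vecSum a g := by
  rw [funext h]

lemma vecSum_comm (a b : List (ℕ × ℤ)) (f : ℕ → ℕ → ℂ) :
    vecSum a (fun x => vecSum b (f x)) = vecSum b (fun y => vecSum a fun x => f x y) := by
  induction a with
  | nil =>
    simp only [vecSum_nil]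
    induction b with
    | nil => rfl
    | cons y b ih => rw [vecSum_cons, ← ih]; simp
  | cons x a ih =>
    simp only [vecSum_cons, ih]
    induction b with
    | nil => simp [vecSum_nil]
    | cons y b ihb =>
      simp only [vecSum_cons]
      have e : ∀ (l : List (ℕ × ℤ)) (u v : ℕ → ℂ) (k : ℂ),
          vecSum l (fun n => k * u n + v n) = k * vecSum l u + vecSum l v := by
        intro l u v k
        induction l with
        | nil => simp [vecSum_nil]
        | cons z l il => simp only [vecSum_cons, il]; ring
      rw [e b (f x.1) (fun n => vecSum a fun m => f m n) (x.2 : ℂ)]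
      ring

lemma pushRow_value {r r' : ℕ} {pat : ℕ → ℕ} {f : ℕ → ℕ → ℂ} {G : ℕ → ℂ}
    (hf : ∀ s s' w d, okPush r r' s s' w d = true → f s s' = G d) (s : ℕ) (c : ℤ) :
    ∀ (b : List (ℕ × ℤ)) (W : List ℕ) (acc : Option (ATree ℤ)) (T : ATree ℤ),
      pushRow r r' pat s c b W acc = some T → ∃ U, acc = some U ∧
        ATree.value (fun i => G (pat i)) 16 T 0 =
          ATree.value (fun i => G (pat i)) 16 U 0 + (c : ℂ) * vecSum b (f s) := by
  intro b
  induction b with
  | nil =>
    intro W acc T e
    exact ⟨T, e, by simp [vecSum_nil]⟩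
  | cons y b ih =>
    intro W acc T e
    cases W with
    | nil => exact absurd e (by simp [pushRow])
    | cons w W =>
      cases acc with
      | none => exact absurd e (by simp [pushRow])
      | some U =>
        change cond (okPush r r' s y.1 (Nat.land w 262143)
            (pat (Nat.land (Nat.shiftRight w 18) 65535)))
          (pushRow r r' pat s c b W (some (ATree.bump 16 U
            (Nat.land (Nat.shiftRight w 18) 65535) (c * y.2)))) Option.none = some T at e
        cases hb : okPush r r' s y.1 (Nat.land w 262143)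
            (pat (Nat.land (Nat.shiftRight w 18) 65535)) with
        | false =>
          rw [hb, cond_false] at e
          exact absurd e (by simp)
        | true =>
          rw [hb, cond_true] at e
          obtain ⟨V, hV, hval⟩ := ih W _ T e
          obtain rfl := Option.some.inj hV
          have hi : Nat.land (Nat.shiftRight w 18) 65535 < 2 ^ 16 :=
            lt_of_le_of_lt Nat.and_le_right (by norm_num)
          refine ⟨U, rfl, ?_⟩
          rw [hval, ATree.value_bump _ _ _ _ _ _ hi, zero_add, vecSum_cons, ← hf _ _ _ _ hb]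
          push_cast
          ring

lemma pushAll_value {r r' : ℕ} {pat : ℕ → ℕ} {f : ℕ → ℕ → ℂ} {G : ℕ → ℂ}
    (hf : ∀ s s' w d, okPush r r' s s' w d = true → f s s' = G d) (b : List (ℕ × ℤ)) :
    ∀ (a : List (ℕ × ℤ)) (W : List (List ℕ)) (acc : Option (ATree ℤ)) (T : ATree ℤ),
      pushAll r r' pat b a W acc = some T → ∃ U, acc = some U ∧
        ATree.value (fun i => G (pat i)) 16 T 0 =
          ATree.value (fun i => G (pat i)) 16 U 0 + vecSum a (fun x => vecSum b (f x)) := by
  intro a
  induction a with
  | nil =>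
    intro W acc T e
    cases W with
    | nil => exact ⟨T, e, by simp [vecSum_nil]⟩
    | cons w W => exact absurd e (by simp [pushAll])
  | cons x a ih =>
    intro W acc T e
    cases W with
    | nil => exact absurd e (by simp [pushAll])
    | cons w W =>
      change pushAll r r' pat b a W (pushRow r r' pat x.1 x.2 b w acc) = some T at e
      obtain ⟨V, hV, hval⟩ := ih W _ T e
      obtain ⟨U, hU, hv'⟩ := pushRow_value hf x.1 x.2 b w acc V hV
      refine ⟨U, hU, ?_⟩
      rw [hval, hv', vecSum_cons]
      ring

lemma loadTotals_value' (G : ℕ → ℂ) :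
    ∀ (P : List (ℕ × ℤ)) (T : ATree ℤ), loadTotals P = some T →
      ATree.value G 16 T 0 = -vecSum P G := by
  intro P
  induction P with
  | nil =>
    intro T e
    obtain rfl : ATree.none = T := Option.some.inj e
    simp [ATree.value_none, vecSum_nil]
  | cons x P ih =>
    intro T e
    obtain ⟨i, c⟩ := x
    change Option.rec Option.none (fun T => cond (Nat.blt i 65536)
      (some (ATree.bump 16 T i (-c))) Option.none) (loadTotals P) = some T at e
    cases hp : loadTotals P with
    | none => rw [hp] at e; exact absurd e (by simp)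
    | some U =>
      rw [hp] at e
      cases hb : Nat.blt i 65536 with
      | false => simp [hb] at e
      | true =>
        simp only [hb, cond_true, Option.some.injEq] at e
        subst e
        rw [Nat.blt_eq] at hb
        rw [ATree.value_bump _ _ _ _ _ _ (by norm_num; omega), ih U hp, vecSum_cons]
        simp

/-- A passed correlation check replaces a double sum by a sum over patterns. -/
theorem corr_of_check {r r' : ℕ} {pat : ℕ → ℕ} {a b : List (ℕ × ℤ)} {W : List (List ℕ)}
    {z : List (ℕ × ℤ)} (hc : checkCorr r r' pat a b W z = true) {f : ℕ → ℕ → ℂ} {G : ℕ → ℂ}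
    (hf : ∀ s s' w d, okPush r r' s s' w d = true → f s s' = G d) :
    vecSum a (fun x => vecSum b (f x)) = vecSum z (fun i => G (pat i)) := by
  unfold checkCorr at hc
  cases hT : pushAll r r' pat b a W (loadTotals z) with
  | none => rw [hT] at hc; exact absurd hc (by simp)
  | some T =>
    rw [hT] at hc
    obtain ⟨U, hU, hval⟩ := pushAll_value hf b a W _ T hT
    rw [ATree.value_eq_zero _ _ _ _ hc, loadTotals_value' _ z U hU] at hval
    linear_combination -hval

lemma agree_iff (x y r : ℕ) : agree x y r = true ↔ ∀ k < r, pget x k = pget y k := by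
  induction r with
  | zero => simp [agree]
  | succ r ih =>
    show (Nat.beq (pget x r) (pget y r) && agree x y r) = true ↔ _
    simp only [Bool.and_eq_true, ih, Nat.beq_eq, Nat.forall_lt_succ_right]
    exact and_comm

lemma agreeComp_iff (x d y r : ℕ) :
    agreeComp x d y r = true ↔ ∀ k < r, pget x (pget d k) = pget y k := by
  induction r with
  | zero => simp [agreeComp]
  | succ r ih =>
    show (Nat.beq (pget x (pget d r)) (pget y r) && agreeComp x d y r) = true ↔ _
    simp only [Bool.and_eq_true, ih, Nat.beq_eq, Nat.forall_lt_succ_right]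
    exact and_comm

lemma mapRC_eq (p q : ℕ) (m : List ℕ) : mapRC p q m = m.map (mapCode p q 0 0) := by
  induction m with
  | nil => rfl
  | cons n m ih => exact congrArg (List.cons _) ih

lemma okSupp_iff (r c : ℕ) (m : List ℕ) : okSupp r c m = true ↔
    ∀ n ∈ m, okCode n = true ∧ Nat.shiftRight n 4 < r ∧ Nat.land (Nat.shiftRight n 1) 7 < c := by
  induction m with
  | nil => simp [okSupp]
  | cons n m ih =>
    show (okCode n && (Nat.blt (Nat.shiftRight n 4) r &&
      (Nat.blt (Nat.land (Nat.shiftRight n 1) 7) c && okSupp r c m))) = true ↔ _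
    simp only [Bool.and_eq_true, Nat.blt_eq, ih, List.forall_mem_cons, and_assoc]

lemma okWit_rc {p q : ℕ} (hp : okPerm p = true) (hq : okPerm q = true) :
    okWit p q 0 0 = true := by
  simp [okWit, hp, hq]

lemma fields_mapCode {p q : ℕ} (hp : okPerm p = true) (hq : okPerm q = true) {n : ℕ}
    (hn : okCode n = true) :
    okCode (mapCode p q 0 0 n) = true ∧
      Nat.shiftRight (mapCode p q 0 0 n) 4 = pget p (Nat.shiftRight n 4) ∧
      Nat.land (Nat.shiftRight (mapCode p q 0 0 n) 1) 7 =
        pget q (Nat.land (Nat.shiftRight n 1) 7) ∧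
      Nat.land (mapCode p q 0 0 n) 1 = Nat.land n 1 := by
  have hlt : n < 96 ∧ Nat.land (Nat.shiftRight n 1) 7 < 6 := by
    simpa only [okCode, Bool.and_eq_true, Nat.blt_eq] using hn
  have hi : Nat.shiftRight n 4 < 6 := by
    show n >>> 4 < 6
    rw [Nat.shiftRight_eq_div_pow]
    omega
  have ha := pget_lt hp ⟨_, hi⟩
  have hb := pget_lt hq ⟨_, hlt.2⟩
  have hc : Nat.land n 1 < 2 := lt_of_le_of_lt Nat.and_le_right (by norm_num)
  have key : ∀ (a b : Fin 6) (e : Fin 2),
      okCode (16 * a + 2 * b + e) = true ∧ Nat.shiftRight (16 * a + 2 * b + e) 4 = a ∧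
      Nat.land (Nat.shiftRight (16 * a + 2 * b + e) 1) 7 = b ∧
      Nat.land (16 * a + 2 * b + e) 1 = e := by decide +kernel
  have e : mapCode p q 0 0 n = 16 * pget p (Nat.shiftRight n 4) +
      2 * pget q (Nat.land (Nat.shiftRight n 1) 7) + Nat.land n 1 := by
    show _ + Nat.xor (Nat.land n 1) 0 = _
    rw [show Nat.xor (Nat.land n 1) 0 = Nat.land n 1 from Nat.xor_zero _]
    rfl
  rw [e]
  exact key ⟨_, ha⟩ ⟨_, hb⟩ ⟨_, hc⟩

/-- The two monomials of a pair have the average of their pattern. -/
theorem wVal_push {h : Fin 6 → Fin 6 → ℂ} {r r' c c' : ℕ} {o o' : List ℕ}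
    (ho : okSupp r c o = true) (ho' : okSupp r' c' o' = true) {s s' w d t t' v e : ℕ}
    (hr : okPush r r' s s' w d = true) (hc : okPush c c' t t' v e = true) :
    wVal h (mapRC s t o ++ mapRC s' t' o') = wVal h (o ++ mapRC d e o') := by
  simp only [okPush, Bool.and_eq_true, agree_iff, agreeComp_iff] at hr hc
  obtain ⟨hs, hs', hw, hd, hw1, hw2⟩ := hr
  obtain ⟨ht, ht', hv, he, hv1, hv2⟩ := hc
  rw [okSupp_iff] at ho ho'
  obtain ⟨g, hg⟩ := exists_litMap (okWit_rc hw hv)
  have e1 : ∀ n ∈ o, mapCode s t 0 0 n = mapCode w v 0 0 n := by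
    intro n hn
    obtain ⟨-, h1, h2⟩ := ho n hn
    simp only [mapCode]
    rw [hw1 _ h1, hv1 _ h2]
  have e2 : ∀ n ∈ o', mapCode s' t' 0 0 n = mapCode w v 0 0 (mapCode d e 0 0 n) := by
    intro n hn
    obtain ⟨hok, h1, h2⟩ := ho' n hn
    obtain ⟨-, f1, f2, f3⟩ := fields_mapCode hd he hok
    generalize mapCode d e 0 0 n = k at f1 f2 f3
    simp only [mapCode]
    rw [f1, f2, f3, hw2 _ h1, hv2 _ h2]
  have hmap : (mapRC s t o ++ mapRC s' t' o').map ldec =
      ((o ++ mapRC d e o').map ldec).map (litMap g) := by
    simp only [mapRC_eq, List.map_append, List.map_map]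
    refine congrArg₂ _ (List.map_congr_left fun n hn => ?_) (List.map_congr_left fun n hn => ?_)
    · simp [e1 n hn, hg n (ho n hn).1, ldec_lcode]
    · simp [e2 n hn, hg _ (fields_mapCode hd he (ho' n hn).1).1, ldec_lcode]
  rw [wVal, wVal, codeVal, codeVal, hmap, orbVal_map]
  simp [mapRC_eq]

/-- The averaged product of two symmetrised vectors, as a sum over patterns. -/
theorem pair_of_checks {h : Fin 6 → Fin 6 → ℂ} {r r' c c' : ℕ} {o o' : List ℕ}
    (ho : okSupp r c o = true) (ho' : okSupp r' c' o' = true)
    {pr pc : ℕ → ℕ} {a a' b b' : List (ℕ × ℤ)} {Wr Wc : List (List ℕ)} {z y : List (ℕ × ℤ)}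
    (hz : checkCorr r r' pr a a' Wr z = true) (hy : checkCorr c c' pc b b' Wc y = true) :
    vecSum a (fun s => vecSum a' fun s' => vecSum b fun t => vecSum b' fun t' =>
        wVal h (mapRC s t o ++ mapRC s' t' o')) =
      vecSum z (fun i => vecSum y fun j => wVal h (o ++ mapRC (pr i) (pc j) o')) :=
  corr_of_check hz (G := fun d => vecSum y fun j => wVal h (o ++ mapRC d (pc j) o'))
    fun _ _ _ _ hr => corr_of_check hy (G := fun e => wVal h (o ++ mapRC _ e o'))
      fun _ _ _ _ hc => wVal_push ho ho' hr hc

end Vale.Agent.P355.Seven
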