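import Mathlib

/-!
A kernel check that an integer matrix is positive semidefinite: it is a sum of outer products plus
a symmetric diagonally dominant remainder.
-/

namespace Vale.Agent.P355.Seven

open scoped BigOperators

/-- A sum over `0, …, n - 1`, by recursion. -/
noncomputable def isum (f : ℕ → ℤ) : ℕ → ℤ := Nat.rec 0 fun k ih => Int.add ih (f k)

/-- A test on `0, …, n - 1`, by recursion. -/
noncomputable def iall (f : ℕ → Bool) : ℕ → Bool := Nat.rec true fun k ih => and (f k) ih

lemma isum_eq (f : ℕ → ℤ) (n : ℕ) : isum f n = ∑ k ∈ Finset.range n, f k := by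
  induction n with
  | zero => rfl
  | succ n ih =>
    show isum f n + f n = _
    rw [ih, Finset.sum_range_succ]

lemma iall_iff (f : ℕ → Bool) (n : ℕ) : iall f n = true ↔ ∀ k < n, f k = true := by
  induction n with
  | zero => simp [iall]
  | succ n ih =>
    show (f n && iall f n) = true ↔ _
    rw [Bool.and_eq_true, ih, Nat.forall_lt_succ_right]
    exact and_comm

/-- The remainder after the outer products. -/
noncomputable def remMat (m : ℕ) (w G : ℕ → ℕ → ℤ) (i j : ℕ) : ℤ :=
  Int.sub (G i j) (isum (fun k => Int.mul (w k i) (w k j)) m)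

/-- The check: symmetric remainder, each diagonal entry at least the other entries of its row. -/
noncomputable def psdCheck (n m : ℕ) (w G : ℕ → ℕ → ℤ) : Bool :=
  iall (fun i => and (iall (fun j => Int.beq' (remMat m w G i j) (remMat m w G j i)) n)
    (decide (isum (fun j => Int.ofNat (Int.natAbs (remMat m w G i j))) n ≤
      Int.mul 2 (remMat m w G i i)))) n

lemma psd_of_dominant {n : ℕ} (R : Fin n → Fin n → ℝ) (hsym : ∀ i j, R i j = R j i)
    (hdom : ∀ i, ∑ j, |R i j| ≤ 2 * R i i) (x : Fin n → ℝ) :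
    0 ≤ ∑ i, ∑ j, R i j * x i * x j := by
  have hdiag : ∀ i, 0 ≤ R i i := fun i => by
    linarith [hdom i, Finset.sum_nonneg (fun j (_ : j ∈ Finset.univ) => abs_nonneg (R i j))]
  have key : ∀ i j, -(|R i j| * ((x i) ^ 2 + (x j) ^ 2) / 2) ≤ R i j * x i * x j := by
    intro i j
    have h2 : |R i j * x i * x j| ≤ |R i j| * ((x i) ^ 2 + (x j) ^ 2) / 2 := by
      rw [abs_mul, abs_mul, mul_assoc]
      have := two_mul_le_add_sq |x i| |x j|
      rw [sq_abs, sq_abs] at this
      nlinarith [abs_nonneg (R i j)]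
    linarith [neg_abs_le (R i j * x i * x j)]
  have step : ∀ i j, (if i = j then 2 * R i i * x i ^ 2 else 0) -
      |R i j| * ((x i) ^ 2 + (x j) ^ 2) / 2 ≤ R i j * x i * x j := by
    intro i j
    by_cases e : i = j
    · subst e
      rw [if_pos rfl, abs_of_nonneg (hdiag i)]
      nlinarith
    · rw [if_neg e]
      linarith [key i j]
  have hs : ∑ i, ∑ j, |R i j| * (x j) ^ 2 = ∑ i, ∑ j, |R i j| * (x i) ^ 2 := by
    rw [Finset.sum_comm]
    exact Finset.sum_congr rfl fun i _ => Finset.sum_congr rfl fun j _ => by rw [hsym j i]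
  have total : ∑ i, ∑ j, ((if i = j then 2 * R i i * x i ^ 2 else 0) -
      |R i j| * ((x i) ^ 2 + (x j) ^ 2) / 2) =
      ∑ i, (2 * R i i - ∑ j, |R i j|) * x i ^ 2 := by
    simp only [Finset.sum_sub_distrib, Finset.sum_ite_eq, Finset.mem_univ, if_true, sub_mul,
      Finset.sum_mul, mul_add, add_div, Finset.sum_add_distrib, ← Finset.sum_div]
    rw [hs]
    ring
  calc (0 : ℝ) ≤ ∑ i, (2 * R i i - ∑ j, |R i j|) * x i ^ 2 :=
        Finset.sum_nonneg fun i _ => mul_nonneg (by linarith [hdom i]) (sq_nonneg _)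
    _ = _ := total.symm
    _ ≤ _ := Finset.sum_le_sum fun i _ => Finset.sum_le_sum fun j _ => step i j

/-- A checked matrix gives a nonnegative quadratic form. -/
theorem psd_of_check {n m : ℕ} {w G : ℕ → ℕ → ℤ} (hc : psdCheck n m w G = true)
    (x : Fin n → ℝ) : 0 ≤ ∑ i : Fin n, ∑ j : Fin n, (G i j : ℝ) * x i * x j := by
  simp only [psdCheck, iall_iff, Bool.and_eq_true, decide_eq_true_eq] at hc
  have hsym : ∀ i j : Fin n, (remMat m w G i j : ℝ) = (remMat m w G j i : ℝ) := by
    intro i j
    have := (hc i i.2).1 j j.2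
    rw [show (remMat m w G i j : ℤ) = remMat m w G j i by simpa using this]
  have hdom : ∀ i : Fin n, ∑ j : Fin n, |(remMat m w G i j : ℝ)| ≤ 2 * (remMat m w G i i : ℝ) := by
    intro i
    have := (hc i i.2).2
    rw [isum_eq, Finset.sum_range] at this
    have hr : ((∑ j : Fin n, Int.ofNat (Int.natAbs (remMat m w G i j)) : ℤ) : ℝ) ≤
        ((2 * remMat m w G i i : ℤ) : ℝ) := Int.cast_le.mpr this
    push_cast at hr
    simpa [Int.ofNat_eq_natCast, Int.natCast_natAbs] using hr
  have h1 := psd_of_dominant (fun i j : Fin n => (remMat m w G i j : ℝ)) hsym hdom x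
  have e : ∀ i j : Fin n, (G i j : ℝ) =
      (remMat m w G i j : ℝ) + ∑ k : Fin m, (w k i : ℝ) * (w k j : ℝ) := by
    intro i j
    show _ = ((G i j - isum (fun k => Int.mul (w k i) (w k j)) m : ℤ) : ℝ) + _
    rw [isum_eq, Finset.sum_range]
    simp [show ∀ a b : ℤ, Int.mul a b = a * b from fun _ _ => rfl]
  have h2 : ∑ i : Fin n, ∑ j : Fin n, (∑ k : Fin m, (w k i : ℝ) * (w k j : ℝ)) * x i * x j =
      ∑ k : Fin m, (∑ i : Fin n, (w k i : ℝ) * x i) ^ 2 := by
    simp only [sq, Finset.sum_mul_sum, Finset.sum_mul]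
    rw [Finset.sum_comm (s := (Finset.univ : Finset (Fin m)))]
    refine Finset.sum_congr rfl fun i _ => ?_
    rw [Finset.sum_comm]
    refine Finset.sum_congr rfl fun k _ => ?_
    rw [Finset.mul_sum]
    exact Finset.sum_congr rfl fun j _ => by ring
  simp only [e, add_mul, Finset.sum_add_distrib]
  rw [h2]
  exact add_nonneg h1 (Finset.sum_nonneg fun k _ => sq_nonneg _)

end Vale.Agent.P355.Seven
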