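import Mathlib
import Vale.Agent.P355.Seven.Corr
import Vale.Agent.P355.Seven.Psd

/-!
Sums of squares of symmetrised vectors. A vector is a monomial with a weight vector on row
permutations and one on column permutations; its real or imaginary part is a real function, and a
positive semidefinite combination of products of these averages to a nonnegative number.
-/

namespace Vale.Agent.P355.Seven

open scoped ComplexConjugate BigOperators

/-- A monomial with row and column weights. -/
abbrev VecSpec := List ℕ × List (ℕ × ℤ) × List (ℕ × ℤ)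

/-- The conjugate of a coded monomial. -/
noncomputable def flipList : List ℕ → List ℕ :=
  List.rec [] fun n _ ih => List.cons (Nat.xor n 1) ih

/-- The conjugate of a vector. -/
noncomputable def flipSpec (v : VecSpec) : VecSpec := (flipList v.1, v.2.1, v.2.2)

/-- Whether all entries of a weight vector are permutations. -/
noncomputable def okWeights : List (ℕ × ℤ) → Bool := List.rec true fun x _ ih => and (okPerm x.1) ih

/-- Whether a vector is well formed. -/
noncomputable def okSpec (v : VecSpec) : Bool :=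
  and (okList v.1) (and (okWeights v.2.1) (okWeights v.2.2))

/-- The value of a vector, scaled by the parity of its degree. -/
noncomputable def xVal (h : Fin 6 → Fin 6 → ℂ) (v : VecSpec) : ℂ :=
  ((Real.sqrt 6 : ℝ) : ℂ) ^ (v.1.length % 2) *
    vecSum v.2.1 fun s => vecSum v.2.2 fun t => monVal h ((mapRC s t v.1).map ldec)

/-- The real part (`true`) or imaginary part (`false`) of a vector, doubled. -/
noncomputable def rVal (k : Bool) (h : Fin 6 → Fin 6 → ℂ) (v : VecSpec) : ℝ :=
  cond k (2 * (xVal h v).re) (2 * (xVal h v).im)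

/-- The factor of two parities. -/
def parFac (m n : ℕ) : ℤ := cond (and (Nat.beq (m % 2) 1) (Nat.beq (n % 2) 1)) 6 1

/-- The averaged product of two vectors. -/
noncomputable def pairVal (h : Fin 6 → Fin 6 → ℂ) (v v' : VecSpec) : ℂ :=
  (parFac v.1.length v'.1.length : ℂ) *
    vecSum v.2.1 fun s => vecSum v'.2.1 fun s' => vecSum v.2.2 fun t => vecSum v'.2.2 fun t' =>
      wVal h (mapRC s t v.1 ++ mapRC s' t' v'.1)

/-- The flip as a symmetry. -/
def gFlip : Gsym := (1, 1, true, false)

lemma litMap_gFlip (l : Lit) : litMap gFlip l = (l.1, l.2.1, !l.2.2) := by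
  obtain ⟨i, j, b⟩ := l
  cases b <;> rfl

lemma conj_monVal (h : Fin 6 → Fin 6 → ℂ) (m : List Lit) :
    conj (monVal h m) = monVal h (m.map (litMap gFlip)) := by
  induction m with
  | nil => simp [monVal]
  | cons l m ih =>
    rw [List.map_cons, monVal_cons, monVal_cons, map_mul, ih, litMap_gFlip, litVal_flip]

lemma conj_vecSum (a : List (ℕ × ℤ)) (f : ℕ → ℂ) :
    conj (vecSum a f) = vecSum a fun n => conj (f n) := by
  induction a with
  | nil => simp [vecSum_nil]
  | cons x a ih => simp [vecSum_cons, ih]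

lemma vecSum_mul (a : List (ℕ × ℤ)) (f : ℕ → ℂ) (k : ℂ) :
    vecSum a f * k = vecSum a fun n => f n * k := by
  induction a with
  | nil => simp [vecSum_nil]
  | cons x a ih => simp [vecSum_cons, ← ih]; ring

lemma mul_vecSum (a : List (ℕ × ℤ)) (f : ℕ → ℂ) (k : ℂ) :
    k * vecSum a f = vecSum a fun n => k * f n := by
  rw [mul_comm, vecSum_mul]
  exact vecSum_congr fun n => mul_comm _ _

lemma sum_vecSum {ι : Type} [Fintype ι] (a : List (ℕ × ℤ)) (f : ι → ℕ → ℂ) :
    ∑ g, vecSum a (f g) = vecSum a fun n => ∑ g, f g n := by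
  induction a with
  | nil => simp [vecSum_nil]
  | cons x a ih => simp [vecSum_cons, Finset.sum_add_distrib, Finset.mul_sum, ← ih]

lemma vecSum_congr_mem {a : List (ℕ × ℤ)} {f g : ℕ → ℂ} (h : ∀ x ∈ a, f x.1 = g x.1) :
    vecSum a f = vecSum a g := by
  simp only [vecSum]
  exact congrArg List.sum (List.map_congr_left fun x hx => by rw [h x hx])

lemma okWeights_iff (a : List (ℕ × ℤ)) : okWeights a = true ↔ ∀ x ∈ a, okPerm x.1 = true := by
  induction a with
  | nil => simp [okWeights]
  | cons x a ih =>
    show (okPerm x.1 && okWeights a) = true ↔ _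
    simp [ih]

lemma flipList_eq (m : List ℕ) : flipList m = m.map fun n => Nat.xor n 1 := by
  induction m with
  | nil => rfl
  | cons n m ih => exact congrArg (List.cons _) ih

lemma ldec_xor {n : ℕ} (hn : okCode n = true) :
    okCode (Nat.xor n 1) = true ∧ ldec (Nat.xor n 1) = litMap gFlip (ldec n) := by
  have key : ∀ k : Fin 96, okCode k = true → okCode (Nat.xor k 1) = true ∧
      ldec (Nat.xor k 1) = ((ldec k).1, (ldec k).2.1, !(ldec k).2.2) := by decide +kernel
  have hlt : n < 96 := by
    simp only [okCode, Bool.and_eq_true, Nat.blt_eq] at hn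
    exact hn.1
  rw [litMap_gFlip]
  exact key ⟨n, hlt⟩ hn

lemma map_mapRC_flip {s t : ℕ} (hs : okPerm s = true) (ht : okPerm t = true) {o : List ℕ}
    (ho : okList o = true) :
    (mapRC s t (flipList o)).map ldec = ((mapRC s t o).map ldec).map (litMap gFlip) := by
  obtain ⟨g, hg⟩ := exists_litMap (okWit_rc hs ht)
  simp only [mapRC_eq, flipList_eq, List.map_map]
  refine List.map_congr_left fun n hn => ?_
  have hok := (okList_iff o).1 ho n hn
  obtain ⟨hok', hx⟩ := ldec_xor hok
  simp only [Function.comp_apply, hg n hok, hg _ hok', ldec_lcode, hx, litMap_gFlip]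
  obtain ⟨i, j, b⟩ := ldec n
  cases b <;> simp [litMap, gPos]

lemma length_flipList (o : List ℕ) : (flipList o).length = o.length := by simp [flipList_eq]

lemma xVal_flip (h : Fin 6 → Fin 6 → ℂ) {v : VecSpec} (hv : okSpec v = true) :
    xVal h (flipSpec v) = conj (xVal h v) := by
  simp only [okSpec, Bool.and_eq_true, okWeights_iff] at hv
  obtain ⟨ho, ha, hb⟩ := hv
  simp only [xVal, flipSpec, length_flipList, map_mul, map_pow, Complex.conj_ofReal, conj_vecSum]
  congr 1
  refine vecSum_congr_mem fun x hx => vecSum_congr_mem fun y hy => ?_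
  rw [map_mapRC_flip (ha x hx) (hb y hy) ho, conj_monVal]

lemma parFac_mul (m n : ℕ) : ((Real.sqrt 6 : ℝ) : ℂ) ^ (m % 2) * ((Real.sqrt 6 : ℝ) : ℂ) ^ (n % 2) =
    (parFac m n : ℂ) * ((Real.sqrt 6 : ℝ) : ℂ) ^ ((m + n) % 2) := by
  have h6 : ((Real.sqrt 6 : ℝ) : ℂ) * ((Real.sqrt 6 : ℝ) : ℂ) = 6 := by
    rw [← Complex.ofReal_mul, Real.mul_self_sqrt (by norm_num)]; norm_num
  rcases Nat.mod_two_eq_zero_or_one m with em | em <;>
    rcases Nat.mod_two_eq_zero_or_one n with en | en <;>
    rw [em, en, Nat.add_mod, em, en] <;> simp [parFac, em, en, h6, show Nat.beq 0 1 = false from rfl]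

/-- The average of a product of two vectors. -/
theorem sum_xVal_mul (h : Fin 6 → Fin 6 → ℂ) (v v' : VecSpec) :
    ∑ g : Gsym, xVal (act g h) v * xVal (act g h) v' = pairVal h v v' := by
  have e : ∀ g : Gsym, xVal (act g h) v * xVal (act g h) v' =
      ((Real.sqrt 6 : ℝ) : ℂ) ^ (v.1.length % 2) * ((Real.sqrt 6 : ℝ) : ℂ) ^ (v'.1.length % 2) *
        vecSum v.2.1 fun s => vecSum v'.2.1 fun s' => vecSum v.2.2 fun t => vecSum v'.2.2 fun t' =>
          monVal (act g h) ((mapRC s t v.1).map ldec) *
            monVal (act g h) ((mapRC s' t' v'.1).map ldec) := by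
    intro g
    simp only [xVal]
    rw [mul_mul_mul_comm, vecSum_mul]
    congr 1
    refine vecSum_congr fun s => ?_
    rw [mul_vecSum]
    refine vecSum_congr fun s' => ?_
    rw [vecSum_mul]
    refine vecSum_congr fun t => ?_
    rw [mul_vecSum]
  simp only [e, ← Finset.mul_sum, sum_vecSum]
  rw [pairVal, parFac_mul, mul_assoc, mul_vecSum]
  congr 1
  refine vecSum_congr fun s => ?_
  rw [mul_vecSum]
  refine vecSum_congr fun s' => ?_
  rw [mul_vecSum]
  refine vecSum_congr fun t => ?_
  rw [mul_vecSum]
  refine vecSum_congr fun t' => ?_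
  simp only [wVal, codeVal, orbVal, List.map_append, monVal_append, List.length_append, mapRC_eq,
    List.length_map]

lemma pairVal_comm (h : Fin 6 → Fin 6 → ℂ) (v v' : VecSpec) : pairVal h v v' = pairVal h v' v := by
  simp only [← sum_xVal_mul, mul_comm]

lemma pairVal_flip (h : Fin 6 → Fin 6 → ℂ) {v v' : VecSpec} (hv : okSpec v = true)
    (hv' : okSpec v' = true) : pairVal h (flipSpec v) (flipSpec v') = pairVal h v v' := by
  simp only [okSpec, Bool.and_eq_true, okWeights_iff] at hv hv'
  simp only [pairVal, flipSpec, length_flipList]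
  congr 1
  refine vecSum_congr_mem fun s hs => vecSum_congr_mem fun s' hs' => ?_
  refine vecSum_congr_mem fun t ht => vecSum_congr_mem fun t' ht' => ?_
  simp only [wVal, codeVal, List.map_append, map_mapRC_flip (hv.2.1 s hs) (hv.2.2 t ht) hv.1,
    map_mapRC_flip (hv'.2.1 s' hs') (hv'.2.2 t' ht') hv'.1]
  rw [← List.map_append, orbVal_map]
  simp [mapRC_eq, flipList_eq]

/-- The sign of the plain product. -/
def kSign (k : Bool) : ℤ := cond k 1 (-1)

/-- The averaged product of two real or two imaginary parts. -/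
theorem sum_rVal_mul (h : Fin 6 → Fin 6 → ℂ) (k : Bool) {v v' : VecSpec} (hv : okSpec v = true)
    (hv' : okSpec v' = true) :
    ((∑ g : Gsym, rVal k (act g h) v * rVal k (act g h) v' : ℝ) : ℂ) =
      2 * (pairVal h v (flipSpec v') + (kSign k : ℂ) * pairVal h v v') := by
  have f1 : ∀ g : Gsym, conj (xVal (act g h) v) = xVal (act g h) (flipSpec v) :=
    fun g => (xVal_flip _ hv).symm
  have f2 : ∀ g : Gsym, conj (xVal (act g h) v') = xVal (act g h) (flipSpec v') :=
    fun g => (xVal_flip _ hv').symm
  have hff : flipSpec (flipSpec v') = v' := by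
    obtain ⟨o, a, b⟩ := v'
    simp only [okSpec, Bool.and_eq_true] at hv'
    simp only [flipSpec, flipList_eq, List.map_map]
    congr 1
    conv_rhs => rw [← List.map_id o]
    exact List.map_congr_left fun n _ => by
      show Nat.xor (Nat.xor n 1) 1 = n
      show (n ^^^ 1) ^^^ 1 = n
      simp [Nat.xor_assoc]
  have hv'' : okSpec (flipSpec v') = true := by
    simp only [okSpec, flipSpec, Bool.and_eq_true] at hv' ⊢
    refine ⟨(okList_iff _).2 fun n hn => ?_, hv'.2⟩
    rw [flipList_eq, List.mem_map] at hn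
    obtain ⟨m, hm, rfl⟩ := hn
    exact (ldec_xor ((okList_iff _).1 hv'.1 m hm)).1
  have cross : pairVal h (flipSpec v) v' = pairVal h v (flipSpec v') := by
    conv_lhs => rw [← hff]
    exact pairVal_flip h hv hv''
  rw [Complex.ofReal_sum]
  cases k
  · have e : ∀ g : Gsym, ((rVal false (act g h) v * rVal false (act g h) v' : ℝ) : ℂ) =
        -(xVal (act g h) (flipSpec v) * xVal (act g h) (flipSpec v')) +
          xVal (act g h) (flipSpec v) * xVal (act g h) v' +
          xVal (act g h) v * xVal (act g h) (flipSpec v') -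
          xVal (act g h) v * xVal (act g h) v' := by
      intro g
      rw [← f1, ← f2]
      apply Complex.ext <;> simp [rVal] <;> ring
    simp only [e, Finset.sum_add_distrib, Finset.sum_sub_distrib, Finset.sum_neg_distrib,
      sum_xVal_mul, pairVal_flip h hv hv', cross, kSign, cond_false]
    push_cast
    ring
  · have e : ∀ g : Gsym, ((rVal true (act g h) v * rVal true (act g h) v' : ℝ) : ℂ) =
        xVal (act g h) (flipSpec v) * xVal (act g h) (flipSpec v') +
          xVal (act g h) (flipSpec v) * xVal (act g h) v' +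
          xVal (act g h) v * xVal (act g h) (flipSpec v') +
          xVal (act g h) v * xVal (act g h) v' := by
      intro g
      rw [← f1, ← f2]
      apply Complex.ext <;> simp [rVal] <;> ring
    simp only [e, Finset.sum_add_distrib, sum_xVal_mul, pairVal_flip h hv hv', cross, kSign,
      cond_true]
    push_cast
    ring

/-- A checked block of a sum of squares is nonnegative. -/
theorem block_nonneg (h : Fin 6 → Fin 6 → ℂ) (k : Bool) {n m : ℕ} {w G : ℕ → ℕ → ℤ}
    (V : ℕ → VecSpec) (hV : iall (fun i => okSpec (V i)) n = true)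
    (hG : psdCheck n m w G = true) :
    0 ≤ (∑ i : Fin n, ∑ j : Fin n, (G i j : ℂ) *
      (pairVal h (V i) (flipSpec (V j)) + (kSign k : ℂ) * pairVal h (V i) (V j))).re := by
  rw [iall_iff] at hV
  have h0 : 0 ≤ ∑ g : Gsym, ∑ i : Fin n, ∑ j : Fin n,
      (G i j : ℝ) * rVal k (act g h) (V i) * rVal k (act g h) (V j) :=
    Finset.sum_nonneg fun g _ => psd_of_check hG fun i => rVal k (act g h) (V i)
  have e : ((∑ g : Gsym, ∑ i : Fin n, ∑ j : Fin n,
      (G i j : ℝ) * rVal k (act g h) (V i) * rVal k (act g h) (V j) : ℝ) : ℂ) =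
      2 * ∑ i : Fin n, ∑ j : Fin n, (G i j : ℂ) *
        (pairVal h (V i) (flipSpec (V j)) + (kSign k : ℂ) * pairVal h (V i) (V j)) := by
    rw [Finset.sum_comm, Complex.ofReal_sum, Finset.mul_sum]
    refine Finset.sum_congr rfl fun i _ => ?_
    rw [Finset.sum_comm, Complex.ofReal_sum, Finset.mul_sum]
    refine Finset.sum_congr rfl fun j _ => ?_
    simp only [mul_assoc, ← Finset.mul_sum, Complex.ofReal_mul, Complex.ofReal_intCast,
      sum_rVal_mul h k (hV i i.2) (hV j j.2)]
    ring
  have h1 := congrArg Complex.re e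
  rw [Complex.ofReal_re, Complex.mul_re] at h1
  simp at h1 ⊢
  linarith

end Vale.Agent.P355.Seven
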