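import Mathlib
import Vale.Agent.P355.Seven.Sos

/-!
The source lists of a sum of squares: each pair of vectors of a block gives two grids of terms,
indexed by the patterns of its row and column correlations.
-/

namespace Vale.Agent.P355.Seven

open scoped BigOperators

/-- A function on `0, …, n - 1` as a weight list. -/
noncomputable def ienum (f : ℕ → ℤ) : ℕ → List (ℕ × ℤ) :=
  Nat.rec [] fun k ih => List.cons (k, f k) ih

/-- The concatenation of lists indexed by `0, …, n - 1`. -/
noncomputable def icat {α : Type} (f : ℕ → List α) : ℕ → List α :=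
  Nat.rec [] fun k ih => f k ++ ih

/-- The grid of terms of one pair of monomials. -/
noncomputable def gridTerms (c : ℤ) (o o' : List ℕ) (pr pc : ℕ → ℕ) (R C : ℕ) (zf yf : ℕ → ℤ) :
    List (ℤ × List ℕ) :=
  icat (fun i => icat (fun j =>
    [(Int.mul c (Int.mul (zf i) (yf j)), o ++ mapRC (pr i) (pc j) o')]) C) R

/-- The two grids of one pair of real or imaginary parts. -/
noncomputable def sosTerms (k : Bool) (c : ℤ) (v v' : VecSpec) (pr pc : ℕ → ℕ) (R C : ℕ)
    (zf yf : ℕ → ℤ) : List (ℤ × List ℕ) :=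
  gridTerms (Int.mul c (parFac v.1.length v'.1.length)) v.1 (flipList v'.1) pr pc R C zf yf ++
    gridTerms (Int.mul (Int.mul c (kSign k)) (parFac v.1.length v'.1.length)) v.1 v'.1 pr pc R C
      zf yf

/-- The check of one pair of vectors. -/
noncomputable def checkPair (r r' cl cl' : ℕ) (v v' : VecSpec) (pr pc : ℕ → ℕ) (R C : ℕ)
    (zf yf : ℕ → ℤ) (Wr Wc : List (List ℕ)) : Bool :=
  and (okSupp r cl v.1) (and (okSupp r' cl' v'.1) (and (okSupp r' cl' (flipList v'.1))
    (and (checkCorr r r' pr v.2.1 v'.2.1 Wr (ienum zf R))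
      (checkCorr cl cl' pc v.2.2 v'.2.2 Wc (ienum yf C)))))

lemma vecSum_ienum (f : ℕ → ℤ) (F : ℕ → ℂ) (n : ℕ) :
    vecSum (ienum f n) F = ∑ i ∈ Finset.range n, (f i : ℂ) * F i := by
  induction n with
  | zero => rfl
  | succ n ih =>
    show vecSum ((n, f n) :: ienum f n) F = _
    rw [vecSum_cons, ih, Finset.sum_range_succ, add_comm]

lemma termSum_icat (h : Fin 6 → Fin 6 → ℂ) (f : ℕ → List (ℤ × List ℕ)) (n : ℕ) :
    termSum h (icat f n) = ∑ i ∈ Finset.range n, termSum h (f i) := by
  induction n with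
  | zero => rfl
  | succ n ih =>
    show termSum h (f n ++ icat f n) = _
    rw [termSum_append, ih, Finset.sum_range_succ, add_comm]

lemma termSum_gridTerms (h : Fin 6 → Fin 6 → ℂ) (c : ℤ) (o o' : List ℕ) (pr pc : ℕ → ℕ)
    (R C : ℕ) (zf yf : ℕ → ℤ) : termSum h (gridTerms c o o' pr pc R C zf yf) =
      (c : ℂ) * vecSum (ienum zf R) (fun i => vecSum (ienum yf C) fun j =>
        wVal h (o ++ mapRC (pr i) (pc j) o')) := by
  simp only [gridTerms, termSum_icat, vecSum_ienum, Finset.mul_sum]
  refine Finset.sum_congr rfl fun i _ => Finset.sum_congr rfl fun j _ => ?_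
  simp [termSum, show ∀ a b : ℤ, Int.mul a b = a * b from fun _ _ => rfl]
  ring

/-- The two grids of a checked pair. -/
theorem termSum_sosTerms {h : Fin 6 → Fin 6 → ℂ} {r r' cl cl' : ℕ} {v v' : VecSpec}
    {pr pc : ℕ → ℕ} {R C : ℕ} {zf yf : ℕ → ℤ} {Wr Wc : List (List ℕ)}
    (hc : checkPair r r' cl cl' v v' pr pc R C zf yf Wr Wc = true) (k : Bool) (c : ℤ) :
    termSum h (sosTerms k c v v' pr pc R C zf yf) =
      (c : ℂ) * (pairVal h v (flipSpec v') + (kSign k : ℂ) * pairVal h v v') := by
  simp only [checkPair, Bool.and_eq_true] at hc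
  obtain ⟨h1, h2, h3, hz, hy⟩ := hc
  have e1 := pair_of_checks (h := h) h1 h2 hz hy
  have e2 := pair_of_checks (h := h) h1 h3 hz hy
  have p1 : pairVal h v v' = (parFac v.1.length v'.1.length : ℂ) * vecSum (ienum zf R)
      (fun i => vecSum (ienum yf C) fun j => wVal h (v.1 ++ mapRC (pr i) (pc j) v'.1)) := by
    rw [← e1]; rfl
  have p2 : pairVal h v (flipSpec v') = (parFac v.1.length v'.1.length : ℂ) * vecSum (ienum zf R)
      (fun i => vecSum (ienum yf C) fun j =>
        wVal h (v.1 ++ mapRC (pr i) (pc j) (flipList v'.1))) := by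
    rw [← e2]
    simp only [pairVal, flipSpec, length_flipList]
  rw [sosTerms, termSum_append, termSum_gridTerms, termSum_gridTerms, p1, p2]
  simp only [show ∀ a b : ℤ, Int.mul a b = a * b from fun _ _ => rfl, Int.cast_mul]
  ring

/-- The weight of a pair in a symmetric block: off-diagonal pairs count twice. -/
noncomputable def symCoef (G : ℕ → ℕ → ℤ) (i j : ℕ) : ℤ :=
  cond (Nat.beq i j) (G i j) (Int.mul 2 (G i j))

lemma sum_symm_range (n : ℕ) (f : ℕ → ℕ → ℂ) (hf : ∀ i < n, ∀ j < n, f i j = f j i) :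
    ∑ i ∈ Finset.range n, ∑ j ∈ Finset.range n, f i j =
      ∑ i ∈ Finset.range n, ∑ j ∈ Finset.range (i + 1), (if i = j then 1 else 2) * f i j := by
  induction n with
  | zero => rfl
  | succ n ih =>
    have ih' := ih fun i hi j hj => hf i (by omega) j (by omega)
    have hcol : ∑ i ∈ Finset.range n, f i n = ∑ i ∈ Finset.range n, f n i :=
      Finset.sum_congr rfl fun i hi => hf i (by simp only [Finset.mem_range] at hi; omega) n
        (by omega)
    have hlast : ∑ j ∈ Finset.range (n + 1), (if n = j then (1 : ℂ) else 2) * f n j =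
        f n n + 2 * ∑ j ∈ Finset.range n, f n j := by
      rw [Finset.sum_range_succ, if_pos rfl, Finset.mul_sum, add_comm]
      congr 1
      · ring
      · refine Finset.sum_congr rfl fun j hj => ?_
        simp only [Finset.mem_range] at hj
        rw [if_neg (by omega)]
    rw [Finset.sum_range_succ (fun i => ∑ j ∈ Finset.range (n + 1), f i j) n,
      Finset.sum_range_succ (fun i => ∑ j ∈ Finset.range (i + 1),
        (if i = j then (1 : ℂ) else 2) * f i j) n, hlast]
    simp only [Finset.sum_range_succ _ n, Finset.sum_add_distrib]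
    rw [ih', hcol]
    ring

/-- The source list of a block. -/
noncomputable def blockTerms (k : Bool) (n : ℕ) (V : ℕ → VecSpec) (G : ℕ → ℕ → ℤ)
    (pr pc : ℕ → ℕ → ℕ → ℕ) (R C : ℕ → ℕ → ℕ) (zf yf : ℕ → ℕ → ℕ → ℤ) : List (ℤ × List ℕ) :=
  icat (fun i => icat (fun j => sosTerms k (symCoef G i j) (V i) (V j) (pr i j) (pc i j) (R i j)
    (C i j) (zf i j) (yf i j)) (i + 1)) n

/-- A checked block has a nonnegative source sum. -/
theorem blockTerms_nonneg {h : Fin 6 → Fin 6 → ℂ} {k : Bool} {n m : ℕ} {V : ℕ → VecSpec}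
    {w G : ℕ → ℕ → ℤ} {pr pc : ℕ → ℕ → ℕ → ℕ} {R C : ℕ → ℕ → ℕ} {zf yf : ℕ → ℕ → ℕ → ℤ}
    (hV : iall (fun i => okSpec (V i)) n = true) (hG : psdCheck n m w G = true)
    (hsym : iall (fun i => iall (fun j => Int.beq' (G i j) (G j i)) n) n = true)
    (hp : ∀ i < n, ∀ j ≤ i, ∃ (r r' cl cl' : ℕ) (Wr Wc : List (List ℕ)),
      checkPair r r' cl cl' (V i) (V j) (pr i j) (pc i j) (R i j) (C i j) (zf i j) (yf i j) Wr Wc
        = true) :
    0 ≤ (termSum h (blockTerms k n V G pr pc R C zf yf)).re := by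
  have hb := block_nonneg h k V hV hG
  rw [iall_iff] at hV hsym
  simp only [iall_iff] at hsym
  have hs : ∀ i < n, ∀ j < n,
      (G i j : ℂ) * (pairVal h (V i) (flipSpec (V j)) + (kSign k : ℂ) * pairVal h (V i) (V j)) =
      (G j i : ℂ) * (pairVal h (V j) (flipSpec (V i)) + (kSign k : ℂ) * pairVal h (V j) (V i)) := by
    intro i hi j hj
    have hg : G i j = G j i := by simpa using hsym i hi j hj
    have := sum_rVal_mul h k (hV i hi) (hV j hj)
    have h2 := sum_rVal_mul h k (hV j hj) (hV i hi)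
    simp only [mul_comm (rVal k _ (V j))] at h2
    rw [this] at h2
    rw [hg, mul_left_cancel₀ (by norm_num) h2]
  have key : ∀ i ∈ Finset.range n, termSum h (icat (fun j => sosTerms k (symCoef G i j) (V i) (V j)
      (pr i j) (pc i j) (R i j) (C i j) (zf i j) (yf i j)) (i + 1)) =
      ∑ j ∈ Finset.range (i + 1), (if i = j then 1 else 2) *
        ((G i j : ℂ) * (pairVal h (V i) (flipSpec (V j)) + (kSign k : ℂ) *
          pairVal h (V i) (V j))) := by
    intro i hi
    rw [termSum_icat]
    refine Finset.sum_congr rfl fun j hj => ?_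
    simp only [Finset.mem_range] at hi hj
    obtain ⟨r, r', cl, cl', Wr, Wc, hc⟩ := hp i hi j (by omega)
    rw [termSum_sosTerms hc, symCoef]
    by_cases e : i = j
    · rw [if_pos e, show Nat.beq i j = true by simp [e], cond_true]
      ring
    · rw [if_neg e, Bool.eq_false_iff.2 fun q => e (Nat.eq_of_beq_eq_true q), cond_false,
        show Int.mul 2 (G i j) = 2 * G i j from rfl]
      push_cast
      ring
  rw [blockTerms, termSum_icat, Finset.sum_congr rfl key, ← sum_symm_range n _ hs]
  simpa [Finset.sum_range] using hb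

end Vale.Agent.P355.Seven
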