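import Mathlib
import Vale.Agent.P355.Seven.Acc

/-!
Multiples of the line sum and orthogonality relations as source lists for the checker. An item
`(c, a, b, m)` stands for `c` times the relation of rows `a` and `b` multiplied by the monomial
`m`; equal rows give the row sum relation.
-/

namespace Vale.Agent.P355.Seven

open scoped BigOperators

/-- The code of an entry. -/
def eCode (a j : ℕ) : ℕ := Nat.add (Nat.add (Nat.mul 16 a) (Nat.mul 2 j)) 1

/-- The code of a conjugated entry. -/
def cCode (a j : ℕ) : ℕ := Nat.add (Nat.mul 16 a) (Nat.mul 2 j)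

/-- The terms of the row sum relation; even monomials need the factor `6`. -/
noncomputable def rowTerms (c : ℤ) (a : ℕ) (m : List ℕ) : List (ℤ × List ℕ) :=
  [(c, eCode a 0 :: m), (c, eCode a 1 :: m), (c, eCode a 2 :: m), (c, eCode a 3 :: m),
    (c, eCode a 4 :: m), (c, eCode a 5 :: m),
    (cond (Nat.beq (Nat.land (lenList m) 1) 0) (Int.mul (-6) c) (Int.neg c), m)]

/-- The terms of the orthogonality relation. -/
noncomputable def orthTerms (c : ℤ) (a b : ℕ) (m : List ℕ) : List (ℤ × List ℕ) :=
  [(c, eCode a 0 :: cCode b 0 :: m), (c, eCode a 1 :: cCode b 1 :: m),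
    (c, eCode a 2 :: cCode b 2 :: m), (c, eCode a 3 :: cCode b 3 :: m),
    (c, eCode a 4 :: cCode b 4 :: m), (c, eCode a 5 :: cCode b 5 :: m)]

/-- Whether all items name rows below six. -/
noncomputable def okRels : List (ℤ × ℕ × ℕ × List ℕ) → Bool :=
  List.rec true fun x _ ih => and (Nat.blt x.2.1 6) (and (Nat.blt x.2.2.1 6) ih)

/-- The source list of all items. -/
noncomputable def relTerms : List (ℤ × ℕ × ℕ × List ℕ) → List (ℤ × List ℕ) :=
  List.rec [] fun x _ ih =>
    cond (Nat.beq x.2.1 x.2.2.1) (rowTerms x.1 x.2.1 x.2.2.2 ++ ih)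
      (orthTerms x.1 x.2.1 x.2.2.1 x.2.2.2 ++ ih)

variable {h : Fin 6 → Fin 6 → ℂ}

lemma ldec_eCode (a j : Fin 6) : ldec (eCode a j) = (a, j, true) := by
  revert a j; decide +kernel

lemma ldec_cCode (a j : Fin 6) : ldec (cCode a j) = (a, j, false) := by
  revert a j; decide +kernel

lemma termSum_rowTerms (hh : DReg h) (c : ℤ) (a : Fin 6) (m : List ℕ) :
    termSum h (rowTerms c a m) = 0 := by
  have key := orbVal_row hh a (m.map ldec)
  have d : ∀ j : ℕ, (hj : j < 6) → ldec (eCode a j) = (a, ⟨j, hj⟩, true) :=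
    fun j hj => ldec_eCode a ⟨j, hj⟩
  have hd : ∀ n : ℕ, Nat.beq (Nat.land n 1) 0 = decide (n % 2 = 0) := by
    intro n
    rw [show Nat.land n 1 = n &&& 1 from rfl, Nat.and_one_is_mod]
    rcases Nat.mod_two_eq_zero_or_one n with e | e <;> rw [e] <;> rfl
  have h6 : ((Real.sqrt 6 : ℝ) : ℂ) * ((Real.sqrt 6 : ℝ) : ℂ) = 6 := by
    rw [← Complex.ofReal_mul, Real.mul_self_sqrt (by norm_num)]; norm_num
  simp only [Fin.sum_univ_six] at key
  simp only [termSum, rowTerms, lenList_eq, hd, wVal, codeVal, List.map_cons, List.map_nil,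
    List.sum_cons, List.sum_nil, List.length_cons,
    d 0 (by norm_num), d 1 (by norm_num), d 2 (by norm_num), d 3 (by norm_num),
    d 4 (by norm_num), d 5 (by norm_num), Fin.zero_eta, Fin.mk_one, Fin.reduceFinMk]
  rcases Nat.mod_two_eq_zero_or_one m.length with e | e
  · rw [show (m.length + 1) % 2 = 1 by omega, e]
    simp only [decide_true, cond_true, pow_one, pow_zero, one_mul,
      show Int.mul (-6) c = -6 * c from rfl, Int.cast_mul, Int.cast_neg, Int.cast_ofNat]
    linear_combination ((c : ℂ) * ((Real.sqrt 6 : ℝ) : ℂ)) * key +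
      (c : ℂ) * orbVal h (m.map ldec) * h6
  · rw [show (m.length + 1) % 2 = 0 by omega, e]
    simp only [one_ne_zero, decide_false, cond_false, pow_one, pow_zero, one_mul,
      show Int.neg c = -c from rfl, Int.cast_neg]
    linear_combination (c : ℂ) * key

lemma termSum_orthTerms (hh : DReg h) (c : ℤ) {a b : Fin 6} (hab : a ≠ b) (m : List ℕ) :
    termSum h (orthTerms c a b m) = 0 := by
  have key := orbVal_orth hh hab (m.map ldec)
  have d : ∀ j : ℕ, (hj : j < 6) → ldec (eCode a j) = (a, ⟨j, hj⟩, true) :=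
    fun j hj => ldec_eCode a ⟨j, hj⟩
  have d' : ∀ j : ℕ, (hj : j < 6) → ldec (cCode b j) = (b, ⟨j, hj⟩, false) :=
    fun j hj => ldec_cCode b ⟨j, hj⟩
  simp only [Fin.sum_univ_six] at key
  simp only [termSum, orthTerms, wVal, codeVal, List.map_cons, List.map_nil, List.sum_cons,
    List.sum_nil, List.length_cons,
    d 0 (by norm_num), d 1 (by norm_num), d 2 (by norm_num), d 3 (by norm_num),
    d 4 (by norm_num), d 5 (by norm_num), d' 0 (by norm_num), d' 1 (by norm_num),
    d' 2 (by norm_num), d' 3 (by norm_num), d' 4 (by norm_num), d' 5 (by norm_num),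
    Fin.zero_eta, Fin.mk_one, Fin.reduceFinMk]
  linear_combination ((c : ℂ) * ((Real.sqrt 6 : ℝ) : ℂ) ^ ((m.length + 1 + 1) % 2)) * key

/-- All relation multiples have vanishing sum. -/
theorem termSum_relTerms (hh : DReg h) (R : List (ℤ × ℕ × ℕ × List ℕ)) (hR : okRels R = true) :
    termSum h (relTerms R) = 0 := by
  induction R with
  | nil => rfl
  | cons x R ih =>
    obtain ⟨c, a, b, m⟩ := x
    change (Nat.blt a 6 && (Nat.blt b 6 && okRels R)) = true at hR
    simp only [Bool.and_eq_true, Nat.blt_eq] at hR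
    obtain ⟨ha, hb, hR⟩ := hR
    show termSum h (cond (Nat.beq a b) (rowTerms c a m ++ relTerms R)
      (orthTerms c a b m ++ relTerms R)) = 0
    by_cases e : a = b
    · subst e
      rw [show Nat.beq a a = true from Nat.beq_refl a, cond_true, termSum_append, ih hR,
        termSum_rowTerms hh c ⟨a, ha⟩ m, add_zero]
    · rw [Bool.eq_false_iff.2 fun k => e (Nat.eq_of_beq_eq_true k), cond_false, termSum_append,
        ih hR, termSum_orthTerms hh c (a := ⟨a, ha⟩) (b := ⟨b, hb⟩) (by simpa using e) m,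
        add_zero]

end Vale.Agent.P355.Seven
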