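import Mathlib
import Vale.Agent.P355.Seven.Rel

/-!
Decoders which read certificate data from a few big numerals, so that data files elaborate
quickly. A block is a numeral holding equally wide fields; nothing has to be proved about the
decoders, as the checker only sees the decoded lists.
-/

namespace Vale.Agent.P355.Seven

/-- The lowest `k` bits. -/
def lowBits (k n : ℕ) : ℕ := Nat.land n (Nat.sub (Nat.shiftLeft 1 k) 1)

/-- Split a numeral into `count` fields of `width` bits. -/
noncomputable def unblock {α : Type} (dec : ℕ → α) (width count : ℕ) : ℕ → List α :=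
  Nat.rec (fun _ => []) (fun _ ih n => List.cons (dec (lowBits width n)) (ih (Nat.shiftRight n width)))
    count

/-- Decode a list of blocks, each given with its number of fields. -/
noncomputable def unblocks {α : Type} (dec : ℕ → α) (width : ℕ) : List (ℕ × ℕ) → List α :=
  List.rec [] fun x _ ih => unblock dec width x.1 x.2 ++ ih

/-- A signed number: the lowest bit is the sign. -/
def getInt (n : ℕ) : ℤ :=
  cond (Nat.beq (Nat.land n 1) 1) (Int.neg (Int.ofNat (Nat.shiftRight n 1)))
    (Int.ofNat (Nat.shiftRight n 1))

/-- A monomial: four bits of length, then seven bits for each code. -/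
noncomputable def getMono (w : ℕ) : List ℕ :=
  unblock (fun x => x) 7 (Nat.land w 15) (Nat.shiftRight w 4)

/-- A total: sixteen bits of index, then the signed value. -/
def getTotal (w : ℕ) : ℕ × ℤ := (Nat.land w 65535, getInt (Nat.shiftRight w 16))

/-- A relation item: monomial, two rows, signed multiplier. -/
noncomputable def getRel (w : ℕ) : ℤ × ℕ × ℕ × List ℕ :=
  (getInt (Nat.shiftRight w 70), Nat.land (Nat.shiftRight w 64) 7,
    Nat.land (Nat.shiftRight w 67) 7, getMono (lowBits 64 w))

/-- The leaf of a tree of a given depth at an index, read from the top bit down. -/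
noncomputable def walk : ATree ℕ → ℕ → ℕ → ℕ :=
  ATree.rec (fun _ _ => 0) (fun v _ _ => v) fun _ _ ihl ihr d j =>
    Bool.rec (ihl (Nat.sub d 1) j) (ihr (Nat.sub d 1) j)
      (Nat.beq (Nat.land (Nat.shiftRight j (Nat.sub d 1)) 1) 1)

/-- A table of monomials stored in blocks of sixty four. -/
noncomputable def getTable (depth : ℕ) (T : ATree ℕ) (i : ℕ) : List ℕ :=
  getMono (lowBits 64 (Nat.shiftRight (walk T depth (Nat.shiftRight i 6))
    (Nat.mul 64 (Nat.land i 63))))

end Vale.Agent.P355.Seven
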