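import Mathlib
import Vale.Agent.P355.Seven.Avg

/-!
Three identities between contractions of rows of a doubly regular matrix that hold when the
contraction of three rows against the other three vanishes. Each follows from expansions in the
orthogonal basis of rows.
-/

namespace Vale.Agent.P355.Seven

open scoped ComplexConjugate BigOperators

variable {h : Fin 6 → Fin 6 → ℂ}

/-- The contraction of rows with integer exponents. -/
noncomputable def gW (h : Fin 6 → Fin 6 → ℂ) (a b c d e f : ℤ) : ℂ :=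
  ∑ j, h 0 j ^ a * h 1 j ^ b * h 2 j ^ c * h 3 j ^ d * h 4 j ^ e * h 5 j ^ f

lemma dreg_ne (hh : DReg h) (i j : Fin 6) : h i j ≠ 0 := fun e => by
  have := hh.unim i j
  simp [e] at this

lemma dreg_inv (hh : DReg h) (i j : Fin 6) : (h i j)⁻¹ = conj (h i j) :=
  inv_eq_of_mul_eq_one_left (conj_mul_one (hh.unim i j))

/-- Expansion in the orthogonal basis of rows. -/
theorem gW_expand (hh : DReg h) (a b c d e f a' b' c' d' e' f' : ℤ) :
    gW h (a - 1) b c d e f * gW h (a' + 1) b' c' d' e' f' +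
      gW h a (b - 1) c d e f * gW h a' (b' + 1) c' d' e' f' +
      gW h a b (c - 1) d e f * gW h a' b' (c' + 1) d' e' f' +
      gW h a b c (d - 1) e f * gW h a' b' c' (d' + 1) e' f' +
      gW h a b c d (e - 1) f * gW h a' b' c' d' (e' + 1) f' +
      gW h a b c d e (f - 1) * gW h a' b' c' d' e' (f' + 1) =
      6 * gW h (a + a') (b + b') (c + c') (d + d') (e + e') (f + f') := by
  have n := dreg_ne hh
  have i := dreg_inv hh
  set X : Fin 6 → ℂ := fun j =>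
    h 0 j ^ a * h 1 j ^ b * h 2 j ^ c * h 3 j ^ d * h 4 j ^ e * h 5 j ^ f
  set Y : Fin 6 → ℂ := fun j =>
    h 0 j ^ a' * h 1 j ^ b' * h 2 j ^ c' * h 3 j ^ d' * h 4 j ^ e' * h 5 j ^ f'
  have key : ∑ m, (∑ j, X j * conj (h m j)) * (∑ k, Y k * h m k) = 6 * ∑ j, X j * Y j := by
    simp only [Finset.sum_mul_sum]
    rw [Finset.sum_comm, Finset.mul_sum]
    refine Finset.sum_congr rfl fun j _ => ?_
    rw [Finset.sum_comm]
    have e1 : ∀ k, ∑ m, X j * conj (h m j) * (Y k * h m k) =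
        X j * Y k * ∑ m, conj (h m j) * h m k := by
      intro k
      rw [Finset.mul_sum]
      exact Finset.sum_congr rfl fun m _ => by ring
    simp only [e1, hh.cols]
    simp
    ring
  simp only [gW, zpow_sub₀ (n _ _), zpow_add₀ (n _ _), zpow_one, div_eq_mul_inv, i]
  simp only [Fin.sum_univ_six, X, Y] at key ⊢
  linear_combination key

/-- Orthogonality of two rows. -/
lemma gW_pair (hh : DReg h) :
    gW h (-1) 0 0 0 0 1 = 0 ∧ gW h 0 (-1) 0 0 0 1 = 0 ∧ gW h (-1) 0 0 0 1 0 = 0 ∧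
      gW h 0 (-1) 0 0 1 0 = 0 := by
  have i := dreg_inv hh
  refine ⟨?_, ?_, ?_, ?_⟩
  · simpa [gW, i, mul_comm] using hh.rows 5 0
  · simpa [gW, i, mul_comm] using hh.rows 5 1
  · simpa [gW, i, mul_comm] using hh.rows 4 0
  · simpa [gW, i, mul_comm] using hh.rows 4 1

/-- The identity of shape `2345|0011`. -/
theorem tau_id_2345 (hh : DReg h) (ht : gW h (-1) (-1) 1 1 (-1) 1 = 0) :
    6 * gW h (-2) (-2) 1 1 1 1 =
      gW h (-1) (-1) 1 1 0 0 * gW h (-1) (-1) 0 0 1 1 +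
        gW h (-1) (-1) 1 0 1 0 * gW h (-1) (-1) 0 1 0 1 +
        gW h (-1) (-1) 1 0 0 1 * gW h (-1) (-1) 0 1 1 0 := by
  have E := gW_expand hh (-1) (-1) 1 1 0 1 (-1) (-1) 0 0 1 0
  norm_num at E
  obtain ⟨p1, p2, p3, p4⟩ := gW_pair hh
  simp only [p1, p2, p3, p4, ht] at E
  linear_combination -E

/-- The identity of shape `3455|0011`. -/
theorem tau_id_3455 (hh : DReg h) (ht : gW h (-1) (-1) (-1) 1 1 1 = 0) :
    6 * gW h (-2) (-2) 0 1 1 2 =
      gW h (-1) (-1) 0 1 1 0 * gW h (-1) (-1) 0 0 0 2 +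
        2 * (gW h (-1) (-1) 0 1 0 1 * gW h (-1) (-1) 0 0 1 1) := by
  have E := gW_expand hh (-1) (-1) 0 1 1 1 (-1) (-1) 0 0 0 1
  norm_num at E
  obtain ⟨p1, p2, p3, p4⟩ := gW_pair hh
  simp only [p1, p2, p3, p4, ht] at E
  linear_combination -E

/-- The identity of shape `4455|0011`. -/
theorem tau_id_4455 (hh : DReg h) (ht : gW h (-1) (-1) (-1) 1 1 1 = 0) :
    6 * gW h (-2) (-2) 0 0 2 2 =
      gW h (-1) (-1) 0 0 2 0 * gW h (-1) (-1) 0 0 0 2 +
        gW h (-2) 0 0 0 1 1 * gW h 0 (-2) 0 0 1 1 +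
        gW h (-1) (-1) 0 0 1 1 * gW h (-1) (-1) 0 0 1 1 := by
  have E1 := gW_expand hh 0 (-1) 0 0 1 1 (-2) (-1) 0 0 1 1
  have E2 := gW_expand hh (-1) (-1) 0 1 1 1 (-1) (-1) 0 (-1) 1 1
  have E3 := gW_expand hh (-1) (-1) 0 0 1 2 (-1) (-1) 0 0 1 0
  have E4 := gW_expand hh (-1) (-1) 0 0 2 1 (-1) (-1) 0 0 0 1
  have E5 := gW_expand hh (-1) 0 0 0 1 1 (-1) (-2) 0 0 1 1
  have E7 := gW_expand hh (-1) (-1) 1 0 1 1 (-1) (-1) (-1) 0 1 1
  norm_num at E1 E2 E3 E4 E5 E7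
  obtain ⟨p1, p2, p3, p4⟩ := gW_pair hh
  simp only [p1, p2, p3, p4] at E1 E2 E3 E4 E5 E7
  linear_combination (-(1 / 2) : ℂ) * E1 + (1 / 2 : ℂ) * E2 - (1 / 2 : ℂ) * E3 - (1 / 2 : ℂ) * E4 -
    (1 / 2 : ℂ) * E5 + (1 / 2 : ℂ) * E7 - gW h (-1) (-1) 1 (-1) 1 1 * ht

/-- The identity of shape `345|00011`. -/
theorem tau_id_345 (hh : DReg h) (ht : gW h (-1) (-1) (-1) 1 1 1 = 0) :
    6 * gW h (-3) (-2) 0 1 1 1 =
      gW h (-2) (-1) 0 1 1 1 * gW h (-1) (-1) 0 0 0 0 +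
        gW h (-1) (-2) 0 1 1 1 * gW h (-2) 0 0 0 0 0 +
        gW h (-1) (-1) 0 0 1 1 * gW h (-2) (-1) 0 1 0 0 +
        gW h (-1) (-1) 0 1 0 1 * gW h (-2) (-1) 0 0 1 0 +
        gW h (-1) (-1) 0 1 1 0 * gW h (-2) (-1) 0 0 0 1 := by
  have E := gW_expand hh (-1) (-1) 0 1 1 1 (-2) (-1) 0 0 0 0
  norm_num at E
  simp only [ht] at E
  linear_combination -E

end Vale.Agent.P355.Seven
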