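import Mathlib
import Vale.Agent.P355.Seven.Tau
import Vale.Agent.P355.Seven.Expand
import Vale.Agent.P355.Seven.Pack

/-!
Zero families for the checker in the case where all contractions of three lines against the other
three vanish: that contraction itself and four identities it implies, times any monomial. An
item `(c, k, m)` stands for `c` times relation number `k` multiplied by the monomial `m`.
-/

namespace Vale.Agent.P355.Seven

open scoped ComplexConjugate BigOperators

/-- Three rows contracted against the other three give zero, and so do columns. -/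
def TauFlat (h : Fin 6 → Fin 6 → ℂ) : Prop :=
  ∀ s : Equiv.Perm (Fin 6),
    ∑ j, h (s 0) j * h (s 1) j * h (s 2) j * conj (h (s 3) j * h (s 4) j * h (s 5) j) = 0 ∧
    ∑ i, h i (s 0) * h i (s 1) * h i (s 2) * conj (h i (s 3) * h i (s 4) * h i (s 5)) = 0

/-- The codes of one column of a contraction. -/
noncomputable def colCodes (P Q : List ℕ) (j : ℕ) : List ℕ :=
  List.rec (List.rec [] (fun b _ ih => List.cons (cCode b j) ih) Q)
    (fun a _ ih => List.cons (eCode a j) ih) P

/-- A multiple of a contraction. -/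
noncomputable def gTerms (c : ℤ) (P Q m : List ℕ) : List (ℤ × List ℕ) :=
  icat (fun j => [(c, colCodes P Q j ++ m)]) 6

/-- A multiple of a product of two contractions. -/
noncomputable def g2Terms (c : ℤ) (P Q P' Q' m : List ℕ) : List (ℤ × List ℕ) :=
  icat (fun j => icat (fun k => [(c, colCodes P Q j ++ (colCodes P' Q' k ++ m))]) 6) 6

/-- The terms of one relation of the case. -/
noncomputable def tauRel (c : ℤ) (k : ℕ) (m : List ℕ) : List (ℤ × List ℕ) :=
  cond (Nat.beq k 0) (gTerms c [3, 4, 5] [0, 1, 2] m)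
  (cond (Nat.beq k 1)
    (gTerms (Int.mul 6 c) [2, 3, 4, 5] [0, 0, 1, 1] m ++
      (g2Terms (Int.neg c) [2, 3] [0, 1] [4, 5] [0, 1] m ++
      (g2Terms (Int.neg c) [2, 4] [0, 1] [3, 5] [0, 1] m ++
       g2Terms (Int.neg c) [2, 5] [0, 1] [3, 4] [0, 1] m)))
  (cond (Nat.beq k 2)
    (gTerms (Int.mul 6 c) [3, 4, 5, 5] [0, 0, 1, 1] m ++
      (g2Terms (Int.neg c) [3, 4] [0, 1] [5, 5] [0, 1] m ++
       g2Terms (Int.mul (-2) c) [3, 5] [0, 1] [4, 5] [0, 1] m))
  (cond (Nat.beq k 4)
    (gTerms (Int.mul 6 c) [3, 4, 5] [0, 0, 0, 1, 1] m ++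
      (g2Terms (Int.neg c) [3, 4, 5] [0, 0, 1] [] [0, 1] m ++
      (g2Terms (Int.neg c) [3, 4, 5] [0, 1, 1] [] [0, 0] m ++
      (g2Terms (Int.neg c) [4, 5] [0, 1] [3] [0, 0, 1] m ++
      (g2Terms (Int.neg c) [3, 5] [0, 1] [4] [0, 0, 1] m ++
       g2Terms (Int.neg c) [3, 4] [0, 1] [5] [0, 0, 1] m)))))
    (gTerms (Int.mul 6 c) [4, 4, 5, 5] [0, 0, 1, 1] m ++
      (g2Terms (Int.neg c) [4, 4] [0, 1] [5, 5] [0, 1] m ++
      (g2Terms (Int.neg c) [4, 5] [0, 0] [4, 5] [1, 1] m ++
       g2Terms (Int.neg c) [4, 5] [0, 1] [4, 5] [0, 1] m))))))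

/-- The source list of all items. -/
noncomputable def tauTerms : List (ℤ × ℕ × List ℕ) → List (ℤ × List ℕ) :=
  List.rec [] fun x _ ih => tauRel x.1 x.2.1 x.2.2 ++ ih

variable {h : Fin 6 → Fin 6 → ℂ}

lemma TauFlat.act (ht : TauFlat h) (g : Gsym) : TauFlat (act g h) := by
  obtain ⟨r, c, f, t⟩ := g
  intro s
  have hr := ht (s.trans r)
  have hc := ht (s.trans c)
  simp only [Equiv.trans_apply] at hr hc
  rw [act_eq]
  cases f <;> cases t
  · exact ⟨by
        rw [← hr.1]
        exact Equiv.sum_comp c fun j => h (r (s 0)) j * h (r (s 1)) j * h (r (s 2)) j *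
          conj (h (r (s 3)) j * h (r (s 4)) j * h (r (s 5)) j), by
        rw [← hc.2]
        exact Equiv.sum_comp r fun i => h i (c (s 0)) * h i (c (s 1)) * h i (c (s 2)) *
          conj (h i (c (s 3)) * h i (c (s 4)) * h i (c (s 5)))⟩
  · simp only [hP, hC, hT, Complex.conj_conj]
    exact ⟨by
        rw [← hr.2]
        exact Equiv.sum_comp c fun j => h j (r (s 0)) * h j (r (s 1)) * h j (r (s 2)) *
          conj (h j (r (s 3)) * h j (r (s 4)) * h j (r (s 5))), by
        rw [← hc.1]
        exact Equiv.sum_comp r fun i => h (c (s 0)) i * h (c (s 1)) i * h (c (s 2)) i *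
          conj (h (c (s 3)) i * h (c (s 4)) i * h (c (s 5)) i)⟩
  · have h1 := congrArg conj hr.1
    have h2 := congrArg conj hc.2
    simp only [map_sum, map_mul, map_zero, Complex.conj_conj] at h1 h2
    simp only [hP, hC, map_mul, Complex.conj_conj]
    exact ⟨by
        rw [← h1]
        exact Equiv.sum_comp c fun j => conj (h (r (s 0)) j) * conj (h (r (s 1)) j) *
          conj (h (r (s 2)) j) * (h (r (s 3)) j * h (r (s 4)) j * h (r (s 5)) j), by
        rw [← h2]
        exact Equiv.sum_comp r fun i => conj (h i (c (s 0))) * conj (h i (c (s 1))) *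
          conj (h i (c (s 2))) * (h i (c (s 3)) * h i (c (s 4)) * h i (c (s 5)))⟩
  · have h1 := congrArg conj hr.2
    have h2 := congrArg conj hc.1
    simp only [map_sum, map_mul, map_zero, Complex.conj_conj] at h1 h2
    simp only [hP, hT, map_mul, Complex.conj_conj]
    exact ⟨by
        rw [← h1]
        exact Equiv.sum_comp c fun j => conj (h j (r (s 0))) * conj (h j (r (s 1))) *
          conj (h j (r (s 2))) * (h j (r (s 3)) * h j (r (s 4)) * h j (r (s 5))), by
        rw [← h2]
        exact Equiv.sum_comp r fun i => conj (h (c (s 0)) i) * conj (h (c (s 1)) i) *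
          conj (h (c (s 2)) i) * (h (c (s 3)) i * h (c (s 4)) i * h (c (s 5)) i)⟩

/-- The contraction of listed rows against conjugated ones. -/
noncomputable def gVal (h : Fin 6 → Fin 6 → ℂ) (P Q : List (Fin 6)) : ℂ :=
  ∑ j, (P.map fun a => h a j).prod * (Q.map fun b => conj (h b j)).prod

/-- The same contraction read from codes. -/
noncomputable def cVal (h : Fin 6 → Fin 6 → ℂ) (P Q : List ℕ) : ℂ :=
  ∑ j : Fin 6, monVal h ((colCodes P Q j).map ldec)

lemma map_colCodes (P Q : List (Fin 6)) (j : Fin 6) :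
    (colCodes (P.map Fin.val) (Q.map Fin.val) j).map ldec =
      P.map (fun a => (a, j, true)) ++ Q.map (fun b => (b, j, false)) := by
  induction P with
  | nil =>
    induction Q with
    | nil => rfl
    | cons b Q ih =>
      exact congrArg₂ List.cons (ldec_cCode b j) ih
  | cons a P ih => exact congrArg₂ List.cons (ldec_eCode a j) ih

lemma monVal_col (h : Fin 6 → Fin 6 → ℂ) (P Q : List (Fin 6)) (j : Fin 6) :
    monVal h (P.map (fun a => (a, j, true)) ++ Q.map (fun b => (b, j, false))) =
      (P.map fun a => h a j).prod * (Q.map fun b => conj (h b j)).prod := by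
  simp [monVal, List.map_map, Function.comp_def, litVal]

lemma cVal_map (h : Fin 6 → Fin 6 → ℂ) (P Q : List (Fin 6)) :
    cVal h (P.map Fin.val) (Q.map Fin.val) = gVal h P Q := by
  simp only [cVal, map_colCodes, monVal_col, gVal]

lemma length_colCodes (P Q : List ℕ) (j : ℕ) : (colCodes P Q j).length = P.length + Q.length := by
  induction P with
  | nil =>
    induction Q with
    | nil => rfl
    | cons b Q ih =>
      show (colCodes [] Q j).length + 1 = _
      rw [ih]
      simp
  | cons a P ih =>
    show (colCodes P Q j).length + 1 = _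
    rw [ih]
    simp
    omega

/-- The parity factor and the symmetries of a monomial. -/
noncomputable def mPart (g : Gsym) (h : Fin 6 → Fin 6 → ℂ) (m : List ℕ) : ℂ :=
  ((Real.sqrt 6 : ℝ) : ℂ) ^ (m.length % 2) * monVal (act g h) (m.map ldec)

lemma termSum_gTerms (h : Fin 6 → Fin 6 → ℂ) (c : ℤ) (P Q : List ℕ)
    (he : (P.length + Q.length) % 2 = 0) (m : List ℕ) :
    termSum h (gTerms c P Q m) = ∑ g : Gsym, (c : ℂ) * cVal (act g h) P Q * mPart g h m := by
  rw [gTerms, termSum_icat, Finset.sum_range fun i => termSum h [(c, colCodes P Q i ++ m)]]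
  have hp : (P.length + Q.length + m.length) % 2 = m.length % 2 := by omega
  have e : ∀ j : Fin 6, termSum h [(c, colCodes P Q j ++ m)] =
      ∑ g : Gsym, (c : ℂ) * monVal (act g h) ((colCodes P Q j).map ldec) * mPart g h m := fun j => by
    simp only [termSum, wVal, codeVal, orbVal, List.map_cons, List.map_nil, List.sum_cons,
      List.sum_nil, add_zero, List.map_append, monVal_append, mPart, List.length_append,
      length_colCodes, hp, Finset.mul_sum]
    exact Finset.sum_congr rfl fun g _ => by ring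
  simp only [e]
  rw [Finset.sum_comm]
  simp only [cVal, Finset.mul_sum, Finset.sum_mul]

lemma termSum_g2Terms (h : Fin 6 → Fin 6 → ℂ) (c : ℤ) (P Q P' Q' : List ℕ)
    (he : (P.length + Q.length) % 2 = 0) (he' : (P'.length + Q'.length) % 2 = 0) (m : List ℕ) :
    termSum h (g2Terms c P Q P' Q' m) =
      ∑ g : Gsym, (c : ℂ) * (cVal (act g h) P Q * cVal (act g h) P' Q') * mPart g h m := by
  have hp : (P.length + Q.length + (P'.length + Q'.length + m.length)) % 2 = m.length % 2 := by
    omega
  have e : ∀ j k : Fin 6, termSum h [(c, colCodes P Q j ++ (colCodes P' Q' k ++ m))] =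
      ∑ g : Gsym, (c : ℂ) * (monVal (act g h) ((colCodes P Q j).map ldec) *
        monVal (act g h) ((colCodes P' Q' k).map ldec)) * mPart g h m := fun j k => by
    simp only [termSum, wVal, codeVal, orbVal, List.map_cons, List.map_nil, List.sum_cons,
      List.sum_nil, add_zero, List.map_append, monVal_append, mPart, List.length_append,
      length_colCodes, hp, Finset.mul_sum]
    exact Finset.sum_congr rfl fun g _ => by ring
  rw [g2Terms, termSum_icat, Finset.sum_range fun i => termSum h (icat _ 6)]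
  rw [Finset.sum_congr rfl fun (j : Fin 6) _ => (termSum_icat h _ 6).trans
    ((Finset.sum_range _).trans (Finset.sum_congr rfl fun k _ => e j k))]
  simp only [cVal, Finset.sum_mul_sum]
  simp only [Finset.mul_sum, Finset.sum_mul]
  symm
  rw [Finset.sum_comm]
  exact Finset.sum_congr rfl fun j _ => Finset.sum_comm

section Identities

variable (hh : DReg h)
include hh

/-- The five relations at one matrix. -/
lemma tau_relations (ht : TauFlat h) :
    gVal h [3, 4, 5] [0, 1, 2] = 0 ∧
    6 * gVal h [2, 3, 4, 5] [0, 0, 1, 1] =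
      gVal h [2, 3] [0, 1] * gVal h [4, 5] [0, 1] + gVal h [2, 4] [0, 1] * gVal h [3, 5] [0, 1] +
        gVal h [2, 5] [0, 1] * gVal h [3, 4] [0, 1] ∧
    6 * gVal h [3, 4, 5, 5] [0, 0, 1, 1] =
      gVal h [3, 4] [0, 1] * gVal h [5, 5] [0, 1] +
        2 * (gVal h [3, 5] [0, 1] * gVal h [4, 5] [0, 1]) ∧
    6 * gVal h [4, 4, 5, 5] [0, 0, 1, 1] =
      gVal h [4, 4] [0, 1] * gVal h [5, 5] [0, 1] + gVal h [4, 5] [0, 0] * gVal h [4, 5] [1, 1] +
        gVal h [4, 5] [0, 1] * gVal h [4, 5] [0, 1] ∧
    6 * gVal h [3, 4, 5] [0, 0, 0, 1, 1] =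
      gVal h [3, 4, 5] [0, 0, 1] * gVal h [] [0, 1] + gVal h [3, 4, 5] [0, 1, 1] * gVal h [] [0, 0] +
        gVal h [4, 5] [0, 1] * gVal h [3] [0, 0, 1] + gVal h [3, 5] [0, 1] * gVal h [4] [0, 0, 1] +
        gVal h [3, 4] [0, 1] * gVal h [5] [0, 0, 1] := by
  have i := dreg_inv hh
  have t0 : gVal h [3, 4, 5] [0, 1, 2] = 0 := by
    rw [← (ht (Equiv.swap 0 3 * Equiv.swap 1 4 * Equiv.swap 2 5)).1]
    refine Finset.sum_congr rfl fun j _ => ?_
    simp [Equiv.swap_apply_def]
    ring
  have t1 : gW h (-1) (-1) (-1) 1 1 1 = 0 := by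
    rw [← t0]
    refine Finset.sum_congr rfl fun j _ => ?_
    simp [i]
    ring
  have t2 : gW h (-1) (-1) 1 1 (-1) 1 = 0 := by
    rw [← (ht (Equiv.swap 0 2 * Equiv.swap 1 3 * Equiv.swap 2 5 * Equiv.swap 3 4 *
      Equiv.swap 4 5)).1]
    refine Finset.sum_congr rfl fun j _ => ?_
    simp [Equiv.swap_apply_def, i]
    ring
  have A := tau_id_2345 hh t2
  have B := tau_id_3455 hh t1
  have C := tau_id_4455 hh t1
  have D := tau_id_345 hh t1
  have z2 : ∀ a j, h a j ^ (-2 : ℤ) = conj (h a j) * conj (h a j) := fun a j => by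
    rw [zpow_neg, show (2 : ℤ) = ((2 : ℕ) : ℤ) from rfl, zpow_natCast, pow_two, mul_inv, i]
  have z3 : ∀ a j, h a j ^ (-3 : ℤ) = conj (h a j) * conj (h a j) * conj (h a j) := fun a j => by
    rw [zpow_neg, show (3 : ℤ) = ((3 : ℕ) : ℤ) from rfl, zpow_natCast, pow_succ, pow_two, mul_inv,
      mul_inv, i]
  simp only [gW, zpow_neg_one, zpow_zero, zpow_one, z2, z3, i,
    show ∀ a j, h a j ^ (2 : ℤ) = h a j * h a j from fun a j => by
      rw [show (2 : ℤ) = ((2 : ℕ) : ℤ) from rfl, zpow_natCast, pow_two]] at A B C D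
  simp only [gVal, List.map_cons, List.map_nil, List.prod_cons, List.prod_nil] at t0 ⊢
  simp only [Fin.sum_univ_six] at A B C D t0 ⊢
  exact ⟨t0, by linear_combination A, by linear_combination B, by linear_combination C, by linear_combination D⟩

end Identities

lemma termSum_tauRel (hh : DReg h) (ht : TauFlat h) (c : ℤ) (k : ℕ) (m : List ℕ) :
    termSum h (tauRel c k m) = 0 := by
  have key := fun g => tau_relations (dreg_act g hh) (ht.act g)
  simp only [← cVal_map] at key
  simp only [List.map_cons, List.map_nil, Fin.isValue, Fin.val_zero, Fin.val_one, Fin.val_two,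
    show ((3 : Fin 6) : ℕ) = 3 from rfl, show ((4 : Fin 6) : ℕ) = 4 from rfl,
    show ((5 : Fin 6) : ℕ) = 5 from rfl] at key
  have imul : ∀ a b : ℤ, Int.mul a b = a * b := fun _ _ => rfl
  have ineg : ∀ a : ℤ, Int.neg a = -a := fun _ => rfl
  have p4 : ∀ a b c d a' b' c' d' : ℕ,
      ([a, b, c, d].length + [a', b', c', d'].length) % 2 = 0 := by simp
  have p2 : ∀ a b a' b' : ℕ, ([a, b].length + [a', b'].length) % 2 = 0 := by simp
  have p5 : ∀ a b c a' b' c' d' e' : ℕ,
      ([a, b, c].length + [a', b', c', d', e'].length) % 2 = 0 := by simp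
  have p3 : ∀ a b c a' b' c' : ℕ, ([a, b, c].length + [a', b', c'].length) % 2 = 0 := by simp
  have p1 : ∀ a a' b' c' : ℕ, ([a].length + [a', b', c'].length) % 2 = 0 := by simp
  have p0 : ∀ a b : ℕ, (([] : List ℕ).length + [a, b].length) % 2 = 0 := by simp
  unfold tauRel
  cases Nat.beq k 0
  · cases Nat.beq k 1
    · cases Nat.beq k 2
      · cases Nat.beq k 4
        · simp only [cond_false, termSum_append, termSum_gTerms, termSum_g2Terms, p4, p2,
            ← Finset.sum_add_distrib, imul, ineg, Int.cast_mul, Int.cast_neg, Int.cast_ofNat]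
          exact Finset.sum_eq_zero fun g _ => by
            linear_combination ((c : ℂ) * mPart g h m) * (key g).2.2.2.1
        · simp only [cond_false, cond_true, termSum_append, termSum_gTerms, termSum_g2Terms, p5,
            p3, p2, p1, p0, ← Finset.sum_add_distrib, imul, ineg, Int.cast_mul, Int.cast_neg,
            Int.cast_ofNat]
          exact Finset.sum_eq_zero fun g _ => by
            linear_combination ((c : ℂ) * mPart g h m) * (key g).2.2.2.2
      · simp only [cond_false, cond_true, termSum_append, termSum_gTerms, termSum_g2Terms, p4, p2,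
          ← Finset.sum_add_distrib, imul, ineg, Int.cast_mul, Int.cast_neg, Int.cast_ofNat]
        exact Finset.sum_eq_zero fun g _ => by
          linear_combination ((c : ℂ) * mPart g h m) * (key g).2.2.1
    · simp only [cond_false, cond_true, termSum_append, termSum_gTerms, termSum_g2Terms, p4, p2,
        ← Finset.sum_add_distrib, imul, ineg, Int.cast_mul, Int.cast_neg, Int.cast_ofNat]
      exact Finset.sum_eq_zero fun g _ => by
        linear_combination ((c : ℂ) * mPart g h m) * (key g).2.1
  · rw [cond_true, termSum_gTerms h c _ _ rfl]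
    exact Finset.sum_eq_zero fun g _ => by rw [(key g).1]; ring

/-- All multiples of the relations of the case have vanishing sum. -/
theorem termSum_tauTerms (hh : DReg h) (ht : TauFlat h) (T : List (ℤ × ℕ × List ℕ)) :
    termSum h (tauTerms T) = 0 := by
  induction T with
  | nil => rfl
  | cons x T ih =>
    show termSum h (tauRel x.1 x.2.1 x.2.2 ++ tauTerms T) = 0
    rw [termSum_append, ih, termSum_tauRel hh ht, add_zero]

/-- An item of the case: monomial, relation number in three bits, signed multiplier. -/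
noncomputable def getTau (w : ℕ) : ℤ × ℕ × List ℕ :=
  (getInt (Nat.shiftRight w 70), Nat.land (Nat.shiftRight w 64) 7, getMono (lowBits 64 w))

end Vale.Agent.P355.Seven
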