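import Mathlib
import Vale.Agent.P355.Seven.Zero

/-!
Zero families for the checker outside the flat case: three contractions that vanish for all rows
and all columns, times any monomial.
-/

namespace Vale.Agent.P355.Seven

open scoped ComplexConjugate BigOperators

/-- A contraction vanishes however the rows are relabelled, and so it does for columns. -/
def RelZero (h : Fin 6 → Fin 6 → ℂ) (P Q : List (Fin 6)) : Prop :=
  ∀ s : Equiv.Perm (Fin 6), gVal h (P.map s) (Q.map s) = 0 ∧
    gVal (fun i j => h j i) (P.map s) (Q.map s) = 0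

/-- Squares of rows are orthogonal and two contractions of degree six vanish; columns likewise. -/
def AFlat (h : Fin 6 → Fin 6 → ℂ) : Prop :=
  RelZero h [0, 0] [1, 1] ∧ RelZero h [0, 0, 0] [1, 1, 2] ∧ RelZero h [0, 0, 1] [3, 4, 5]

variable {h : Fin 6 → Fin 6 → ℂ}

lemma gVal_hP (r c : Equiv.Perm (Fin 6)) (k : Fin 6 → Fin 6 → ℂ) (P Q : List (Fin 6)) :
    gVal (hP r c k) P Q = gVal k (P.map r) (Q.map r) := by
  simp only [gVal, hP, List.map_map, Function.comp_def]
  exact Equiv.sum_comp c fun j =>
    (P.map fun a => k (r a) j).prod * (Q.map fun b => conj (k (r b) j)).prod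

lemma gVal_hC (k : Fin 6 → Fin 6 → ℂ) (P Q : List (Fin 6)) :
    gVal (hC k) P Q = conj (gVal k P Q) := by
  simp only [gVal, hC, map_sum, map_mul, map_list_prod, List.map_map, Function.comp_def,
    Complex.conj_conj]

lemma RelZero.act {P Q : List (Fin 6)} (hz : RelZero h P Q) (g : Gsym) :
    gVal (act g h) P Q = 0 := by
  obtain ⟨r, c, f, t⟩ := g
  have e := hz r
  rw [act_eq]
  cases f <;> cases t <;> simp only [gVal_hP]
  · exact e.1
  · rw [show hC (hT h) = fun i j => h j i from funext fun i => funext fun j => by simp [hC, hT]]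
    exact e.2
  · rw [gVal_hC, e.1, map_zero]
  · rw [show hT h = hC (fun i j => h j i) from rfl, gVal_hC, e.2, map_zero]

/-- The terms of one relation of the case. -/
noncomputable def aRel (c : ℤ) (k : ℕ) (m : List ℕ) : List (ℤ × List ℕ) :=
  cond (Nat.beq k 5) (gTerms c [0, 0] [1, 1] m)
  (cond (Nat.beq k 6) (gTerms c [0, 0, 0] [1, 1, 2] m) (gTerms c [0, 0, 1] [3, 4, 5] m))

/-- The source list of all items. -/
noncomputable def aTerms : List (ℤ × ℕ × List ℕ) → List (ℤ × List ℕ) :=
  List.rec [] fun x _ ih => aRel x.1 x.2.1 x.2.2 ++ ih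

lemma termSum_gTerms_zero {P Q : List (Fin 6)} (hz : RelZero h P Q)
    (he : (P.length + Q.length) % 2 = 0) (c : ℤ) (m : List ℕ) :
    termSum h (gTerms c (P.map Fin.val) (Q.map Fin.val) m) = 0 := by
  rw [termSum_gTerms h c _ _ (by simpa using he) m]
  exact Finset.sum_eq_zero fun g _ => by rw [cVal_map, hz.act g]; ring

lemma termSum_aRel (ha : AFlat h) (c : ℤ) (k : ℕ) (m : List ℕ) :
    termSum h (aRel c k m) = 0 := by
  unfold aRel
  cases Nat.beq k 5
  · cases Nat.beq k 6
    · exact termSum_gTerms_zero ha.2.2 rfl c m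
    · exact termSum_gTerms_zero ha.2.1 rfl c m
  · exact termSum_gTerms_zero ha.1 rfl c m

/-- All multiples of the three contractions have vanishing sum. -/
theorem termSum_aTerms (ha : AFlat h) (T : List (ℤ × ℕ × List ℕ)) :
    termSum h (aTerms T) = 0 := by
  induction T with
  | nil => rfl
  | cons x T ih =>
    show termSum h (aRel x.1 x.2.1 x.2.2 ++ aTerms T) = 0
    rw [termSum_append, ih, termSum_aRel ha, add_zero]

end Vale.Agent.P355.Seven
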