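import Mathlib
import Vale.Agent.P355.Seven.Expand
import Vale.Agent.P355.Seven.Rel

/-!
Averaged centred features as source lists for the checker. After scaling by a power of `√6` all
coefficients are integers.
-/

namespace Vale.Agent.P355.Seven

open scoped ComplexConjugate BigOperators

/-- An integer combination of coded monomials. -/
abbrev CPoly := List (ℤ × List ℕ)

/-- The product of two combinations. -/
noncomputable def pMul (P Q : CPoly) : CPoly :=
  List.rec [] (fun x _ ih => Q.map (fun y => (Int.mul x.1 y.1, x.2 ++ y.2)) ++ ih) P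

/-- The conjugate of a combination. -/
noncomputable def pConj (P : CPoly) : CPoly := P.map fun x => (x.1, flipList x.2)

/-- A multiple of a combination. -/
noncomputable def pScale (c : ℤ) (P : CPoly) : CPoly := P.map fun x => (Int.mul c x.1, x.2)

/-- The value of a combination. -/
noncomputable def pEval (h : Fin 6 → Fin 6 → ℂ) (P : CPoly) : ℂ :=
  (P.map fun x => (x.1 : ℂ) * monVal h (x.2.map ldec)).sum

/-- A coordinate of a slot form, without its factor `1 / √6`. -/
noncomputable def rawForm : Slot → ℕ → CPoly
  | .inl i, l => cond (Nat.beq i.val l) [(1, [])] []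
  | .inr j, l => [(1, [cCode l j.val])]

/-- The number of factors `1 / √6` of a slot. -/
def sWt : Slot → ℕ
  | .inl _ => 0
  | .inr _ => 1

/-- The pairing of two slots; two column forms are orthogonal. -/
noncomputable def prPoly : Slot → Slot → CPoly
  | .inr j, .inr k => cond (Nat.beq j.val k.val) [(6, [])] []
  | s, t => icat (fun k => pMul (rawForm s k) (pConj (rawForm t k))) 6

/-- A slot form evaluated at a column; a column form is orthogonal to the other columns. -/
noncomputable def linPoly : Slot → ℕ → CPoly
  | .inr j, m => cond (Nat.beq j.val m) [(6, [])] []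
  | .inl i, m => icat (fun k => pMul (rawForm (.inl i) k) [(1, [eCode k m])]) 6

/-- The sum over the thirty vectors, scaled. -/
noncomputable def restPoly (A B C D : Slot) : CPoly :=
  pScale 36 (pMul (prPoly A C) (prPoly B D) ++ pMul (prPoly A D) (prPoly B C)) ++
    pScale (-36) (icat (fun l => pMul (pMul (rawForm A l) (rawForm B l))
      (pConj (pMul (rawForm C l) (rawForm D l)))) 6) ++
    pScale (-1) (icat (fun m => pMul (pMul (linPoly A m) (linPoly B m))
      (pConj (pMul (linPoly C m) (linPoly D m)))) 6)

variable {h : Fin 6 → Fin 6 → ℂ}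

lemma pEval_append (P Q : CPoly) : pEval h (P ++ Q) = pEval h P + pEval h Q := by
  simp [pEval]

lemma pEval_icat (f : ℕ → CPoly) (n : ℕ) :
    pEval h (icat f n) = ∑ i ∈ Finset.range n, pEval h (f i) := by
  induction n with
  | zero => rfl
  | succ n ih =>
    show pEval h (f n ++ icat f n) = _
    rw [pEval_append, ih, Finset.sum_range_succ, add_comm]

lemma pEval_mul (P Q : CPoly) : pEval h (pMul P Q) = pEval h P * pEval h Q := by
  induction P with
  | nil => show pEval h [] = pEval h [] * _; simp [pEval]
  | cons x P ih =>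
    show pEval h (Q.map (fun y => (Int.mul x.1 y.1, x.2 ++ y.2)) ++ pMul P Q) = _
    rw [pEval_append, ih]
    simp only [pEval, List.map_cons, List.sum_cons, add_mul, List.map_map]
    congr 1
    rw [← List.sum_map_mul_left]
    refine congrArg (List.sum (α := ℂ)) (List.map_congr_left fun y _ => ?_)
    simp [monVal_append, show ∀ a b : ℤ, Int.mul a b = a * b from fun _ _ => rfl]
    ring

lemma pEval_scale (c : ℤ) (P : CPoly) : pEval h (pScale c P) = (c : ℂ) * pEval h P := by
  simp only [pEval, pScale, List.map_map, ← List.sum_map_mul_left]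
  refine congrArg List.sum (List.map_congr_left fun y _ => ?_)
  simp [show ∀ a b : ℤ, Int.mul a b = a * b from fun _ _ => rfl, mul_assoc]

/-- Whether all monomials are coded. -/
def POk (P : CPoly) : Prop := ∀ x ∈ P, okList x.2 = true

lemma pEval_conj {P : CPoly} (hP : POk P) : pEval h (pConj P) = conj (pEval h P) := by
  induction P with
  | nil => simp [pEval, pConj]
  | cons x P ih =>
    have i := ih fun y hy => hP y (List.mem_cons_of_mem _ hy)
    simp only [pEval, pConj, List.map_cons, List.sum_cons, map_add, map_mul, map_intCast] at i ⊢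
    rw [i, conj_monVal]
    congr 2
    rw [flipList_eq, List.map_map, List.map_map]
    congr 1
    exact List.map_congr_left fun n hn =>
      (ldec_xor ((okList_iff _).1 (hP x List.mem_cons_self) n hn)).2

lemma POk_mul {P Q : CPoly} (hP : POk P) (hQ : POk Q) : POk (pMul P Q) := by
  induction P with
  | nil => intro x hx; simp [pMul] at hx
  | cons x P ih =>
    intro y hy
    change y ∈ Q.map (fun y => (Int.mul x.1 y.1, x.2 ++ y.2)) ++ pMul P Q at hy
    rcases List.mem_append.1 hy with hy | hy
    · obtain ⟨z, hz, rfl⟩ := List.mem_map.1 hy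
      have h1 := (okList_iff _).1 (hP x List.mem_cons_self)
      have h2 := (okList_iff _).1 (hQ z hz)
      refine (okList_iff _).2 fun n hn => ?_
      rcases List.mem_append.1 hn with hn | hn
      exacts [h1 n hn, h2 n hn]
    · exact ih (fun z hz => hP z (List.mem_cons_of_mem _ hz)) y hy

lemma POk_icat {f : ℕ → CPoly} {n : ℕ} (hf : ∀ i < n, POk (f i)) : POk (icat f n) := by
  induction n with
  | zero => intro x hx; simp [icat] at hx
  | succ n ih =>
    intro x hx
    change x ∈ f n ++ icat f n at hx
    rcases List.mem_append.1 hx with hx | hx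
    exacts [hf n (by omega) x hx, ih (fun i hi => hf i (by omega)) x hx]

lemma POk_rawForm (s : Slot) (l : Fin 6) : POk (rawForm s l) := by
  cases s with
  | inl i =>
    intro x hx
    simp only [rawForm] at hx
    cases hb : Nat.beq i.val l <;> simp [hb] at hx
    subst hx
    rfl
  | inr j =>
    intro x hx
    simp only [rawForm, List.mem_singleton] at hx
    subst hx
    revert l j
    decide +kernel

lemma POk_linPoly (s : Slot) (m : Fin 6) : POk (linPoly s m) := by
  cases s with
  | inl i =>
    rw [linPoly]
    exact POk_icat fun k hk => POk_mul (POk_rawForm (.inl i) ⟨k, hk⟩) fun x hx => by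
      rw [List.mem_singleton] at hx
      subst hx
      have key : ∀ a b : Fin 6, okList [eCode a b] = true := by decide +kernel
      exact key ⟨k, hk⟩ m
  | inr j =>
    intro x hx
    simp only [linPoly] at hx
    cases hb : Nat.beq j.val m.val <;> simp [hb] at hx
    subst hx
    rfl

lemma pEval_rawForm (s : Slot) (l : Fin 6) :
    pEval h (rawForm s l) = rt ^ sWt s * sForm h s l := by
  cases s with
  | inl i =>
    simp only [rawForm, sWt, sForm, eF, pow_zero, one_mul]
    by_cases e : i = l
    · subst e
      simp [pEval, monVal]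
    · rw [if_neg e, Bool.eq_false_iff.2 fun q => e (Fin.ext (Nat.eq_of_beq_eq_true q))]
      simp [pEval]
  | inr j =>
    simp only [rawForm, sWt, sForm, cF, pow_one, mul_div_cancel₀ _ rt_ne]
    simp [pEval, monVal, ldec_cCode, litVal]

lemma pEval_icat_pr (s t : Slot) :
    pEval h (icat (fun k => pMul (rawForm s k) (pConj (rawForm t k))) 6) =
      rt ^ sWt s * rt ^ sWt t * pr (sForm h s) (sForm h t) := by
  rw [pEval_icat, Finset.sum_range, pr, Finset.mul_sum]
  refine Finset.sum_congr rfl fun k _ => ?_
  rw [pEval_mul, pEval_conj (POk_rawForm t k), pEval_rawForm, pEval_rawForm, map_mul, map_pow,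
    show conj rt = rt from Complex.conj_ofReal _]
  ring

lemma pEval_prPoly (hh : DReg h) (s t : Slot) :
    pEval h (prPoly s t) = rt ^ sWt s * rt ^ sWt t * pr (sForm h s) (sForm h t) := by
  rcases s with i | j <;> rcases t with i' | k
  · exact pEval_icat_pr _ _
  · exact pEval_icat_pr _ _
  · exact pEval_icat_pr _ _
  · rw [← pEval_icat_pr, pEval_icat, Finset.sum_range]
    have e : ∀ l : Fin 6, pEval h (pMul (rawForm (.inr j) l) (pConj (rawForm (.inr k) l))) =
        conj (h l j) * h l k := fun l => by
      rw [pEval_mul, pEval_conj (POk_rawForm (.inr k) l), pEval_rawForm, pEval_rawForm]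
      simp [sForm, cF, sWt, mul_div_cancel₀ _ rt_ne]
    simp only [e, hh.cols, prPoly]
    by_cases he : j = k
    · subst he; simp [pEval, monVal]
    · rw [if_neg he, Bool.eq_false_iff.2 fun q => he (Fin.ext (Nat.eq_of_beq_eq_true q))]
      simp [pEval]

lemma pEval_linPoly (hh : DReg h) (s : Slot) (m : Fin 6) :
    pEval h (linPoly s m) = rt ^ sWt s * lin (sForm h s) (fun k => h k m) := by
  rcases s with i | j
  · rw [linPoly, pEval_icat, Finset.sum_range, lin, Finset.mul_sum]
    refine Finset.sum_congr rfl fun k _ => ?_
    rw [pEval_mul, pEval_rawForm]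
    simp [pEval, monVal, ldec_eCode, litVal]
    ring
  · have e : rt ^ sWt (Sum.inr j) * lin (sForm h (Sum.inr j)) (fun k => h k m) =
        ∑ k, conj (h k j) * h k m := by
      simp only [lin, sForm, cF, sWt, pow_one, Finset.mul_sum]
      exact Finset.sum_congr rfl fun k _ => by field_simp [rt_ne]
    rw [e, hh.cols, linPoly]
    by_cases he : j = m
    · subst he; simp [pEval, monVal]
    · rw [if_neg he, Bool.eq_false_iff.2 fun q => he (Fin.ext (Nat.eq_of_beq_eq_true q))]
      simp [pEval]

lemma pEval_restPoly (hh : DReg h) (A B C D : Slot) : pEval h (restPoly A B C D) =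
    rt ^ (sWt A + sWt B + sWt C + sWt D) * restSum h A B C D := by
  have hc : conj rt = rt := Complex.conj_ofReal _
  have g : ∀ l : Fin 6, pEval h (pMul (pMul (rawForm A l) (rawForm B l))
      (pConj (pMul (rawForm C l) (rawForm D l)))) =
      rt ^ (sWt A + sWt B + sWt C + sWt D) *
        (sForm h A l * sForm h B l * conj (sForm h C l * sForm h D l)) := by
    intro l
    rw [pEval_mul, pEval_conj (POk_mul (POk_rawForm C l) (POk_rawForm D l)), pEval_mul, pEval_mul,
      pEval_rawForm, pEval_rawForm, pEval_rawForm, pEval_rawForm]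
    simp only [map_mul, map_pow, hc]
    ring
  have q : ∀ m : Fin 6, pEval h (pMul (pMul (linPoly A m) (linPoly B m))
      (pConj (pMul (linPoly C m) (linPoly D m)))) =
      rt ^ (sWt A + sWt B + sWt C + sWt D) *
        quart (sForm h A) (sForm h B) (sForm h C) (sForm h D) (fun k => h k m) := by
    intro m
    rw [pEval_mul, pEval_conj (POk_mul (POk_linPoly C m) (POk_linPoly D m)), pEval_mul, pEval_mul,
      pEval_linPoly hh, pEval_linPoly hh, pEval_linPoly hh, pEval_linPoly hh]
    simp only [quart, map_mul, map_pow, hc]
    ring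
  simp only [restPoly, pEval_append, pEval_scale, pEval_icat, Finset.sum_range, g, q]
  simp only [pEval_mul, pEval_prPoly hh, restSum, ← Finset.mul_sum]
  push_cast
  ring

/-- The number of factors `1 / √6` of four slots. -/
def qWt (q : Slot × Slot × Slot × Slot) : ℕ := sWt q.1 + sWt q.2.1 + sWt q.2.2.1 + sWt q.2.2.2

/-- The exponent of six of the constant term. -/
def qPow (l e : ℕ) : ℕ := (e + (l + e) % 2 - l % 2) / 2

/-- The positive factor between an averaged feature and its source list. -/
noncomputable def qFac (ls : List ℕ) (q : Slot × Slot × Slot × Slot) : ℂ :=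
  rt ^ (qWt q + (ls.length + qWt q) % 2)

/-- The source list of an averaged feature. -/
noncomputable def featTerms (c : ℤ) (ls : List ℕ) (q : Slot × Slot × Slot × Slot) :
    List (ℤ × List ℕ) :=
  (Int.mul c (Int.mul 30 (6 ^ qPow (lenList ls) (qWt q))), ls) ::
    (restPoly q.1 q.2.1 q.2.2.1 q.2.2.2).map fun x => (Int.mul (Int.neg c) x.1, ls ++ x.2)

/-- Whether all monomials of a scaled quartic sum have the right parity. -/
noncomputable def okParity (q : Slot × Slot × Slot × Slot) : Bool :=
  (restPoly q.1 q.2.1 q.2.2.1 q.2.2.2).all fun x => Nat.beq (lenList x.2 % 2) (qWt q % 2)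

lemma rt_pow_shift (l e : ℕ) :
    rt ^ (e + (l + e) % 2) = rt ^ (l % 2) * (6 : ℂ) ^ qPow l e := by
  have : e + (l + e) % 2 = l % 2 + 2 * qPow l e := by
    unfold qPow
    omega
  rw [this, pow_add, pow_mul, sq, rt_mul_self]

/-- The source list of a feature sums to a positive multiple of its average. -/
theorem termSum_featTerms (hh : DReg h) (c : ℤ) (ls : List ℕ)
    (q : Slot × Slot × Slot × Slot) (hpar : okParity q = true) :
    termSum h (featTerms c ls q) = (c : ℂ) * qFac ls q *
      ∑ g : Gsym, feat (ls.map ldec) q.1 q.2.1 q.2.2.1 q.2.2.2 (act g h) := by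
  have hI : ∀ a b : ℤ, Int.mul a b = a * b := fun _ _ => rfl
  simp only [okParity, List.all_eq_true, Nat.beq_eq, lenList_eq] at hpar
  have e : ∀ g : Gsym, qFac ls q * feat (ls.map ldec) q.1 q.2.1 q.2.2.1 q.2.2.2 (act g h) =
      30 * 6 ^ qPow ls.length (qWt q) * (rt ^ (ls.length % 2) * monVal (act g h) (ls.map ldec)) -
        rt ^ ((ls.length + qWt q) % 2) * (monVal (act g h) (ls.map ldec) *
          pEval (act g h) (restPoly q.1 q.2.1 q.2.2.1 q.2.2.2)) := by
    intro g
    rw [pEval_restPoly (dreg_act g hh), ← qWt, feat, qFac]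
    nth_rw 1 [mul_sub, mul_sub]
    rw [rt_pow_shift]
    have : rt ^ (ls.length % 2) * (6 : ℂ) ^ qPow ls.length (qWt q) =
        rt ^ ((ls.length + qWt q) % 2) * rt ^ qWt q := by
      rw [← rt_pow_shift, ← pow_add, add_comm]
    linear_combination (-(monVal (act g h) (ls.map ldec) *
      restSum (act g h) q.1 q.2.1 q.2.2.1 q.2.2.2)) * this
  rw [mul_assoc, Finset.mul_sum]
  simp only [e, Finset.sum_sub_distrib, ← Finset.mul_sum]
  simp only [featTerms, termSum, List.map_cons, List.sum_cons, List.map_map, lenList_eq, hI,
    Int.cast_mul, Int.cast_pow, Int.cast_ofNat, mul_sub]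
  rw [sub_eq_add_neg]
  congr 1
  · simp [wVal, codeVal, orbVal, rt, mul_assoc]
  · generalize restPoly q.1 q.2.1 q.2.2.1 q.2.2.2 = P at hpar ⊢
    induction P with
    | nil => simp [pEval]
    | cons x P ih =>
      have i := ih fun y hy => hpar y (List.mem_cons_of_mem _ hy)
      have hx := hpar x List.mem_cons_self
      simp only [pEval, List.map_cons, List.sum_cons, mul_add, Finset.sum_add_distrib,
        Function.comp_apply] at i ⊢
      rw [i, neg_add]
      congr 1
      simp only [wVal, codeVal, orbVal, List.length_append, Nat.add_mod ls.length x.2.length, hx,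
        ← Nat.add_mod, List.map_append, monVal_append, show Int.neg c = -c from rfl,
        Int.cast_mul, Int.cast_neg, Finset.mul_sum]
      rw [← Finset.sum_neg_distrib]
      refine Finset.sum_congr rfl fun g _ => ?_
      simp only [rt]
      ring

end Vale.Agent.P355.Seven
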