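import Mathlib
import Vale.Agent.P355.Seven.FeatExp
import Vale.Agent.P355.Seven.Pack

/-!
The consequence of a checked certificate: if the source list of some centred features equals a
negative constant minus a sum of squares modulo relations, there are at most six bases.
-/

namespace Vale.Agent.P355.Seven

open scoped ComplexConjugate BigOperators InnerProductSpace

/-- The source list of weighted features. -/
noncomputable def allFeatTerms : List (ℤ × List ℕ × (Slot × Slot × Slot × Slot)) →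
    List (ℤ × List ℕ) :=
  List.rec [] fun x _ ih => featTerms x.1 x.2.1 x.2.2 ++ ih

lemma termSum_allFeatTerms {h : Fin 6 → Fin 6 → ℂ} (hh : DReg h)
    (F : List (ℤ × List ℕ × (Slot × Slot × Slot × Slot)))
    (hpar : ∀ x ∈ F, okParity x.2.2 = true) :
    termSum h (allFeatTerms F) = ∑ g : Gsym, ∑ k : Fin F.length,
      ((F.get k).1 : ℂ) * qFac (F.get k).2.1 (F.get k).2.2 *
        feat ((F.get k).2.1.map ldec) (F.get k).2.2.1 (F.get k).2.2.2.1 (F.get k).2.2.2.2.1
          (F.get k).2.2.2.2.2 (act g h) := by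
  rw [Finset.sum_comm]
  induction F with
  | nil => simp [allFeatTerms, termSum]
  | cons x F ih =>
    rw [show allFeatTerms (x :: F) = featTerms x.1 x.2.1 x.2.2 ++ allFeatTerms F from rfl,
      termSum_append, termSum_featTerms hh _ _ _ (hpar x List.mem_cons_self),
      ih fun y hy => hpar y (List.mem_cons_of_mem _ hy)]
    simp only [List.length_cons, Fin.sum_univ_succ, Finset.mul_sum]
    rfl

/-- The averaged constant is a positive real number. -/
lemma wVal_nil (h : Fin 6 → Fin 6 → ℂ) :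
    (wVal h []).re = (Fintype.card Gsym : ℝ) ∧ (0 : ℝ) < Fintype.card Gsym := by
  refine ⟨?_, by exact_mod_cast Fintype.card_pos⟩
  rw [wVal, codeVal, List.map_nil, orbVal_nil]
  generalize Fintype.card Gsym = n
  simp

/-- Weighted features whose source list has negative sum on doubly regular matrices exclude seven
bases. -/
theorem card_le_six_of_featTerms (F : List (ℤ × List ℕ × (Slot × Slot × Slot × Slot)))
    (hpar : ∀ x ∈ F, okParity x.2.2 = true)
    (hv : ∀ x ∈ F, monWt (x.2.1.map ldec) = quartWt x.2.2.1 x.2.2.2.1 x.2.2.2.2.1 x.2.2.2.2.2)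
    (hneg : ∀ h, DReg h → (termSum h (allFeatTerms F)).re < 0)
    (k : ℕ) (B : Fin k → OrthonormalBasis (Fin 6) ℂ (EuclideanSpace ℂ (Fin 6)))
    (hB : ∀ c d, c ≠ d → ∀ i j, ‖⟪B c i, B d j⟫_ℂ‖ ^ 2 = 1 / 6) : k ≤ 6 := by
  refine card_le_six_of_avg (fun m : Fin F.length => ((F.get m).1 : ℂ) *
      qFac (F.get m).2.1 (F.get m).2.2) (fun m => (F.get m).2.1.map ldec) (fun m => (F.get m).2.2)
    (fun m => hv _ (List.get_mem _ _)) (fun h hh => ?_) k B hB
  have := hneg h hh
  rwa [termSum_allFeatTerms hh F hpar] at this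

/-- The same from an identity: features plus a nonnegative list give a negative constant. -/
theorem card_le_six_of_identity (F : List (ℤ × List ℕ × (Slot × Slot × Slot × Slot)))
    (hpar : ∀ x ∈ F, okParity x.2.2 = true)
    (hv : ∀ x ∈ F, monWt (x.2.1.map ldec) = quartWt x.2.2.1 x.2.2.2.1 x.2.2.2.2.1 x.2.2.2.2.2)
    (N : ℤ) (hN : 0 < N)
    (hid : ∀ h, DReg h → ∃ s : ℂ, 0 ≤ s.re ∧
      termSum h (allFeatTerms F) + s + (N : ℂ) * wVal h [] = 0)
    (k : ℕ) (B : Fin k → OrthonormalBasis (Fin 6) ℂ (EuclideanSpace ℂ (Fin 6)))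
    (hB : ∀ c d, c ≠ d → ∀ i j, ‖⟪B c i, B d j⟫_ℂ‖ ^ 2 = 1 / 6) : k ≤ 6 := by
  refine card_le_six_of_featTerms F hpar hv (fun h hh => ?_) k B hB
  obtain ⟨s, hs, he⟩ := hid h hh
  obtain ⟨hw, hpos⟩ := wVal_nil h
  have h1 := congrArg Complex.re he
  simp [Complex.mul_re] at h1
  have h2 : (0 : ℝ) < (N : ℝ) * (wVal h []).re := by
    rw [hw]; exact mul_pos (by exact_mod_cast hN) hpos
  linarith

end Vale.Agent.P355.Seven
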