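import Mathlib
import Vale.Agent.P355.Seven.Cert
import Vale.Agent.P355.Seven.Zero

/-!
The case where one pair of bases has a transition matrix in which three lines contracted against
the other three always give zero: a checked identity valid for such matrices excludes seven bases.
-/

namespace Vale.Agent.P355.Seven

open scoped ComplexConjugate BigOperators InnerProductSpace

/-- The condition does not see a scalar factor. -/
lemma TauFlat.smul {h : Fin 6 → Fin 6 → ℂ} (ht : TauFlat h) (z : ℂ) :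
    TauFlat fun i j => z * h i j := by
  intro s
  constructor
  · rw [← mul_zero (z ^ 3 * conj z ^ 3), ← (ht s).1, Finset.mul_sum]
    exact Finset.sum_congr rfl fun j _ => by simp only [map_mul]; ring
  · rw [← mul_zero (z ^ 3 * conj z ^ 3), ← (ht s).2, Finset.mul_sum]
    exact Finset.sum_congr rfl fun j _ => by simp only [map_mul]; ring

/-- The condition passes to the normal forms. -/
lemma TauFlat.nf {H : Fin 6 → Fin 6 → ℂ} (ht : TauFlat H) {u : Fin 6 → ℂ}
    (hu : ∀ i, Complex.normSq (u i) = 1) (hw : ∀ j, Complex.normSq (lin (cF H j) u) = 6) :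
    TauFlat (nf H u) := by
  have hq : ∀ j, conj (lin (cF H j) u / rt) * (lin (cF H j) u / rt) = 1 := fun j => by
    rw [← phi_inr]
    exact conj_mul_one (normSq_phi hu hw _)
  intro s
  constructor
  · rw [← mul_zero (conj (u (s 0)) * conj (u (s 1)) * conj (u (s 2)) *
      (u (s 3) * u (s 4) * u (s 5))), ← (ht s).1, Finset.mul_sum]
    refine Finset.sum_congr rfl fun j _ => ?_
    have h3 : (conj (lin (cF H j) u / rt) * (lin (cF H j) u / rt)) ^ 3 = 1 := by rw [hq, one_pow]
    simp only [Seven.nf, map_mul, Complex.conj_conj]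
    linear_combination (conj (u (s 0)) * conj (u (s 1)) * conj (u (s 2)) *
      (u (s 3) * u (s 4) * u (s 5)) * (H (s 0) j * H (s 1) j * H (s 2) j) *
      (conj (H (s 3) j) * conj (H (s 4) j) * conj (H (s 5) j))) * h3
  · set w : Fin 6 → ℂ := fun j => lin (cF H j) u / rt
    rw [← mul_zero (w (s 0) * w (s 1) * w (s 2) * (conj (w (s 3)) * conj (w (s 4)) *
      conj (w (s 5)))), ← (ht s).2, Finset.mul_sum]
    refine Finset.sum_congr rfl fun i _ => ?_
    have h3 : (conj (u i) * u i) ^ 3 = 1 := by rw [conj_mul_one (hu i), one_pow]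
    simp only [Seven.nf, map_mul, Complex.conj_conj, w]
    linear_combination (lin (cF H (s 0)) u / rt * (lin (cF H (s 1)) u / rt) *
      (lin (cF H (s 2)) u / rt) * (conj (lin (cF H (s 3)) u / rt) *
      conj (lin (cF H (s 4)) u / rt) * conj (lin (cF H (s 5)) u / rt)) *
      (H i (s 0) * H i (s 1) * H i (s 2)) *
      (conj (H i (s 3)) * conj (H i (s 4)) * conj (H i (s 5)))) * h3

/-- A combination of centred features whose average over the symmetries has negative real part on
flat matrices excludes seven bases with a flat first pair. -/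
theorem no_seven_flat {ι : Type} [Fintype ι] (cf : ι → ℂ) (ls : ι → List Lit)
    (sl : ι → Slot × Slot × Slot × Slot)
    (hv : ∀ k, monWt (ls k) = quartWt (sl k).1 (sl k).2.1 (sl k).2.2.1 (sl k).2.2.2)
    (hneg : ∀ h, DReg h → TauFlat h →
      (∑ g : Gsym, ∑ k, cf k *
        feat (ls k) (sl k).1 (sl k).2.1 (sl k).2.2.1 (sl k).2.2.2 (act g h)).re < 0)
    (A : Fin 7 → Fin 6 → Fin 6 → ℂ) (hA : IsMUBSet A)
    (ht : TauFlat fun i j => ip (A 0 i) (A 1 j)) : False := by
  obtain ⟨B, H, s, hH⟩ := exists_setup' A hA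
  have htH : TauFlat H := by
    have := ht.smul rt
    rwa [show H = fun i j => rt * ip (A 0 i) (A 1 j) from funext fun i => funext (hH i)]
  have hsum : ∑ p, ∑ g : Gsym, ∑ k, cf k *
      feat (ls k) (sl k).1 (sl k).2.1 (sl k).2.2.1 (sl k).2.2.2 (act g (nf H (vec B p))) = 0 := by
    rw [Finset.sum_comm]
    refine Finset.sum_eq_zero fun g _ => ?_
    rw [Finset.sum_comm]
    refine Finset.sum_eq_zero fun k _ => ?_
    rw [← Finset.mul_sum]
    simp only [fun p => feat_act g (dreg_nf s.unim s.rows s.cols (s.uu p) (s.ww p)) (ls k) (sl k)]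
    rw [sum_feat s _ _ _ _ _ (wt_qMap g _ _ (hv k)), mul_zero]
  have hlt : ∑ p, (∑ g : Gsym, ∑ k, cf k *
      feat (ls k) (sl k).1 (sl k).2.1 (sl k).2.2.1 (sl k).2.2.2 (act g (nf H (vec B p)))).re <
      ∑ _p : Fin 5 × Fin 6, (0 : ℝ) :=
    Finset.sum_lt_sum_of_nonempty Finset.univ_nonempty fun p _ =>
      hneg _ (dreg_nf s.unim s.rows s.cols (s.uu p) (s.ww p)) (htH.nf (s.uu p) (s.ww p))
  rw [← Complex.re_sum, hsum, Finset.sum_const_zero, Complex.zero_re] at hlt
  exact lt_irrefl 0 hlt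

/-- An identity valid on flat matrices, made of features and a nonnegative list, shows that a
family with one flat pair has at most six bases. -/
theorem card_le_six_of_flat_identity (F : List (ℤ × List ℕ × (Slot × Slot × Slot × Slot)))
    (hpar : ∀ x ∈ F, okParity x.2.2 = true)
    (hv : ∀ x ∈ F, monWt (x.2.1.map ldec) = quartWt x.2.2.1 x.2.2.2.1 x.2.2.2.2.1 x.2.2.2.2.2)
    (N : ℤ) (hN : 0 < N)
    (hid : ∀ h, DReg h → TauFlat h → ∃ s : ℂ, 0 ≤ s.re ∧
      termSum h (allFeatTerms F) + s + (N : ℂ) * wVal h [] = 0)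
    (k : ℕ) (B : Fin k → OrthonormalBasis (Fin 6) ℂ (EuclideanSpace ℂ (Fin 6)))
    (hB : ∀ c d, c ≠ d → ∀ i j, ‖⟪B c i, B d j⟫_ℂ‖ ^ 2 = 1 / 6) {c d : Fin k} (hcd : c ≠ d)
    (ht : TauFlat fun i j => ⟪B c i, B d j⟫_ℂ) : k ≤ 6 := by
  by_contra hk
  let a₀ : Fin k := ⟨0, by omega⟩
  let a₁ : Fin k := ⟨1, by omega⟩
  have h01 : a₀ ≠ a₁ := fun e => zero_ne_one (congrArg Fin.val e)
  let σ : Equiv.Perm (Fin k) := (Equiv.swap a₀ c).trans (Equiv.swap (Equiv.swap a₀ c a₁) d)
  let e : Fin 7 → Fin k := fun i => σ (Fin.castLE (by omega) i)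
  have he : Function.Injective e := σ.injective.comp (Fin.castLE_injective _)
  have he0 : e 0 = c := by
    show Equiv.swap (Equiv.swap a₀ c a₁) d (Equiv.swap a₀ c a₀) = c
    rw [Equiv.swap_apply_left]
    refine Equiv.swap_apply_of_ne_of_ne (fun h => h01 ?_) hcd
    exact (Equiv.swap a₀ c).injective ((Equiv.swap_apply_left a₀ c).trans h)
  have he1 : e 1 = d := by
    show Equiv.swap (Equiv.swap a₀ c a₁) d (Equiv.swap a₀ c (Fin.castLE _ (1 : Fin 7))) = d
    rw [show Fin.castLE (by omega) (1 : Fin 7) = a₁ from Fin.ext rfl, Equiv.swap_apply_left]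
  let A : Fin 7 → Fin 6 → Fin 6 → ℂ := fun c i l => B (e c) i l
  have hip : ∀ c d i j, ip (A c i) (A d j) = ⟪B (e c) i, B (e d) j⟫_ℂ := by
    intro c d i j
    simp [ip, A, PiLp.inner_apply, mul_comm]
  refine no_seven_flat (fun m : Fin F.length => ((F.get m).1 : ℂ) *
      qFac (F.get m).2.1 (F.get m).2.2) (fun m => (F.get m).2.1.map ldec) (fun m => (F.get m).2.2)
    (fun m => hv _ (List.get_mem _ _)) (fun h hh ht => ?_) A
    ⟨fun c i j => ?_, fun c d hcd i j => ?_⟩ ?_
  · obtain ⟨s, hs, heq⟩ := hid h hh ht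
    obtain ⟨hw, hpos⟩ := wVal_nil h
    rw [← termSum_allFeatTerms hh F hpar]
    have h1 := congrArg Complex.re heq
    simp [Complex.mul_re] at h1
    have h2 : (0 : ℝ) < (N : ℝ) * (wVal h []).re := by
      rw [hw]; exact mul_pos (by exact_mod_cast hN) hpos
    linarith
  · rw [hip]
    exact orthonormal_iff_ite.1 (B (e c)).orthonormal i j
  · rw [hip, Complex.normSq_eq_norm_sq]
    exact hB _ _ (fun h => hcd (he h)) i j
  · simp only [hip, he0, he1]
    exact ht

end Vale.Agent.P355.Seven
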