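import Mathlib
import Vale.Agent.P355.Seven.Flat

/-!
Assembling separately checked chunks of a certificate.
-/

namespace Vale.Agent.P355.Seven

open scoped BigOperators

variable {h : Fin 6 → Fin 6 → ℂ} {tbl : ℕ → List ℕ}

lemma idxSum_cons (x : ℕ × ℤ) (P : List (ℕ × ℤ)) :
    idxSum h tbl (x :: P) = (x.2 : ℂ) * wVal h (tbl x.1) + idxSum h tbl P := rfl

/-- Chunks checked one at a time. -/
theorem termSum_icat_eq (f : ℕ → List (ℤ × List ℕ)) (P : ℕ → List (ℕ × ℤ)) (n : ℕ)
    (hf : ∀ i < n, termSum h (f i) = idxSum h tbl (P i)) :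
    termSum h (icat f n) = idxSum h tbl (icat P n) := by
  induction n with
  | zero => rfl
  | succ n ih =>
    show termSum h (f n ++ icat f n) = idxSum h tbl (P n ++ icat P n)
    rw [termSum_append, idxSum_append, hf n (Nat.lt_succ_self n),
      ih fun i hi => hf i (hi.trans (Nat.lt_succ_self n))]

/-- Totals of chunks that each vanish. -/
theorem idxSum_icat_eq_zero (P : ℕ → List (ℕ × ℤ)) (n : ℕ)
    (hP : ∀ i < n, idxSum h tbl (P i) = 0) : idxSum h tbl (icat P n) = 0 := by
  induction n with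
  | zero => rfl
  | succ n ih =>
    show idxSum h tbl (P n ++ icat P n) = 0
    rw [idxSum_append, hP n (Nat.lt_succ_self n),
      ih fun i hi => hP i (hi.trans (Nat.lt_succ_self n)), add_zero]

/-- Totals of chunks that each have nonnegative real part. -/
theorem idxSum_icat_nonneg (P : ℕ → List (ℕ × ℤ)) (n : ℕ)
    (hP : ∀ i < n, 0 ≤ (idxSum h tbl (P i)).re) : 0 ≤ (idxSum h tbl (icat P n)).re := by
  induction n with
  | zero => simp [icat, idxSum]
  | succ n ih =>
    show 0 ≤ (idxSum h tbl (P n ++ icat P n)).re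
    rw [idxSum_append, Complex.add_re]
    exact add_nonneg (hP n (Nat.lt_succ_self n))
      (ih fun i hi => hP i (hi.trans (Nat.lt_succ_self n)))

/-- The identity read from totals that cancel: features, a nonnegative part, a vanishing part and
the constant. -/
theorem identity_of_totals {S : List (ℤ × List ℕ)} {Pf Pb Pz : List (ℕ × ℤ)} {i₀ : ℕ} {N : ℤ}
    (hS : termSum h S = idxSum h tbl Pf) (hb : 0 ≤ (idxSum h tbl Pb).re)
    (hz : idxSum h tbl Pz = 0) (h0 : tbl i₀ = [])
    (hc : Option.rec false ATree.allZero (loadTotals ((i₀, N) :: (Pf ++ (Pb ++ Pz)))) = true) :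
    ∃ s : ℂ, 0 ≤ s.re ∧ termSum h S + s + (N : ℂ) * wVal h [] = 0 := by
  refine ⟨idxSum h tbl Pb, hb, ?_⟩
  have := idxSum_eq_zero (h := h) (tbl := tbl) hc
  rw [idxSum_cons, idxSum_append, idxSum_append, hz, h0] at this
  rw [hS]
  linear_combination this

end Vale.Agent.P355.Seven
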