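import Mathlib
import Vale.Agent.P355.Seven.Chunk

/-!
Sums of squares checked on shared grids. Vectors are sorted by classes (monomial, number of rows,
number of columns). For two classes the grid of monomials is the same for all pairs of vectors in
all blocks, so only the integer coefficients are added up and each monomial is identified once.
-/

namespace Vale.Agent.P355.Seven

open scoped BigOperators

/-- The smaller of two numbers. -/
def cut (x m : ℕ) : ℕ := cond (Nat.ble x m) x m

lemma cut_eq (x m : ℕ) : cut x m = min x m := by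
  unfold cut
  rcases le_total x m with h | h
  · rw [Nat.ble_eq_true_of_le h, cond_true, min_eq_left h]
  · rcases eq_or_lt_of_le h with rfl | h'
    · simp
    · rw [Bool.eq_false_iff.2 fun q => absurd (Nat.le_of_ble_eq_true q) (not_le.2 h'), cond_false,
        min_eq_right h]

/-- Pointwise addition, the shorter list extended by zeros. -/
noncomputable def vAdd : List ℤ → List ℤ → List ℤ :=
  List.rec (fun B => B) fun a A ih B =>
    List.rec (List.cons a A) (fun b B' _ => List.cons (Int.add a b) (ih B')) B

/-- A sum of coefficient lists. -/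
noncomputable def vSum (f : ℕ → List ℤ) : ℕ → List ℤ := Nat.rec [] fun k ih => vAdd (f k) ih

/-- Coefficients attached to monomials. -/
noncomputable def zipT : List ℤ → List (List ℕ) → List (ℤ × List ℕ) :=
  List.rec (fun _ => []) fun c _ ih M => List.rec [] (fun m M' _ => List.cons (c, m) (ih M')) M

/-- A function on `0, …, n - 1` as a list, the last value first. -/
noncomputable def ilist {α : Type} (f : ℕ → α) : ℕ → List α :=
  Nat.rec [] fun k ih => List.cons (f k) ih

/-- The concatenation of two lists, by recursion. -/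
noncomputable def appR {α : Type} (A B : List α) : List α :=
  List.rec B (fun a _ ih => List.cons a ih) A

/-- The image of a monomial under two packed permutations. -/
noncomputable def imgList (p q : ℕ) : List ℕ → List ℕ :=
  List.rec [] fun n _ ih => List.cons
    (Nat.add (Nat.add
      (Nat.mul 16 (Nat.land (Nat.shiftRight p (Nat.mul 3 (Nat.shiftRight n 4))) 7))
      (Nat.mul 2 (Nat.land (Nat.shiftRight q (Nat.mul 3 (Nat.land (Nat.shiftRight n 1) 7))) 7)))
      (Nat.land n 1)) ih

/-- All products of two lists. -/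
noncomputable def lProd {α β γ : Type} (op : α → β → γ) (A : List α) (B : List β) : List γ :=
  List.rec [] (fun a _ ih => List.rec ih (fun b _ ih2 => List.cons (op a b) ih2) B) A

/-- The coefficients of one grid. -/
noncomputable def outerCoef (c : ℤ) (zf yf : ℕ → ℤ) (R C : ℕ) : List ℤ :=
  lProd (fun u v => Int.mul u v) ((ilist zf R).map (Int.mul c)) (ilist yf C)

/-- The monomials of one grid. -/
noncomputable def gridMonos (o o' : List ℕ) (pr pc : ℕ → ℕ) (R C : ℕ) : List (List ℕ) :=
  lProd (fun p q => appR o (imgList p q o')) (ilist pr R) (ilist pc C)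

variable {h : Fin 6 → Fin 6 → ℂ}

lemma termSum_cons (x : ℤ × List ℕ) (S : List (ℤ × List ℕ)) :
    termSum h (x :: S) = (x.1 : ℂ) * wVal h x.2 + termSum h S := rfl

lemma appR_eq {α : Type} (A B : List α) : appR A B = A ++ B := by
  induction A with
  | nil => rfl
  | cons a A ih => exact congrArg (List.cons a) ih

lemma imgList_eq (p q : ℕ) (m : List ℕ) : imgList p q m = mapRC p q m := by
  induction m with
  | nil => rfl
  | cons n m ih =>
    refine congrArg₂ List.cons ?_ ih
    simp [mapCode, pget, show Nat.beq 0 1 = false from rfl]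

lemma termSum_zipT_vAdd (A B : List ℤ) (M : List (List ℕ)) :
    termSum h (zipT (vAdd A B) M) = termSum h (zipT A M) + termSum h (zipT B M) := by
  induction A generalizing B M with
  | nil => show termSum h (zipT B M) = termSum h [] + _; simp [termSum]
  | cons a A ih =>
    cases B with
    | nil => show termSum h (zipT (a :: A) M) = _ + termSum h []; simp [termSum]
    | cons b B =>
      cases M with
      | nil => show termSum h [] = termSum h [] + termSum h []; simp [termSum]
      | cons m M =>
        show termSum h ((a + b, m) :: zipT (vAdd A B) M) =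
          termSum h ((a, m) :: zipT A M) + termSum h ((b, m) :: zipT B M)
        rw [termSum_cons, termSum_cons, termSum_cons, ih]
        push_cast
        ring

lemma termSum_zipT_vSum (f : ℕ → List ℤ) (n : ℕ) (M : List (List ℕ)) :
    termSum h (zipT (vSum f n) M) = ∑ k ∈ Finset.range n, termSum h (zipT (f k) M) := by
  induction n with
  | zero => rfl
  | succ n ih =>
    show termSum h (zipT (vAdd (f n) (vSum f n)) M) = _
    rw [termSum_zipT_vAdd, ih, Finset.sum_range_succ, add_comm]

lemma icat_map {α β : Type} (g : α → β) (f : ℕ → List α) (n : ℕ) :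
    (icat f n).map g = icat (fun i => (f i).map g) n := by
  induction n with
  | zero => rfl
  | succ n ih =>
    show (f n ++ icat f n).map g = _
    rw [List.map_append, ih]
    rfl

lemma lProd_ilist {α β γ : Type} (op : α → β → γ) (f : ℕ → α) (g : ℕ → β) (R C : ℕ) :
    lProd op (ilist f R) (ilist g C) =
      (icat (fun i => icat (fun j => [(i, j)]) C) R).map fun x => op (f x.1) (g x.2) := by
  induction R with
  | zero => rfl
  | succ R ih =>
    have e : ∀ (a : α) (L : List γ) (B : List β),
        (List.rec L (fun b _ ih2 => List.cons (op a b) ih2) B : List γ) = B.map (op a) ++ L := by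
      intro a L B
      induction B with
      | nil => rfl
      | cons b B ih => exact congrArg (List.cons _) ih
    refine (e (f R) (lProd op (ilist f R) (ilist g C)) (ilist g C)).trans ?_
    show (ilist g C).map (op (f R)) ++ lProd op (ilist f R) (ilist g C) =
      (icat (fun j => [(R, j)]) C ++ icat (fun i => icat (fun j => [(i, j)]) C) R).map _
    rw [List.map_append, ih]
    congr 1
    clear ih
    induction C with
    | zero => rfl
    | succ C ih =>
      show op (f R) (g C) :: (ilist g C).map (op (f R)) = _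
      rw [ih]
      rfl

lemma zipT_map {ι : Type} (f : ι → ℤ) (g : ι → List ℕ) (L : List ι) :
    zipT (L.map f) (L.map g) = L.map fun x => (f x, g x) := by
  induction L with
  | nil => rfl
  | cons x L ih => exact congrArg (List.cons _) ih

lemma termSum_zip_grid (c : ℤ) (o o' : List ℕ) (pr pc : ℕ → ℕ) (R C : ℕ) (zf yf : ℕ → ℤ) :
    termSum h (zipT (outerCoef c zf yf R C) (gridMonos o o' pr pc R C)) =
      termSum h (gridTerms c o o' pr pc R C zf yf) := by
  have e : (ilist zf R).map (Int.mul c) = ilist (fun i => Int.mul c (zf i)) R := by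
    induction R with
    | zero => rfl
    | succ R ih => exact congrArg (List.cons _) ih
  rw [outerCoef, gridMonos, e]
  simp only [appR_eq, imgList_eq]
  rw [ lProd_ilist, lProd_ilist, zipT_map, gridTerms]
  refine congrArg (termSum h) ?_
  rw [icat_map]
  refine congrArg (icat · R) (funext fun i => ?_)
  rw [icat_map]
  refine congrArg (icat · C) (funext fun j => ?_)
  simp [mul_assoc]

/-- The data of all blocks over a common list of classes and a common list of weight vectors. -/
structure GridData : Type where
  nCls : ℕ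
  mono : ℕ → List ℕ
  rCls : ℕ → ℕ
  cCls : ℕ → ℕ
  pat : ℕ → ℕ → ℕ → ℕ
  np : ℕ → ℕ → ℕ
  nWt : ℕ
  rWt : ℕ → ℕ
  wt : ℕ → List (ℕ × ℤ)
  used : ℕ → ℕ → Bool
  z : ℕ → ℕ → ℕ → ℤ
  nBlk : ℕ
  re : ℕ → Bool
  size : ℕ → ℕ
  start : ℕ → ℕ → ℕ
  cls : ℕ → ℕ → ℕ
  wr : ℕ → ℕ → ℕ
  wc : ℕ → ℕ → ℕ
  gram : ℕ → ℕ → ℕ → ℤ

namespace GridData

variable (D : GridData)

/-- A vector of a block. -/
noncomputable def vec (β i : ℕ) : VecSpec :=
  (D.mono (D.cls β i), D.wt (D.wr β i), D.wt (D.wc β i))

/-- The coefficient list of one pair of vectors on the grid of two classes. -/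
noncomputable def pairCoef (fl : Bool) (β a b i j : ℕ) : List ℤ :=
  outerCoef (Int.mul (cond fl (symCoef (D.gram β) i j)
      (Int.mul (symCoef (D.gram β) i j) (kSign (D.re β))))
      (parFac (D.mono a).length (D.mono b).length))
    (D.z (D.wr β i) (D.wr β j)) (D.z (D.wc β i) (D.wc β j))
    (D.np (D.rCls a) (D.rCls b)) (D.np (D.cCls a) (D.cCls b))

/-- The coefficient list of all pairs of one block in two classes. -/
noncomputable def segCoef (fl : Bool) (β a b : ℕ) : List ℤ :=
  vSum (fun d =>
    let i := Nat.add (D.start β a) d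
    let lo := cut (D.start β b) (Nat.succ i)
    vSum (fun e => D.pairCoef fl β a b i (Nat.add lo e))
      (Nat.sub (cut (D.start β (Nat.succ b)) (Nat.succ i)) lo))
    (Nat.sub (D.start β (Nat.succ a)) (D.start β a))

/-- The monomials of the grid of two classes. -/
noncomputable def monos (fl : Bool) (a b : ℕ) : List (List ℕ) :=
  gridMonos (D.mono a) (cond fl (flipList (D.mono b)) (D.mono b)) (D.pat (D.rCls a) (D.rCls b))
    (D.pat (D.cCls a) (D.cCls b)) (D.np (D.rCls a) (D.rCls b)) (D.np (D.cCls a) (D.cCls b))

/-- The terms of two classes. -/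
noncomputable def grpTerms (a b : ℕ) : List (ℤ × List ℕ) :=
  zipT (vSum (fun β => D.segCoef true β a b) D.nBlk) (D.monos true a b) ++
    zipT (vSum (fun β => D.segCoef false β a b) D.nBlk) (D.monos false a b)

/-- The terms of a range of second classes. -/
noncomputable def chunkTerms (a lo hi : ℕ) : List (ℤ × List ℕ) :=
  icat (fun d => D.grpTerms a (Nat.add lo d)) (Nat.sub hi lo)

/-- The check of the classes. -/
noncomputable def okClasses : Bool :=
  iall (fun a => and (okList (D.mono a)) (and (okSupp (D.rCls a) (D.cCls a) (D.mono a))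
    (okSupp (D.rCls a) (D.cCls a) (flipList (D.mono a))))) D.nCls

/-- The check of the weight vectors and of their correlation tables. -/
noncomputable def okCorr (W : ℕ → ℕ → List (List ℕ)) : Bool :=
  iall (fun u => and (okWeights (D.wt u)) (iall (fun v => cond (D.used u v)
    (checkCorr (D.rWt u) (D.rWt v) (D.pat (D.rWt u) (D.rWt v)) (D.wt u) (D.wt v) (W u v)
      (ienum (D.z u v) (D.np (D.rWt u) (D.rWt v)))) true) D.nWt)) D.nWt

/-- The check of the vectors of a block. -/
noncomputable def okVecs (β : ℕ) : Bool :=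
  iall (fun i => and (Nat.blt (D.cls β i) D.nCls)
    (and (and (Nat.blt (D.wr β i) D.nWt) (Nat.blt (D.wc β i) D.nWt))
      (and (and (Nat.beq (D.rWt (D.wr β i)) (D.rCls (D.cls β i)))
        (Nat.beq (D.rWt (D.wc β i)) (D.cCls (D.cls β i))))
        (iall (fun j => and (D.used (D.wr β i) (D.wr β j)) (D.used (D.wc β i) (D.wc β j)))
          (Nat.succ i))))) (D.size β)

/-- The check of the class ranges of a block. -/
noncomputable def okStart (β : ℕ) : Bool :=
  and (and (Nat.beq (D.start β 0) 0) (Nat.beq (D.start β D.nCls) (D.size β)))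
    (iall (fun a => and (Nat.ble (D.start β a) (D.start β (Nat.succ a)))
      (iall (fun d => Nat.beq (D.cls β (Nat.add (D.start β a) d)) a)
        (Nat.sub (D.start β (Nat.succ a)) (D.start β a)))) D.nCls)

end GridData

/-- A sum over a range cut at monotone points. -/
lemma sum_range_cuts {A : Type} [AddCommMonoid A] (f : ℕ → A) (s : ℕ → ℕ) (K : ℕ) (h0 : s 0 = 0)
    (hs : ∀ b < K, s b ≤ s (b + 1)) :
    ∑ j ∈ Finset.range (s K), f j =
      ∑ b ∈ Finset.range K, ∑ d ∈ Finset.range (s (b + 1) - s b), f (s b + d) := by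
  induction K with
  | zero => simp [h0]
  | succ K ih =>
    rw [Finset.sum_range_succ, ← ih fun b hb => hs b (by omega)]
    conv_lhs => rw [← Nat.add_sub_cancel' (hs K (Nat.lt_succ_self K)), Finset.sum_range_add]

lemma termSum_sosTerms_zip (k : Bool) (c : ℤ) (v v' : VecSpec) (pr pc : ℕ → ℕ) (R C : ℕ)
    (zf yf : ℕ → ℤ) : termSum h (sosTerms k c v v' pr pc R C zf yf) =
      termSum h (zipT (outerCoef (Int.mul c (parFac v.1.length v'.1.length)) zf yf R C)
        (gridMonos v.1 (flipList v'.1) pr pc R C)) +
      termSum h (zipT (outerCoef (Int.mul (Int.mul c (kSign k)) (parFac v.1.length v'.1.length))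
        zf yf R C) (gridMonos v.1 v'.1 pr pc R C)) := by
  rw [termSum_zip_grid, termSum_zip_grid, sosTerms, termSum_append]

namespace GridData

variable (D : GridData)

/-- A checked family of blocks gives grids with nonnegative sum. -/
theorem nonneg (W : ℕ → ℕ → List (List ℕ)) (hC : D.okClasses = true) (hW : D.okCorr W = true)
    (hV : ∀ β < D.nBlk, D.okVecs β = true ∧ D.okStart β = true)
    (hG : ∀ β < D.nBlk, ∃ (m : ℕ) (w : ℕ → ℕ → ℤ),
      psdCheck (D.size β) m w (D.gram β) = true ∧
      iall (fun i => iall (fun j => Int.beq' (D.gram β i j) (D.gram β j i)) (D.size β)) (D.size β)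
        = true) :
    0 ≤ (∑ a ∈ Finset.range D.nCls, ∑ b ∈ Finset.range (a + 1),
      termSum h (D.grpTerms a b)).re := by
  simp only [okClasses, okCorr, iall_iff, Bool.and_eq_true] at hC hW
  have main : ∀ β < D.nBlk, 0 ≤ (∑ a ∈ Finset.range D.nCls, ∑ b ∈ Finset.range (a + 1),
      (termSum h (zipT (D.segCoef true β a b) (D.monos true a b)) +
        termSum h (zipT (D.segCoef false β a b) (D.monos false a b)))).re := by
    intro β hβ
    obtain ⟨hv, hst⟩ := hV β hβ
    simp only [okVecs, okStart, iall_iff, Bool.and_eq_true, Nat.beq_eq, Nat.blt_eq,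
      Nat.ble_eq] at hv hst
    obtain ⟨⟨h0, hend⟩, hmono⟩ := hst
    obtain ⟨m, w, hpsd, hsym⟩ := hG β hβ
    set n := D.size β
    let rv : ℕ → ℕ := fun i => D.rWt (D.wr β i)
    let cv : ℕ → ℕ := fun i => D.rWt (D.wc β i)
    have hok : iall (fun i => okSpec (D.vec β i)) n = true := by
      rw [iall_iff]
      intro i hi
      obtain ⟨hc, ⟨hu, hu'⟩, -⟩ := hv i hi
      simp only [okSpec, vec, Bool.and_eq_true]
      exact ⟨(hC _ hc).1, (hW _ hu).1, (hW _ hu').1⟩
    have hp : ∀ i < n, ∀ j ≤ i, ∃ (r r' cl cl' : ℕ) (Wr Wc : List (List ℕ)),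
        checkPair r r' cl cl' (D.vec β i) (D.vec β j) (D.pat (rv i) (rv j)) (D.pat (cv i) (cv j))
          (D.np (rv i) (rv j)) (D.np (cv i) (cv j)) (D.z (D.wr β i) (D.wr β j))
          (D.z (D.wc β i) (D.wc β j)) Wr Wc = true := by
      intro i hi j hj
      obtain ⟨hci, ⟨hui, hui'⟩, ⟨hri, hcli⟩, hus⟩ := hv i hi
      obtain ⟨hcj, ⟨huj, huj'⟩, ⟨hrj, hclj⟩, -⟩ := hv j (by omega)
      have hu1 := hus j (Nat.lt_succ_of_le hj)
      have e1 := (hW _ hui).2 _ huj
      have e2 := (hW _ hui').2 _ huj'
      rw [hu1.1, cond_true] at e1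
      rw [hu1.2, cond_true] at e2
      refine ⟨rv i, rv j, cv i, cv j, W (D.wr β i) (D.wr β j), W (D.wc β i) (D.wc β j), ?_⟩
      simp only [checkPair, vec, Bool.and_eq_true, rv, cv]
      refine ⟨?_, ?_, ?_, e1, e2⟩
      · rw [hri, hcli]; exact (hC _ hci).2.1
      · rw [hrj, hclj]; exact (hC _ hcj).2.1
      · rw [hrj, hclj]; exact (hC _ hcj).2.2
    have key := blockTerms_nonneg (h := h) (k := D.re β) hok hpsd hsym hp
    rw [blockTerms, termSum_icat] at key
    simp only [termSum_icat] at key
    have hmono' : ∀ a < D.nCls, D.start β a ≤ D.start β (a + 1) := fun a ha => (hmono a ha).1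
    rw [← hend, sum_range_cuts _ (D.start β) _ h0 hmono'] at key
    refine le_of_le_of_eq key (congrArg Complex.re (Finset.sum_congr rfl fun a ha => ?_))
    simp only [Finset.mem_range] at ha
    simp only [segCoef, termSum_zipT_vSum, show ∀ x y, Nat.add x y = x + y from fun _ _ => rfl,
      show ∀ x y, Nat.sub x y = x - y from fun _ _ => rfl, Nat.succ_eq_add_one, cut_eq,
      ← Finset.sum_add_distrib]
    rw [Finset.sum_comm]
    refine Finset.sum_congr rfl fun d hd => ?_
    simp only [Finset.mem_range] at hd
    set i := D.start β a + d with hidef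
    have hb : ∀ K, ∀ a' < D.nCls + 1, K ≤ a' → D.start β K ≤ D.start β a' := by
      intro K a' ha' hK
      induction a' with
      | zero => rw [Nat.le_zero.1 hK]
      | succ a' ih =>
        rcases eq_or_lt_of_le hK with rfl | hlt
        · exact le_rfl
        · exact (ih (by omega) (by omega)).trans (hmono' a' (by omega))
    have hiu : i < D.start β (a + 1) := by omega
    have hin : i < n := by
      have := hb (a + 1) D.nCls (by omega) (by omega)
      omega
    have hcls : D.cls β i = a := (hmono a ha).2 d hd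
    have h' : ∀ b < a + 1, min (D.start β b) (i + 1) ≤ min (D.start β (b + 1)) (i + 1) :=
      fun b hb' => min_le_min (hmono' b (by omega)) le_rfl
    have hsplit := fun f : ℕ → ℂ => sum_range_cuts f (fun b => min (D.start β b) (i + 1)) (a + 1)
      (by simp [h0]) h'
    simp only [min_eq_right (show i + 1 ≤ D.start β (a + 1) by omega)] at hsplit
    rw [hsplit]
    refine Finset.sum_congr rfl fun b hb' => Finset.sum_congr rfl fun e he => ?_
    simp only [Finset.mem_range] at hb' he
    set j := min (D.start β b) (i + 1) + e with hjdef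
    have hj1 : j < min (D.start β (b + 1)) (i + 1) := by omega
    have hj2 : D.start β b ≤ j := by omega
    have hclsj : D.cls β j = b := by
      have hj3 : j - D.start β b < D.start β (b + 1) - D.start β b := by omega
      have := (hmono b (by omega)).2 (j - D.start β b) hj3
      rwa [show Nat.add (D.start β b) (j - D.start β b) = j from by
        show D.start β b + (j - D.start β b) = j
        omega] at this
    have hjn : j < n := by omega
    obtain ⟨-, -, ⟨hri, hcli⟩, -⟩ := hv i hin
    obtain ⟨-, -, ⟨hrj, hclj⟩, -⟩ := hv j hjn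
    rw [termSum_sosTerms_zip]
    simp only [pairCoef, monos, vec, rv, cv, hri, hcli, hrj, hclj, hcls, hclsj, cond_true,
      cond_false]
  have e : ∀ a b, termSum h (D.grpTerms a b) = ∑ β ∈ Finset.range D.nBlk,
      (termSum h (zipT (D.segCoef true β a b) (D.monos true a b)) +
        termSum h (zipT (D.segCoef false β a b) (D.monos false a b))) := fun a b => by
    rw [grpTerms, termSum_append, termSum_zipT_vSum, termSum_zipT_vSum, Finset.sum_add_distrib]
  simp only [e]
  rw [Finset.sum_congr rfl fun a _ => Finset.sum_comm, Finset.sum_comm, Complex.re_sum]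
  exact Finset.sum_nonneg fun β hβ => main β (Finset.mem_range.1 hβ)

/-- Grids checked chunk by chunk. -/
theorem nonneg_of_chunks (W : ℕ → ℕ → List (List ℕ)) (hC : D.okClasses = true)
    (hW : D.okCorr W = true) (hV : ∀ β < D.nBlk, D.okVecs β = true ∧ D.okStart β = true)
    (hG : ∀ β < D.nBlk, ∃ (m : ℕ) (w : ℕ → ℕ → ℤ),
      psdCheck (D.size β) m w (D.gram β) = true ∧
      iall (fun i => iall (fun j => Int.beq' (D.gram β i j) (D.gram β j i)) (D.size β)) (D.size β)
        = true)
    (nK : ℕ → ℕ) (t : ℕ → ℕ → ℕ)
    (ht : iall (fun a => and (and (Nat.beq (t a 0) 0) (Nat.beq (t a (nK a)) (Nat.succ a)))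
      (iall (fun k => Nat.ble (t a k) (t a (Nat.succ k))) (nK a))) D.nCls = true)
    {tbl : ℕ → List ℕ} (P : ℕ → ℕ → List (ℕ × ℤ))
    (hP : ∀ a < D.nCls, ∀ k < nK a,
      termSum h (D.chunkTerms a (t a k) (t a (k + 1))) = idxSum h tbl (P a k)) :
    0 ≤ (∑ a ∈ Finset.range D.nCls, ∑ k ∈ Finset.range (nK a), idxSum h tbl (P a k)).re := by
  refine le_of_le_of_eq (D.nonneg W hC hW hV hG (h := h))
    (congrArg Complex.re (Finset.sum_congr rfl fun a ha => ?_))
  simp only [Finset.mem_range] at ha
  simp only [iall_iff, Bool.and_eq_true, Nat.beq_eq, Nat.ble_eq] at ht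
  obtain ⟨⟨ht0, htK⟩, htm⟩ := ht a ha
  rw [show a + 1 = t a (nK a) from htK.symm, sum_range_cuts _ (t a) _ ht0 htm]
  refine Finset.sum_congr rfl fun k hk => ?_
  rw [← hP a ha k (Finset.mem_range.1 hk), chunkTerms, termSum_icat]
  rfl

end GridData

end Vale.Agent.P355.Seven
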