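import Mathlib
import Vale.Agent.P355.Seven.Acc

/-!
A faster checker of source lists against claimed totals. The field of a witness that held an orbit
index now holds a position in the list of totals; all coefficients are accumulated in fields of one
numeral, and a bound on the sum of their absolute values rules out carries.
-/

namespace Vale.Agent.P355.Seven

open scoped BigOperators

/-- The positive part. -/
def iPos : ℤ → ℕ
  | Int.ofNat n => n
  | Int.negSucc _ => 0

/-- The negative part. -/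
def iNeg : ℤ → ℕ
  | Int.ofNat _ => 0
  | Int.negSucc n => Nat.succ n

/-- The indices of a list of totals in fields of sixteen bits. -/
noncomputable def packIdx : List (ℕ × ℤ) → ℕ :=
  List.rec 0 fun x _ ih => Nat.add x.1 (Nat.shiftLeft ih 16)

/-- One field of sixteen bits. -/
def idxAt (I l : ℕ) : ℕ := Nat.land (Nat.shiftRight I (Nat.mul 16 l)) 65535

/-- Values in fields of `B` bits. -/
noncomputable def packVals (B : ℕ) (f : ℤ → ℕ) : List (ℕ × ℤ) → ℕ :=
  List.rec 0 fun x _ ih => Nat.add (f x.2) (Nat.shiftLeft ih B)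

/-- The sum of absolute values. -/
noncomputable def absTotals : List (ℕ × ℤ) → ℕ :=
  List.rec 0 fun x _ ih => Nat.add (Nat.add (iPos x.2) (iNeg x.2)) ih

/-- Whether the packed indices are the indices of the list from position `l` on. -/
noncomputable def okIdx (I : ℕ) : List (ℕ × ℤ) → ℕ → Bool :=
  List.rec (fun _ => true) fun x _ ih l => and (Nat.beq (idxAt I l) x.1) (ih (Nat.succ l))

/-- The length of a list of totals. -/
noncomputable def lenTotals : List (ℕ × ℤ) → ℕ := List.rec 0 fun _ _ ih => Nat.succ ih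

/-- The bit of every code of a literal. -/
def codeBits : ℕ := 0xfff0fff0fff0fff0fff0fff

/-- The union of the singletons of the six entries of a packed permutation, unfolded. -/
def permBitsF (p : ℕ) : ℕ :=
  Nat.lor (Nat.shiftLeft 1 (Nat.land p 7))
    (Nat.lor (Nat.shiftLeft 1 (Nat.land (Nat.shiftRight p 3) 7))
      (Nat.lor (Nat.shiftLeft 1 (Nat.land (Nat.shiftRight p 6) 7))
        (Nat.lor (Nat.shiftLeft 1 (Nat.land (Nat.shiftRight p 9) 7))
          (Nat.lor (Nat.shiftLeft 1 (Nat.land (Nat.shiftRight p 12) 7))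
            (Nat.shiftLeft 1 (Nat.land (Nat.shiftRight p 15) 7))))))

/-- One pass over a monomial: whether its numbers are codes, its length and the key of its image.
The weights `U` and `V` are the bit offsets of rows and columns of the image. -/
noncomputable def scanKey (p q f U V : ℕ) (fin : ℕ → ℕ → ℕ → Bool) :
    List ℕ → ℕ → ℕ → ℕ → Bool :=
  List.rec fin fun n _ ih ok l k =>
    ih (Nat.land ok (Nat.shiftRight codeBits n)) (Nat.succ l)
      (Nat.add k (Nat.shiftLeft 1 (Nat.add
        (Nat.add (Nat.mul U (Nat.land (Nat.shiftRight p (Nat.mul 3 (Nat.shiftRight n 4))) 7))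
          (Nat.mul V
            (Nat.land (Nat.shiftRight q (Nat.mul 3 (Nat.land (Nat.shiftRight n 1) 7))) 7)))
        (Nat.mul 4 (Nat.land (Nat.xor n f) 1)))))

/-- The witness check against the length and key of a representative in one numeral. -/
noncomputable def okTermKey (p q f t : ℕ) (m pad : List ℕ) (rc : ℕ) : Bool :=
  and (and (Nat.beq (permBitsF p) 63)
      (and (Nat.beq (permBitsF q) 63) (and (Nat.ble f 1) (Nat.ble t 1))))
    (and (okList pad) (and (Nat.blt (Nat.add (Nat.land rc 15) (Nat.mul 2 (lenList pad))) 16)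
      (scanKey p q f (cond (Nat.beq t 1) 8 64) (cond (Nat.beq t 1) 64 8)
        (fun ok l k => and (Nat.beq ok 1)
          (and (Nat.beq l (Nat.add (Nat.land rc 15) (Nat.mul 2 (lenList pad))))
            (Nat.beq k (Nat.add (Nat.shiftRight rc 4) (padKey pad))))) m 1 0 0)))

/-- The length and key of a representative in one numeral. -/
noncomputable def repCode (tbl : ℕ → List ℕ) (i : ℕ) : ℕ :=
  Nat.add (lenList (tbl i)) (Nat.shiftLeft (keyList (tbl i)) 4)

/-- The representatives of a list of totals in fields of four hundred bits. -/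
noncomputable def packKeys (tbl : ℕ → List ℕ) : List (ℕ × ℤ) → ℕ :=
  List.rec 0 fun x _ ih => Nat.add (repCode tbl x.1) (Nat.shiftLeft ih 400)

/-- One field of four hundred bits. -/
def keyAt (K l : ℕ) : ℕ :=
  Nat.land (Nat.shiftRight K (Nat.mul 400 l)) (Nat.sub (Nat.shiftLeft 1 400) 1)

/-- Whether all representatives fit in their fields. -/
noncomputable def okKeys (tbl : ℕ → List ℕ) : List (ℕ × ℤ) → Bool :=
  List.rec true fun x _ ih => and (Nat.blt (lenList (tbl x.1)) 16)
    (and (Nat.blt (repCode tbl x.1) (Nat.shiftLeft 1 400)) ih)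

/-- The witnessed terms, added into packed sums. -/
noncomputable def packLoop (B K L : ℕ) (fin : ℕ → ℕ → ℕ → Bool) :
    List (ℤ × List ℕ) → List ℕ → ℕ → ℕ → ℕ → Bool :=
  List.rec (fun W p n a => List.rec (fin p n a) (fun _ _ _ => false) W) fun x _ ih W p n a =>
    List.rec false (fun w W' _ =>
      and (and (Nat.blt (wIdx w) L)
        (okTermKey (wP w) (wQ w) (wF w) (wT w) x.2 (wPad w) (keyAt K (wIdx w))))
      (and (Nat.ble 0 (Nat.land p (Nat.land n a)))
        (ih W' (Nat.add p (Nat.shiftLeft (iPos x.1) (Nat.mul B (wIdx w))))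
          (Nat.add n (Nat.shiftLeft (iNeg x.1) (Nat.mul B (wIdx w))))
          (Nat.add a (Nat.add (iPos x.1) (iNeg x.1)))))) W

/-- The last test: equal packed sums, small enough to have no carries. -/
noncomputable def packFin (B : ℕ) (P : List (ℕ × ℤ)) (p n a : ℕ) : Bool :=
  and (Nat.beq (Nat.add p (packVals B iNeg P)) (Nat.add n (packVals B iPos P)))
    (Nat.blt (Nat.add a (absTotals P)) (Nat.shiftLeft 1 B))

/-- The whole check. -/
noncomputable def checkPacked (tbl : ℕ → List ℕ) (B : ℕ) (S : List (ℤ × List ℕ)) (W : List ℕ)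
    (P : List (ℕ × ℤ)) : Bool :=
  and (okIdx (packIdx P) P 0) (and (okKeys tbl P)
    (packLoop B (packKeys tbl P) (lenTotals P) (packFin B P) S W 0 0 0))

lemma iPos_sub_iNeg (c : ℤ) : (iPos c : ℤ) - iNeg c = c := by
  cases c with
  | ofNat n => simp [iPos, iNeg]
  | negSucc n => simp [iPos, iNeg, Int.negSucc_eq]

lemma iPos_add_iNeg (c : ℤ) : (iPos c : ℤ) + iNeg c = |c| := by
  cases c with
  | ofNat n => simp [iPos, iNeg]
  | negSucc n =>
    simp [iPos, iNeg, Int.negSucc_eq]
    rw [abs_of_neg (by omega)]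
    ring

lemma shiftLeft_eq' (x k : ℕ) : Nat.shiftLeft x k = x * 2 ^ k := Nat.shiftLeft_eq x k

/-- Small coefficients in a packed sum that vanishes all vanish. -/
lemma eq_zero_of_packed (B : ℕ) : ∀ (L : ℕ) (x : ℕ → ℤ),
    ∑ l ∈ Finset.range L, |x l| < 2 ^ B →
    ∑ l ∈ Finset.range L, x l * 2 ^ (B * l) = 0 → ∀ l < L, x l = 0 := by
  intro L
  induction L with
  | zero => intro x _ _ l hl; omega
  | succ L ih =>
    intro x hb hz l hl
    rw [Finset.sum_range_succ'] at hb hz
    simp only [Nat.mul_zero, pow_zero, mul_one] at hz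
    have e : ∑ k ∈ Finset.range L, x (k + 1) * 2 ^ (B * (k + 1)) =
        2 ^ B * ∑ k ∈ Finset.range L, x (k + 1) * 2 ^ (B * k) := by
      rw [Finset.mul_sum]
      exact Finset.sum_congr rfl fun k _ => by rw [Nat.mul_succ, pow_add]; ring
    rw [e] at hz
    have hnn : 0 ≤ ∑ k ∈ Finset.range L, |x (k + 1)| := Finset.sum_nonneg fun k _ => abs_nonneg _
    have hna := abs_nonneg (x 0)
    have h0 : x 0 = 0 := Int.eq_zero_of_abs_lt_dvd
      ⟨-∑ k ∈ Finset.range L, x (k + 1) * 2 ^ (B * k), by linarith⟩ (by linarith : |x 0| < 2 ^ B)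
    rw [h0, add_zero, mul_eq_zero] at hz
    cases l with
    | zero => exact h0
    | succ l =>
      exact ih (fun k => x (k + 1)) (by linarith) (hz.resolve_left (by positivity)) l (by omega)

lemma sum_abs_add_single (x : ℕ → ℤ) (c : ℤ) {s L : ℕ} (hs : s < L) :
    ∑ l ∈ Finset.range L, |x l + if l = s then c else 0| ≤ (∑ l ∈ Finset.range L, |x l|) + |c| := by
  refine (Finset.sum_le_sum fun l _ => abs_add_le (x l) _).trans (le_of_eq ?_)
  rw [Finset.sum_add_distrib]
  congr 1
  rw [Finset.sum_eq_single s]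
  · simp
  · intro l _ hl; simp [hl]
  · intro h; exact absurd (Finset.mem_range.2 hs) h

lemma permBitsF_eq (p : ℕ) : permBitsF p = permBits p := rfl

lemma okCode_of_codeBits {n : ℕ} (h : Nat.shiftRight codeBits n % 2 = 1) : okCode n = true := by
  by_cases hn : n < 96
  · have key : ∀ k : Fin 96, Nat.shiftRight codeBits k % 2 = 1 → okCode k = true := by
      decide +kernel
    exact key ⟨n, hn⟩ h
  · exfalso
    have h0 : codeBits < 2 ^ n :=
      lt_of_lt_of_le (by decide +kernel : codeBits < 2 ^ 96)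
        (Nat.pow_le_pow_right (by norm_num) (by omega))
    rw [show Nat.shiftRight codeBits n = codeBits >>> n from rfl, Nat.shiftRight_eq_div_pow,
      Nat.div_eq_of_lt h0] at h
    simp at h

lemma bitPos_eq {f t : ℕ} (hf : f ≤ 1) (ht : t ≤ 1) (p q n : ℕ) :
    Nat.add (Nat.add
        (Nat.mul (cond (Nat.beq t 1) 8 64)
          (Nat.land (Nat.shiftRight p (Nat.mul 3 (Nat.shiftRight n 4))) 7))
        (Nat.mul (cond (Nat.beq t 1) 64 8)
          (Nat.land (Nat.shiftRight q (Nat.mul 3 (Nat.land (Nat.shiftRight n 1) 7))) 7)))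
      (Nat.mul 4 (Nat.land (Nat.xor n f) 1)) = Nat.mul 4 (mapCode p q f t n) := by
  have hx : Nat.land (Nat.xor n f) 1 = Nat.xor (Nat.land n 1) f := by
    show (n ^^^ f) &&& 1 = (n &&& 1) ^^^ f
    rw [Nat.and_xor_distrib_right]
    obtain rfl | rfl : f = 0 ∨ f = 1 := by omega
    all_goals rfl
  rw [hx, mapCode, pget, pget]
  simp only [show ∀ a b, Nat.add a b = a + b from fun _ _ => rfl,
    show ∀ a b, Nat.mul a b = a * b from fun _ _ => rfl]
  obtain rfl | rfl : t = 0 ∨ t = 1 := by omega
  all_goals simp only [show Nat.beq 0 1 = false from rfl, show Nat.beq 1 1 = true from rfl,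
    cond_true, cond_false]
  all_goals ring

lemma scanKey_sound {f t : ℕ} (hf : f ≤ 1) (ht : t ≤ 1) (p q : ℕ) (fin : ℕ → ℕ → ℕ → Bool) :
    ∀ (m : List ℕ) (ok l k : ℕ),
      scanKey p q f (cond (Nat.beq t 1) 8 64) (cond (Nat.beq t 1) 64 8) fin m ok l k = true →
      ∃ ok', fin ok' (l + lenList m) (k + keyMap p q f t m) = true ∧
        (ok' % 2 = 1 → ok % 2 = 1 ∧ okList m = true) := by
  intro m
  induction m with
  | nil => intro ok l k e; exact ⟨ok, e, fun h => ⟨h, rfl⟩⟩
  | cons n m ih =>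
    intro ok l k e
    change scanKey p q f _ _ fin m (Nat.land ok (Nat.shiftRight codeBits n)) (Nat.succ l)
      (Nat.add k (Nat.shiftLeft 1 _)) = true at e
    rw [bitPos_eq hf ht] at e
    obtain ⟨ok', h1, h2⟩ := ih _ _ _ e
    refine ⟨ok', ?_, fun h => ?_⟩
    · show fin ok' (l + Nat.succ (lenList m))
        (k + (Nat.shiftLeft 1 (Nat.mul 4 (mapCode p q f t n)) + keyMap p q f t m)) = true
      rw [show l + Nat.succ (lenList m) = Nat.succ l + lenList m by omega, ← Nat.add_assoc]
      exact h1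
    · obtain ⟨h3, h4⟩ := h2 h
      rw [show Nat.land ok (Nat.shiftRight codeBits n) = ok &&& Nat.shiftRight codeBits n from rfl,
        Nat.and_mod_two_eq_one] at h3
      refine ⟨h3.1, ?_⟩
      show (okCode n && okList m) = true
      rw [okCode_of_codeBits h3.2, h4]
      rfl

lemma okTerm_of_key {p q f t i : ℕ} {m pad : List ℕ} {tbl : ℕ → List ℕ}
    (hlen : lenList (tbl i) < 16) (e : okTermKey p q f t m pad (repCode tbl i) = true) :
    okList m = true ∧ okTerm p q f t m pad (tbl i) = true := by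
  have h1 : Nat.land (repCode tbl i) 15 = lenList (tbl i) := by
    show (lenList (tbl i) + keyList (tbl i) <<< 4) &&& 15 = _
    rw [show 15 = 2 ^ 4 - 1 from rfl, Nat.and_two_pow_sub_one_eq_mod, Nat.shiftLeft_eq]
    omega
  have h2 : Nat.shiftRight (repCode tbl i) 4 = keyList (tbl i) := by
    show (lenList (tbl i) + keyList (tbl i) <<< 4) >>> 4 = _
    rw [Nat.shiftRight_eq_div_pow, Nat.shiftLeft_eq]
    omega
  simp only [okTermKey, h1, h2, Bool.and_eq_true, permBitsF_eq] at e
  obtain ⟨⟨hp, hq, hf, ht⟩, hpad, h16, hs⟩ := e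
  obtain ⟨ok, hfin, hok⟩ := scanKey_sound (Nat.le_of_ble_eq_true hf) (Nat.le_of_ble_eq_true ht) p q _ m 1 0 0 hs
  simp only [Bool.and_eq_true, Nat.zero_add, Nat.beq_eq] at hfin
  refine ⟨(hok (by rw [hfin.1])).2, ?_⟩
  simp only [okTerm, okWit, okPerm, Bool.and_eq_true, Nat.beq_eq]
  exact ⟨⟨Nat.eq_of_beq_eq_true hp, Nat.eq_of_beq_eq_true hq, hf, ht⟩, hpad, h16, hfin.2.1, hfin.2.2⟩

lemma keyAt_packKeys {tbl : ℕ → List ℕ} (I : ℕ) : ∀ (P : List (ℕ × ℤ)) (l₀ : ℕ),
    okKeys tbl P = true → okIdx I P l₀ = true → ∀ l < lenTotals P,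
      lenList (tbl (idxAt I (l₀ + l))) < 16 ∧
        keyAt (packKeys tbl P) l = repCode tbl (idxAt I (l₀ + l)) := by
  intro P
  induction P with
  | nil => intro l₀ _ _ l hl; exact absurd hl (Nat.not_lt_zero _)
  | cons x P ih =>
    intro l₀ hk hi l hl
    change and (Nat.blt (lenList (tbl x.1)) 16)
      (and (Nat.blt (repCode tbl x.1) (Nat.shiftLeft 1 400)) (okKeys tbl P)) = true at hk
    change and (Nat.beq (idxAt I l₀) x.1) (okIdx I P (Nat.succ l₀)) = true at hi
    simp only [Bool.and_eq_true, Nat.beq_eq, Nat.blt_eq, shiftLeft_eq', one_mul] at hk hi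
    obtain ⟨hlen, hlt, hrest⟩ := hk
    change l < lenTotals P + 1 at hl
    cases l with
    | zero =>
      rw [Nat.add_zero, hi.1]
      refine ⟨hlen, ?_⟩
      show ((repCode tbl x.1 + packKeys tbl P <<< 400) >>> (400 * 0)) &&&
        (1 <<< 400 - 1) = _
      rw [Nat.mul_zero, Nat.shiftRight_zero, Nat.shiftLeft_eq, Nat.shiftLeft_eq, one_mul,
        Nat.and_two_pow_sub_one_eq_mod, Nat.add_mul_mod_self_right, Nat.mod_eq_of_lt hlt]
    | succ l =>
      obtain ⟨g1, g2⟩ := ih (Nat.succ l₀) hrest hi.2 l (by omega)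
      rw [show l₀ + (l + 1) = Nat.succ l₀ + l by omega]
      refine ⟨g1, ?_⟩
      rw [← g2]
      show ((repCode tbl x.1 + packKeys tbl P <<< 400) >>> (400 * (l + 1))) &&& _ =
        (packKeys tbl P >>> (400 * l)) &&& _
      rw [show 400 * (l + 1) = 400 + 400 * l by ring, Nat.shiftRight_add,
        Nat.shiftRight_eq_div_pow (repCode tbl x.1 + _) 400, Nat.shiftLeft_eq,
        Nat.add_mul_div_right _ _ (Nat.two_pow_pos 400), Nat.div_eq_of_lt hlt, Nat.zero_add]

variable {h : Fin 6 → Fin 6 → ℂ} {tbl : ℕ → List ℕ}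

lemma packLoop_sound (hh : DReg h) (B K I L : ℕ) (fin : ℕ → ℕ → ℕ → Bool)
    (hK : ∀ l < L, lenList (tbl (idxAt I l)) < 16 ∧ keyAt K l = repCode tbl (idxAt I l)) :
    ∀ (S : List (ℤ × List ℕ)) (W : List ℕ) (p n a : ℕ),
      packLoop B K L fin S W p n a = true →
      ∃ (p' n' a' : ℕ) (x : ℕ → ℤ), fin p' n' a' = true ∧
        (p' : ℤ) - n' = (p : ℤ) - n + ∑ l ∈ Finset.range L, x l * 2 ^ (B * l) ∧
        ∑ l ∈ Finset.range L, |x l| ≤ (a' : ℤ) - a ∧
        termSum h S = ∑ l ∈ Finset.range L, (x l : ℂ) * wVal h (tbl (idxAt I l)) := by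
  intro S
  induction S with
  | nil =>
    intro W p n a e
    cases W with
    | nil => exact ⟨p, n, a, fun _ => 0, e, by simp, by simp, by simp [termSum]⟩
    | cons w W => exact absurd (show false = true from e) (by simp)
  | cons t S ih =>
    intro W p n a e
    cases W with
    | nil => exact absurd (show false = true from e) (by simp)
    | cons w W =>
      obtain ⟨c, m⟩ := t
      change and (and (Nat.blt (wIdx w) L)
        (okTermKey (wP w) (wQ w) (wF w) (wT w) m (wPad w) (keyAt K (wIdx w))))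
        (and (Nat.ble 0 (Nat.land p (Nat.land n a)))
        (packLoop B K L fin S W (Nat.add p (Nat.shiftLeft (iPos c) (Nat.mul B (wIdx w))))
          (Nat.add n (Nat.shiftLeft (iNeg c) (Nat.mul B (wIdx w))))
          (Nat.add a (Nat.add (iPos c) (iNeg c))))) = true at e
      simp only [Bool.and_eq_true, Nat.blt_eq] at e
      obtain ⟨⟨hs, hok'⟩, -, hrec⟩ := e
      rw [(hK _ hs).2] at hok'
      obtain ⟨hm, hok⟩ := okTerm_of_key (hK _ hs).1 hok'
      obtain ⟨p', n', a', x, hf, hpn, hab, hsum⟩ := ih W _ _ _ hrec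
      set s := wIdx w
      refine ⟨p', n', a', fun l => x l + if l = s then c else 0, hf, ?_, ?_, ?_⟩
      · simp only [add_mul, Finset.sum_add_distrib, ite_mul, zero_mul, Finset.sum_ite_eq',
          Finset.mem_range, hs, if_true]
        rw [hpn]
        simp only [shiftLeft_eq', show ∀ u v, Nat.add u v = u + v from fun _ _ => rfl,
          show ∀ u v, Nat.mul u v = u * v from fun _ _ => rfl, Nat.cast_add, Nat.cast_mul,
          Nat.cast_pow, Nat.cast_ofNat]
        linear_combination (2 ^ (B * s) : ℤ) * iPos_sub_iNeg c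
      · refine (sum_abs_add_single x c hs).trans ?_
        simp only [show ∀ u v, Nat.add u v = u + v from fun _ _ => rfl, Nat.cast_add] at hab
        linarith [iPos_add_iNeg c]
      · have hw := wVal_of_okTerm hh hm hok
        show ((c : ℂ) * wVal h m) + termSum h S = _
        rw [hsum, hw]
        simp only [Int.cast_add, add_mul, Finset.sum_add_distrib, apply_ite (fun z : ℤ => (z : ℂ)),
          Int.cast_zero, ite_mul, zero_mul, Finset.sum_ite_eq', Finset.mem_range, hs, if_true]
        ring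

lemma totals_sound (B I : ℕ) (P : List (ℕ × ℤ)) : ∀ l₀, okIdx I P l₀ = true →
    ∃ v : ℕ → ℤ,
      (packVals B iPos P : ℤ) - packVals B iNeg P =
        ∑ l ∈ Finset.range (lenTotals P), v l * 2 ^ (B * l) ∧
      ∑ l ∈ Finset.range (lenTotals P), |v l| = (absTotals P : ℤ) ∧
      idxSum h tbl P =
        ∑ l ∈ Finset.range (lenTotals P), (v l : ℂ) * wVal h (tbl (idxAt I (l₀ + l))) := by
  induction P with
  | nil => intro l₀ _; exact ⟨fun _ => 0, by simp [packVals, lenTotals], by simp [absTotals, lenTotals],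
      by simp [idxSum, lenTotals]⟩
  | cons x P ih =>
    intro l₀ e
    change and (Nat.beq (idxAt I l₀) x.1) (okIdx I P (Nat.succ l₀)) = true at e
    simp only [Bool.and_eq_true, Nat.beq_eq] at e
    obtain ⟨v, hv, ha, hs⟩ := ih _ e.2
    refine ⟨fun l => Nat.casesOn l x.2 v, ?_, ?_, ?_⟩
    · show ((iPos x.2 + Nat.shiftLeft (packVals B iPos P) B : ℕ) : ℤ) -
        ((iNeg x.2 + Nat.shiftLeft (packVals B iNeg P) B : ℕ) : ℤ) =
          ∑ l ∈ Finset.range (lenTotals P + 1), _
      rw [Finset.sum_range_succ']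
      simp only [shiftLeft_eq', Nat.cast_add, Nat.cast_mul, Nat.cast_pow, Nat.cast_ofNat,
        Nat.mul_succ, pow_add, ← mul_assoc, ← Finset.sum_mul, Nat.mul_zero, pow_zero, mul_one]
      rw [← hv]
      linear_combination iPos_sub_iNeg x.2
    · show ∑ l ∈ Finset.range (lenTotals P + 1), _ =
        (((iPos x.2 + iNeg x.2) + absTotals P : ℕ) : ℤ)
      rw [Finset.sum_range_succ']
      simp only [Nat.cast_add]
      have h0 : |Nat.rec x.2 (fun k _ => v k) 0| = (iPos x.2 : ℤ) + iNeg x.2 :=
        (iPos_add_iNeg x.2).symm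
      linarith
    · show (x.2 : ℂ) * wVal h (tbl x.1) + idxSum h tbl P =
        ∑ l ∈ Finset.range (lenTotals P + 1), _
      rw [Finset.sum_range_succ', hs, ← e.1, add_comm]
      refine congrArg₂ (· + ·) (Finset.sum_congr rfl fun l _ => ?_) rfl
      rw [Nat.succ_eq_add_one, show l₀ + 1 + l = l₀ + (l + 1) by ring]

/-- A checked source list has the sum of its totals. -/
theorem termSum_of_packed (hh : DReg h) {B : ℕ} {S : List (ℤ × List ℕ)} {W : List ℕ}
    {P : List (ℕ × ℤ)} (hc : checkPacked tbl B S W P = true) :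
    termSum h S = idxSum h tbl P := by
  simp only [checkPacked, Bool.and_eq_true] at hc
  obtain ⟨hi, hk, hl⟩ := hc
  obtain ⟨v, hv, ha, hs⟩ := totals_sound (h := h) (tbl := tbl) B _ P 0 hi
  obtain ⟨p, n, a, x, hf, hpn, hab, hsum⟩ := packLoop_sound (h := h) (tbl := tbl) hh B _
    (packIdx P) _ _ (fun l hl' => by simpa using keyAt_packKeys _ P 0 hk hi l hl') S W 0 0 0 hl
  simp only [packFin, Bool.and_eq_true, Nat.beq_eq, Nat.blt_eq, shiftLeft_eq', one_mul,
    show ∀ u v, Nat.add u v = u + v from fun _ _ => rfl] at hf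
  set L := lenTotals P
  have h1 : ((p : ℤ) + packVals B iNeg P) = (n : ℤ) + packVals B iPos P := by exact_mod_cast hf.1
  have h2 : ((a : ℤ) + absTotals P) < 2 ^ B := by exact_mod_cast hf.2
  have hz := eq_zero_of_packed B L (fun l => x l - v l)
    (lt_of_le_of_lt ((Finset.sum_le_sum fun l _ => abs_sub (x l) (v l)).trans
      (by rw [Finset.sum_add_distrib, ha]; simp at hab; linarith)) h2)
    (by
      simp only [sub_mul, Finset.sum_sub_distrib]
      simp at hpn
      linarith)
  rw [hsum, hs]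
  refine Finset.sum_congr rfl fun l hl' => ?_
  rw [zero_add, sub_eq_zero.1 (hz l (Finset.mem_range.1 hl'))]

/-- The part of packed totals that lies in one segment, by offsets in fields of sixteen bits. -/
noncomputable def partAt (w D O s : ℕ) (dec : ℕ → ℕ × ℤ) : List (ℕ × ℤ) :=
  Nat.rec (motive := fun _ => ℕ → List (ℕ × ℤ)) (fun _ => [])
    (fun _ ih n => List.cons (dec (Nat.land n (Nat.sub (Nat.shiftLeft 1 w) 1)))
      (ih (Nat.shiftRight n w)))
    (Nat.sub (idxAt O (Nat.succ s)) (idxAt O s))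
    -- only the fields of this segment are kept, so that stepping through them is cheap
    (Nat.land (Nat.shiftRight D (Nat.mul w (idxAt O s)))
      (Nat.sub (Nat.shiftLeft 1 (Nat.mul w (Nat.sub (idxAt O (Nat.succ s)) (idxAt O s)))) 1))

/-- Totals of one segment, added into packed sums. -/
noncomputable def segLoop (B o I L : ℕ) (fin : ℕ → ℕ → ℕ → Bool) :
    List (ℕ × ℤ) → ℕ → ℕ → ℕ → Bool :=
  List.rec (fun p n a => fin p n a) fun x _ ih p n a =>
    and (and (Nat.blt (Nat.sub x.1 o) L) (Nat.beq (idxAt I (Nat.sub x.1 o)) x.1))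
      (and (Nat.ble 0 (Nat.land p (Nat.land n a)))
        (ih (Nat.add p (Nat.shiftLeft (iPos x.2) (Nat.mul B (Nat.sub x.1 o))))
          (Nat.add n (Nat.shiftLeft (iNeg x.2) (Nat.mul B (Nat.sub x.1 o))))
          (Nat.add a (Nat.add (iPos x.2) (iNeg x.2)))))

/-- The check that totals of a segment add up to a list of residuals. -/
noncomputable def checkSeg (B o : ℕ) (P R : List (ℕ × ℤ)) : Bool :=
  and (okIdx (packIdx R) R 0) (segLoop B o (packIdx R) (lenTotals R) (packFin B R) P 0 0 0)

lemma segLoop_sound (B o I L : ℕ) (fin : ℕ → ℕ → ℕ → Bool) :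
    ∀ (P : List (ℕ × ℤ)) (p n a : ℕ), segLoop B o I L fin P p n a = true →
      ∃ (p' n' a' : ℕ) (x : ℕ → ℤ), fin p' n' a' = true ∧
        (p' : ℤ) - n' = (p : ℤ) - n + ∑ l ∈ Finset.range L, x l * 2 ^ (B * l) ∧
        ∑ l ∈ Finset.range L, |x l| ≤ (a' : ℤ) - a ∧
        idxSum h tbl P = ∑ l ∈ Finset.range L, (x l : ℂ) * wVal h (tbl (idxAt I l)) := by
  intro P
  induction P with
  | nil => intro p n a e; exact ⟨p, n, a, fun _ => 0, e, by simp, by simp, by simp [idxSum]⟩
  | cons t P ih =>
    intro p n a e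
    obtain ⟨i, c⟩ := t
    change and (and (Nat.blt (Nat.sub i o) L) (Nat.beq (idxAt I (Nat.sub i o)) i))
      (and (Nat.ble 0 (Nat.land p (Nat.land n a)))
        (segLoop B o I L fin P (Nat.add p (Nat.shiftLeft (iPos c) (Nat.mul B (Nat.sub i o))))
          (Nat.add n (Nat.shiftLeft (iNeg c) (Nat.mul B (Nat.sub i o))))
          (Nat.add a (Nat.add (iPos c) (iNeg c))))) = true at e
    simp only [Bool.and_eq_true, Nat.blt_eq, Nat.beq_eq] at e
    obtain ⟨⟨hs, hi⟩, -, hrec⟩ := e
    obtain ⟨p', n', a', x, hf, hpn, hab, hsum⟩ := ih _ _ _ hrec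
    set s := Nat.sub i o
    refine ⟨p', n', a', fun l => x l + if l = s then c else 0, hf, ?_, ?_, ?_⟩
    · simp only [add_mul, Finset.sum_add_distrib, ite_mul, zero_mul, Finset.sum_ite_eq',
        Finset.mem_range, hs, if_true]
      rw [hpn]
      simp only [shiftLeft_eq', show ∀ u v, Nat.add u v = u + v from fun _ _ => rfl,
        show ∀ u v, Nat.mul u v = u * v from fun _ _ => rfl, Nat.cast_add, Nat.cast_mul,
        Nat.cast_pow, Nat.cast_ofNat]
      linear_combination (2 ^ (B * s) : ℤ) * iPos_sub_iNeg c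
    · refine (sum_abs_add_single x c hs).trans ?_
      simp only [show ∀ u v, Nat.add u v = u + v from fun _ _ => rfl, Nat.cast_add] at hab
      linarith [iPos_add_iNeg c]
    · show ((c : ℂ) * wVal h (tbl i)) + idxSum h tbl P = _
      simp only [Int.cast_add, add_mul, Finset.sum_add_distrib, apply_ite (fun z : ℤ => (z : ℂ)),
        Int.cast_zero, ite_mul, zero_mul, Finset.sum_ite_eq', Finset.mem_range, hs, if_true]
      rw [hsum, hi]
      ring

/-- A checked segment has the sum of its residuals. -/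
theorem idxSum_of_checkSeg {B o : ℕ} {P R : List (ℕ × ℤ)} (hc : checkSeg B o P R = true) :
    idxSum h tbl P = idxSum h tbl R := by
  simp only [checkSeg, Bool.and_eq_true] at hc
  obtain ⟨hi, hl⟩ := hc
  obtain ⟨v, hv, ha, hs⟩ := totals_sound (h := h) (tbl := tbl) B _ R 0 hi
  obtain ⟨p, n, a, x, hf, hpn, hab, hsum⟩ :=
    segLoop_sound (h := h) (tbl := tbl) B o _ _ _ P 0 0 0 hl
  simp only [packFin, Bool.and_eq_true, Nat.beq_eq, Nat.blt_eq, shiftLeft_eq', one_mul,
    show ∀ u v, Nat.add u v = u + v from fun _ _ => rfl] at hf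
  set L := lenTotals R
  have h1 : ((p : ℤ) + packVals B iNeg R) = (n : ℤ) + packVals B iPos R := by exact_mod_cast hf.1
  have h2 : ((a : ℤ) + absTotals R) < 2 ^ B := by exact_mod_cast hf.2
  have hz := eq_zero_of_packed B L (fun l => x l - v l)
    (lt_of_le_of_lt ((Finset.sum_le_sum fun l _ => abs_sub (x l) (v l)).trans
      (by rw [Finset.sum_add_distrib, ha]; simp at hab; linarith)) h2)
    (by
      simp only [sub_mul, Finset.sum_sub_distrib]
      simp at hpn
      linarith)
  rw [hsum, hs]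
  refine Finset.sum_congr rfl fun l hl' => ?_
  rw [zero_add, sub_eq_zero.1 (hz l (Finset.mem_range.1 hl'))]

end Vale.Agent.P355.Seven
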