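import Mathlib
import Vale.Agent.P355.Seven.Chunk
import Vale.Agent.P355.Seven.Packed

/-!
A certificate may leave a small residual: averaged monomials have modulus at most three times the
number of symmetries, so totals of small absolute sum cannot outweigh the constant.
-/

namespace Vale.Agent.P355.Seven

open scoped BigOperators

variable {h : Fin 6 → Fin 6 → ℂ} {tbl : ℕ → List ℕ}

lemma norm_monVal (hh : DReg h) (m : List Lit) : ‖monVal h m‖ = 1 := by
  induction m with
  | nil => simp [monVal]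
  | cons l m ih =>
    rw [monVal_cons, norm_mul, ih, mul_one]
    obtain ⟨i, j, b⟩ := l
    have : ‖h i j‖ = 1 := by
      rw [← sq_eq_sq₀ (norm_nonneg _) zero_le_one, ← Complex.normSq_eq_norm_sq, hh.unim, one_pow]
    cases b <;> simp [litVal, this]

lemma norm_wVal_le (hh : DReg h) (m : List ℕ) :
    ‖wVal h m‖ ≤ 3 * (Fintype.card Gsym : ℝ) := by
  rw [wVal, norm_mul, norm_pow]
  refine mul_le_mul ?_ ?_ (norm_nonneg _) (by norm_num)
  · rw [Complex.norm_real, Real.norm_of_nonneg (Real.sqrt_nonneg _)]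
    have h3 : Real.sqrt 6 ≤ 3 := by
      rw [Real.sqrt_le_left (by norm_num)]
      norm_num
    rcases Nat.mod_two_eq_zero_or_one m.length with e | e <;> rw [e] <;> simp [h3]
  · rw [codeVal, orbVal]
    have e : ∀ g : Gsym, ‖monVal (act g h) (m.map ldec)‖ = (1 : ℝ) :=
      fun g => norm_monVal (dreg_act g hh) _
    have hs := norm_sum_le (Finset.univ : Finset Gsym) fun g => monVal (act g h) (m.map ldec)
    rw [Finset.sum_congr rfl fun g _ => e g, Finset.sum_const, nsmul_one, Finset.card_univ] at hs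
    exact hs

lemma norm_idxSum_le (hh : DReg h) (P : List (ℕ × ℤ)) :
    ‖idxSum h tbl P‖ ≤ (absTotals P : ℝ) * (3 * (Fintype.card Gsym : ℝ)) := by
  induction P with
  | nil =>
    show ‖(0 : ℂ)‖ ≤ ((0 : ℕ) : ℝ) * _
    rw [norm_zero, Nat.cast_zero, zero_mul]
  | cons x P ih =>
    show ‖(x.2 : ℂ) * wVal h (tbl x.1) + idxSum h tbl P‖ ≤
      (((iPos x.2 + iNeg x.2) + absTotals P : ℕ) : ℝ) * _
    rw [Nat.cast_add, add_mul]
    refine (norm_add_le _ _).trans (add_le_add ?_ ih)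
    rw [norm_mul, Complex.norm_intCast]
    refine mul_le_mul (le_of_eq ?_) (norm_wVal_le hh _) (norm_nonneg _) (Nat.cast_nonneg _)
    exact_mod_cast (iPos_add_iNeg x.2).symm

/-- The identity from segments of totals with a small residual. -/
theorem identity_of_residual (hh : DReg h) {S : List (ℤ × List ℕ)} {s : ℂ} (hs : 0 ≤ s.re)
    {N : ℤ} (nS : ℕ) (Q : ℕ → List (ℕ × ℤ)) (R : ℕ → ℕ)
    (hQ : ∀ k < nS, ‖idxSum h tbl (Q k)‖ ≤ (R k : ℝ) * (3 * (Fintype.card Gsym : ℝ)))
    (hsum : termSum h S + s + (N : ℂ) * wVal h [] = ∑ k ∈ Finset.range nS, idxSum h tbl (Q k))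
    (hN : 3 * ((∑ k ∈ Finset.range nS, R k : ℕ) : ℤ) < N) :
    ∃ s' : ℂ, 0 ≤ s'.re ∧ termSum h S + s' + ((1 : ℤ) : ℂ) * wVal h [] = 0 := by
  refine ⟨-termSum h S - ((1 : ℤ) : ℂ) * wVal h [], ?_, by ring⟩
  obtain ⟨hw, hpos⟩ := wVal_nil h
  set c : ℝ := (Fintype.card Gsym : ℝ)
  have h1 := congrArg Complex.re hsum
  simp only [Complex.add_re, Complex.mul_re, Complex.intCast_re, Complex.intCast_im, zero_mul,
    sub_zero, hw] at h1
  have h2 : (∑ k ∈ Finset.range nS, idxSum h tbl (Q k)).re ≤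
      ((∑ k ∈ Finset.range nS, R k : ℕ) : ℝ) * (3 * c) := by
    refine (Complex.re_le_norm _).trans ((norm_sum_le _ _).trans ?_)
    rw [Nat.cast_sum, Finset.sum_mul]
    exact Finset.sum_le_sum fun k hk => hQ k (Finset.mem_range.1 hk)
  have h3 : 3 * ((∑ k ∈ Finset.range nS, R k : ℕ) : ℝ) + 1 ≤ (N : ℝ) := by exact_mod_cast hN
  simp only [Int.cast_one, one_mul, Complex.sub_re, Complex.neg_re, hw]
  nlinarith

end Vale.Agent.P355.Seven
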