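import Mathlib
import Vale.Agent.P355.Seven.Grid
import Vale.Agent.P355.Seven.Residual

/-!
The final bookkeeping of a certificate: all totals are given in segments of orbit indices, and each
segment is checked separately to be small.
-/

namespace Vale.Agent.P355.Seven

open scoped BigOperators

/-- All totals of one segment, with the constant in the first one. -/
noncomputable def segTotals (N : ℤ) (Pf : ℕ → List (ℕ × ℤ)) (M : ℕ) (nK : ℕ → ℕ)
    (Pg : ℕ → ℕ → ℕ → List (ℕ × ℤ)) (nZ : ℕ) (Pz : ℕ → ℕ → List (ℕ × ℤ)) (s : ℕ) :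
    List (ℕ × ℤ) :=
  cond (Nat.beq s 0) [(0, N)] [] ++
    (Pf s ++ (icat (fun a => icat (fun k => Pg a k s) (nK a)) M ++ icat (fun r => Pz r s) nZ))

lemma idxSum_icat (h : Fin 6 → Fin 6 → ℂ) (tbl : ℕ → List ℕ) (P : ℕ → List (ℕ × ℤ)) (n : ℕ) :
    idxSum h tbl (icat P n) = ∑ i ∈ Finset.range n, idxSum h tbl (P i) := by
  induction n with
  | zero => rfl
  | succ n ih =>
    show idxSum h tbl (P n ++ icat P n) = _
    rw [idxSum_append, ih, Finset.sum_range_succ, add_comm]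

/-- The identity from the parts of a certificate. -/
theorem identity_of_parts {h : Fin 6 → Fin 6 → ℂ} (hh : DReg h) {tbl : ℕ → List ℕ}
    {S : List (ℤ × List ℕ)} {Pf : ℕ → List (ℕ × ℤ)} {nS : ℕ}
    (hS : termSum h S = idxSum h tbl (icat Pf nS))
    {M : ℕ} {nK : ℕ → ℕ} {Pg : ℕ → ℕ → ℕ → List (ℕ × ℤ)}
    (hg : 0 ≤ (∑ a ∈ Finset.range M, ∑ k ∈ Finset.range (nK a),
      idxSum h tbl (icat (Pg a k) nS)).re)
    {nZ : ℕ} {Pz : ℕ → ℕ → List (ℕ × ℤ)} (hz : ∀ r < nZ, idxSum h tbl (icat (Pz r) nS) = 0)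
    (hn : 0 < nS) (h0 : tbl 0 = []) (R : ℕ → ℕ) {N : ℤ}
    (hQ : ∀ s < nS,
      ‖idxSum h tbl (segTotals N Pf M nK Pg nZ Pz s)‖ ≤ (R s : ℝ) * (3 * (Fintype.card Gsym : ℝ)))
    (hN : 3 * ((∑ s ∈ Finset.range nS, R s : ℕ) : ℤ) < N) :
    ∃ s' : ℂ, 0 ≤ s'.re ∧ termSum h S + s' + ((1 : ℤ) : ℂ) * wVal h [] = 0 := by
  have hz' : ∑ r ∈ Finset.range nZ, idxSum h tbl (icat (Pz r) nS) = 0 :=
    Finset.sum_eq_zero fun r hr => hz r (Finset.mem_range.1 hr)
  have hc : ∑ s ∈ Finset.range nS, idxSum h tbl (cond (Nat.beq s 0) [(0, N)] []) =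
      (N : ℂ) * wVal h [] := by
    rw [Finset.sum_eq_single 0]
    · simp [idxSum, h0]
    · intro s _ hs
      rw [Bool.eq_false_iff.2 fun q => hs (Nat.eq_of_beq_eq_true q)]
      simp [idxSum]
    · intro h'
      simp [hn] at h'
  refine identity_of_residual hh hg nS _ R hQ (tbl := tbl) ?_ hN
  simp only [segTotals, idxSum_append, idxSum_icat, Finset.sum_add_distrib] at hS hz' ⊢
  rw [hS, hc, Finset.sum_comm (t := Finset.range M), Finset.sum_comm (t := Finset.range nZ), hz',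
    add_zero]
  rw [Finset.sum_congr rfl fun a _ => Finset.sum_comm (s := Finset.range (nK a))]
  ring

end Vale.Agent.P355.Seven
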