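import Mathlib
import Vale.Agent.P355.Seven.Tau
import Vale.Agent.P355.Seven.Sym

/-!
If no contraction of three rows against the other three vanishes, then every contraction of a
squared row against another squared row vanishes.
-/

namespace Vale.Agent.P355.Seven

open scoped ComplexConjugate BigOperators

variable {h : Fin 6 → Fin 6 → ℂ}

/-- Two rows contracted against two rows. -/
noncomputable def con (h : Fin 6 → Fin 6 → ℂ) (a b c d : Fin 6) : ℂ :=
  ∑ j, h a j * h b j * conj (h c j * h d j)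

lemma con_swap (a b c d : Fin 6) : con h b a c d = con h a b c d := by simp [con, mul_comm]

lemma con_conj (a b c d : Fin 6) : conj (con h a b c d) = con h c d a b := by
  simp [con, mul_comm, mul_left_comm]

lemma gW_two (hh : DReg h) :
    gW h (-1) 0 0 1 0 0 = 0 ∧
    gW h (-1) 0 1 0 0 0 = 0 ∧
    gW h 0 (-1) 0 0 0 1 = 0 ∧
    gW h 0 (-1) 0 0 1 0 = 0 ∧
    gW h 0 (-1) 0 1 0 0 = 0 ∧
    gW h 0 (-1) 1 0 0 0 = 0 ∧
    gW h 0 0 (-1) 1 0 0 = 0 ∧
    gW h 0 0 0 1 (-1) 0 = 0 ∧
    gW h 0 0 0 1 0 (-1) = 0 ∧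
    gW h 0 0 1 (-1) 0 0 = 0 ∧
    gW h 0 0 1 0 (-1) 0 = 0 ∧
    gW h 0 0 1 0 0 (-1) = 0 ∧
    gW h 1 (-1) 0 0 0 0 = 0 := by
  have i := dreg_inv hh
  refine ⟨?_, ?_, ?_, ?_, ?_, ?_, ?_, ?_, ?_, ?_, ?_, ?_, ?_⟩
  · simpa [gW, i, mul_comm] using hh.rows 3 0
  · simpa [gW, i, mul_comm] using hh.rows 2 0
  · simpa [gW, i, mul_comm] using hh.rows 5 1
  · simpa [gW, i, mul_comm] using hh.rows 4 1
  · simpa [gW, i, mul_comm] using hh.rows 3 1
  · simpa [gW, i, mul_comm] using hh.rows 2 1
  · simpa [gW, i, mul_comm] using hh.rows 3 2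
  · simpa [gW, i, mul_comm] using hh.rows 3 4
  · simpa [gW, i, mul_comm] using hh.rows 3 5
  · simpa [gW, i, mul_comm] using hh.rows 2 3
  · simpa [gW, i, mul_comm] using hh.rows 2 4
  · simpa [gW, i, mul_comm] using hh.rows 2 5
  · simpa [gW, i, mul_comm] using hh.rows 0 1

/-- The identity behind the equal products. -/
theorem tau_mul_products (hh : DReg h) :
    gW h 1 (-1) 1 1 (-1) (-1) * (gW h (-1) (-1) 0 1 1 0 * gW h (-1) (-1) 1 0 0 1 - gW h (-1) (-1) 0 1 0 1 * gW h (-1) (-1) 1 0 1 0) = 0 := by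
  have E1 := gW_expand hh 0 (-1) 0 1 0 1
    (-1) (-1) 1 0 0 0
  have E2 := gW_expand hh 0 (-1) 0 1 1 0
    0 (-1) 0 1 (-1) 0
  have E3 := gW_expand hh 1 (-1) 0 1 0 0
    (-1) (-1) 0 1 0 0
  have E4 := gW_expand hh 1 (-1) 1 1 (-1) 0
    (-1) (-1) 1 0 0 0
  have E5 := gW_expand hh 0 (-1) 1 1 0 0
    0 (-1) 1 0 (-1) 0
  have E6 := gW_expand hh 1 (-1) 1 0 0 0
    (-1) (-1) 1 0 0 0
  have E7 := gW_expand hh 0 (-1) 1 1 0 0
    0 (-1) (-1) 1 0 0
  have E8 := gW_expand hh 0 (-1) 1 1 0 0
    0 (-1) 1 (-1) 0 0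
  have E9 := gW_expand hh 0 (-1) 0 1 0 1
    0 (-1) 0 1 0 (-1)
  have E10 := gW_expand hh 0 (-1) 1 0 0 1
    0 (-1) 1 0 0 (-1)
  have E11 := gW_expand hh 1 (-1) 1 1 (-1) 0
    (-1) (-1) 0 1 0 0
  have E12 := gW_expand hh 0 (-1) 1 0 0 1
    (-1) (-1) 0 1 0 0
  have E13 := gW_expand hh 0 (-1) 1 1 0 0
    0 (-1) 0 1 (-1) 0
  have E14 := gW_expand hh 0 (-1) 1 0 1 0
    0 (-1) 1 0 (-1) 0
  norm_num at E1 E2 E3 E4 E5 E6 E7 E8 E9 E10 E11 E12 E13 E14
  obtain ⟨z0, z1, z2, z3, z4, z5, z6, z7, z8, z9, z10, z11, z12⟩ := gW_two hh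
  simp only [z0, z1, z2, z3, z4, z5, z6, z7, z8, z9, z10, z11, z12] at E1 E2 E3 E4 E5 E6 E7 E8 E9 E10 E11 E12 E13 E14
  linear_combination - (gW h 0 (-1) 1 1 0 (-1)) * E1
      - 1 / 2 * (gW h (-1) (-1) 2 0 0 0) * E2
      - 1 / 2 * (gW h (-1) (-1) 2 0 0 0) * E3
      + (gW h (-1) (-1) 0 1 1 0) * E4
      - (gW h (-1) (-1) 0 1 1 0) * E5
      + 1 / 2 * (gW h (-1) (-1) 0 2 0 0) * E6
      + 1 / 2 * (gW h (-1) (-1) 2 0 0 0) * E7
      - 1 / 2 * (gW h (-1) (-1) 0 2 0 0) * E8
      + 1 / 2 * (gW h (-1) (-1) 2 0 0 0) * E9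
      - 1 / 2 * (gW h (-1) (-1) 0 2 0 0) * E10
      - (gW h (-1) (-1) 1 0 1 0) * E11
      + (gW h 0 (-1) 1 1 0 (-1)) * E12
      + (gW h (-1) (-1) 1 0 1 0) * E13
      + 1 / 2 * (gW h (-1) (-1) 0 2 0 0) * E14

lemma products_eq (hh : DReg h)
    (ht : ∑ j, h 0 j * h 2 j * h 3 j * conj (h 1 j * h 4 j * h 5 j) ≠ 0) :
    con h 3 4 0 1 * con h 2 5 0 1 = con h 3 5 0 1 * con h 2 4 0 1 := by
  have i := dreg_inv hh
  have key := tau_mul_products hh
  have et : gW h 1 (-1) 1 1 (-1) (-1) =
      ∑ j, h 0 j * h 2 j * h 3 j * conj (h 1 j * h 4 j * h 5 j) :=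
    Finset.sum_congr rfl fun j _ => by simp [zpow_neg, i]; ring
  have e1 : gW h (-1) (-1) 0 1 1 0 = con h 3 4 0 1 :=
    Finset.sum_congr rfl fun j _ => by simp [zpow_neg, i]; ring
  have e2 : gW h (-1) (-1) 1 0 0 1 = con h 2 5 0 1 :=
    Finset.sum_congr rfl fun j _ => by simp [zpow_neg, i]; ring
  have e3 : gW h (-1) (-1) 0 1 0 1 = con h 3 5 0 1 :=
    Finset.sum_congr rfl fun j _ => by simp [zpow_neg, i]; ring
  have e4 : gW h (-1) (-1) 1 0 1 0 = con h 2 4 0 1 :=
    Finset.sum_congr rfl fun j _ => by simp [zpow_neg, i]; ring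
  rw [et, e1, e2, e3, e4] at key
  exact sub_eq_zero.1 ((mul_eq_zero.1 key).resolve_left ht)

/-- Expansion of a product of two contractions in the basis of rows. -/
lemma con_expand (hh : DReg h) (a b x y c d : Fin 6) :
    ∑ m, con h a b x m * con h m y c d =
      6 * ∑ j, h a j * h b j * h y j * conj (h x j * h c j * h d j) := by
  simp only [con, Finset.sum_mul_sum]
  rw [Finset.sum_comm, Finset.mul_sum]
  refine Finset.sum_congr rfl fun j _ => ?_
  rw [Finset.sum_comm]
  have e1 : ∀ k, ∑ m, h a j * h b j * conj (h x j * h m j) *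
      (h m k * h y k * conj (h c k * h d k)) =
      h a j * h b j * conj (h x j) * h y k * conj (h c k * h d k) *
        ∑ m, conj (h m j) * h m k := by
    intro k
    rw [Finset.mul_sum]
    exact Finset.sum_congr rfl fun m _ => by simp only [map_mul]; ring
  simp only [e1, hh.cols]
  simp only [mul_ite, mul_zero, Finset.sum_ite_eq, Finset.mem_univ, if_true, map_mul]
  ring

lemma con_cancel (hh : DReg h) (a b c : Fin 6) (hbc : b ≠ c) : con h a b a c = 0 := by
  have e : ∀ j, h a j * h b j * conj (h a j * h c j) = h b j * conj (h c j) := fun j => by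
    rw [map_mul]
    linear_combination (h b j * conj (h c j)) * conj_mul_one (hh.unim a j)
  rw [con, Finset.sum_congr rfl fun j _ => e j, hh.rows, if_neg hbc]

/-- Row `x` against row `y` of the four by four matrix of the pair `0, 1`. -/
lemma pair_rows (hh : DReg h) (x y : Fin 6) :
    ∑ m, con h x m 0 1 * conj (con h y m 0 1) = if x = y then 36 else 0 := by
  have e : ∀ m, con h x m 0 1 * conj (con h y m 0 1) = con h 0 1 y m * con h m x 0 1 := by
    intro m
    rw [con_conj, con_swap m x]
    ring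
  simp only [e, con_expand hh]
  have e2 : ∀ j, h 0 j * h 1 j * h x j * conj (h y j * h 0 j * h 1 j) = h x j * conj (h y j) := by
    intro j
    simp only [map_mul]
    linear_combination (h x j * conj (h y j)) *
      ((conj (h 1 j) * h 1 j) * conj_mul_one (hh.unim 0 j) + conj_mul_one (hh.unim 1 j))
  simp only [e2, hh.rows]
  split_ifs <;> norm_num

/-- The bound when the off-diagonal entries have the form `u_x u_y`. -/
lemma rank_one_bound (A0 A1 A2 u v s t : ℂ) (u0 : u ≠ 0) (v0 : v ≠ 0) (s0 : s ≠ 0)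
    (n0 : Complex.normSq A0 + Complex.normSq u * Complex.normSq v +
      Complex.normSq u * Complex.normSq s + Complex.normSq u * Complex.normSq t = 36)
    (o01 : A0 * (conj u * conj v) + u * v * conj A1 + u * s * (conj v * conj s) +
      u * t * (conj v * conj t) = 0)
    (o02 : A0 * (conj u * conj s) + u * v * (conj v * conj s) + u * s * conj A2 +
      u * t * (conj s * conj t) = 0)
    (o12 : u * v * (conj u * conj s) + A1 * (conj v * conj s) + v * s * conj A2 +
      v * t * (conj s * conj t) = 0) :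
    Complex.normSq u * Complex.normSq v + Complex.normSq u * Complex.normSq s +
      Complex.normSq u * Complex.normSq t + Complex.normSq v * Complex.normSq s +
      Complex.normSq v * Complex.normSq t + Complex.normSq s * Complex.normSq t ≤ 54 := by
  set r : ℂ → ℂ := fun z => conj z * z with hr
  set dd : ℂ → ℂ → ℂ := fun A z => A * conj z / z - r z with hd
  set Z : ℂ := r u + r v + r s + r t with hZ
  have iu := (map_ne_zero (starRingEnd ℂ)).2 u0
  have iv := (map_ne_zero (starRingEnd ℂ)).2 v0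
  have is' := (map_ne_zero (starRingEnd ℂ)).2 s0
  have R01 : dd A0 u + conj (dd A1 v) + Z = 0 := by
    simp only [hd, hr, hZ, map_sub, map_div₀, map_mul, Complex.conj_conj]
    field_simp
    linear_combination o01
  have R02 : dd A0 u + conj (dd A2 s) + Z = 0 := by
    simp only [hd, hr, hZ, map_sub, map_div₀, map_mul, Complex.conj_conj]
    field_simp
    linear_combination o02
  have R12 : dd A1 v + conj (dd A2 s) + Z = 0 := by
    simp only [hd, hr, hZ, map_sub, map_div₀, map_mul, Complex.conj_conj]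
    field_simp
    linear_combination o12
  have hre : 2 * (dd A0 u).re + Z.re = 0 := by
    have h1 : dd A1 v = dd A0 u := by linear_combination R12 - R02
    rw [h1] at R01
    have := congrArg Complex.re R01
    simp only [Complex.add_re, Complex.conj_re, Complex.zero_re] at this
    linarith
  have hA : Complex.normSq A0 =
      ((dd A0 u).re + Complex.normSq u) ^ 2 + (dd A0 u).im ^ 2 := by
    have h1 : dd A0 u + r u = A0 * conj u / u := by simp [hd]
    have h2 := congrArg Complex.normSq h1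
    rw [map_div₀, map_mul, Complex.normSq_conj,
      mul_div_assoc, div_self (Complex.normSq_pos.2 u0).ne', mul_one] at h2
    rw [← h2, show r u = ((Complex.normSq u : ℝ) : ℂ) from
      Complex.normSq_eq_conj_mul_self.symm, Complex.normSq_apply (dd A0 u + _)]
    simp only [Complex.add_re, Complex.add_im, Complex.ofReal_re, Complex.ofReal_im, add_zero]
    ring
  have hZre : Z.re = Complex.normSq u + Complex.normSq v + Complex.normSq s + Complex.normSq t := by
    simp [hZ, hr, ← Complex.normSq_eq_conj_mul_self]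
  have hD : (dd A0 u).re ^ 2 ≤ 36 := by
    have e : Complex.normSq u * (2 * (dd A0 u).re + Z.re) = 0 := by rw [hre, mul_zero]
    rw [hA] at n0
    rw [hZre] at e
    linarith [sq_nonneg (dd A0 u).im]
  have hZ2 : Z.re ^ 2 ≤ 144 := by
    rw [show Z.re = -(2 * (dd A0 u).re) by linarith]
    linarith
  rw [hZre] at hZ2
  linarith [sq_nonneg (Complex.normSq u - Complex.normSq v),
    sq_nonneg (Complex.normSq u - Complex.normSq s), sq_nonneg (Complex.normSq u - Complex.normSq t),
    sq_nonneg (Complex.normSq v - Complex.normSq s), sq_nonneg (Complex.normSq v - Complex.normSq t),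
    sq_nonneg (Complex.normSq s - Complex.normSq t)]

/-- The squared off-diagonal entries of a four by four symmetric matrix with orthogonal rows of
squared norm `36` and three equal products sum to at most `54`. -/
lemma offdiag_bound (A0 A1 A2 A3 a b c d e f : ℂ) (p1 : a * f = b * e) (p2 : a * f = c * d)
    (n0 : Complex.normSq A0 + Complex.normSq a + Complex.normSq b + Complex.normSq c = 36)
    (n1 : Complex.normSq a + Complex.normSq A1 + Complex.normSq d + Complex.normSq e = 36)
    (n2 : Complex.normSq b + Complex.normSq d + Complex.normSq A2 + Complex.normSq f = 36)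
    (n3 : Complex.normSq c + Complex.normSq e + Complex.normSq f + Complex.normSq A3 = 36)
    (o01 : A0 * conj a + a * conj A1 + b * conj d + c * conj e = 0)
    (o02 : A0 * conj b + a * conj d + b * conj A2 + c * conj f = 0)
    (o03 : A0 * conj c + a * conj e + b * conj f + c * conj A3 = 0)
    (o12 : a * conj b + A1 * conj d + d * conj A2 + e * conj f = 0)
    (o13 : a * conj c + A1 * conj e + d * conj f + e * conj A3 = 0) :
    Complex.normSq a + Complex.normSq b + Complex.normSq c + Complex.normSq d + Complex.normSq e +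
      Complex.normSq f ≤ 54 := by
  have := Complex.normSq_nonneg A0
  have := Complex.normSq_nonneg A1
  have := Complex.normSq_nonneg A2
  have := Complex.normSq_nonneg A3
  have := Complex.normSq_nonneg a
  have := Complex.normSq_nonneg b
  have := Complex.normSq_nonneg c
  have := Complex.normSq_nonneg d
  have := Complex.normSq_nonneg e
  have := Complex.normSq_nonneg f
  by_cases hz : a * f = 0
  · have hb : b * e = 0 := p1 ▸ hz
    have hc : c * d = 0 := p2 ▸ hz
    rcases mul_eq_zero.1 hz with r | r <;> rcases mul_eq_zero.1 hb with s | s <;>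
      rcases mul_eq_zero.1 hc with t | t <;>
      (simp only [r, s, t, map_zero] at *; linarith)
  obtain ⟨ha, hf⟩ := mul_ne_zero_iff.1 hz
  obtain ⟨hb, he⟩ := mul_ne_zero_iff.1 (p1 ▸ hz)
  obtain ⟨hc, hd⟩ := mul_ne_zero_iff.1 (p2 ▸ hz)
  obtain ⟨u, hu⟩ := IsAlgClosed.exists_pow_nat_eq (a * b / d) (n := 2) (by norm_num)
  have u0 : u ≠ 0 := by
    intro h0
    rw [h0, zero_pow two_ne_zero] at hu
    exact div_ne_zero (mul_ne_zero ha hb) hd hu.symm
  obtain ⟨v, rfl⟩ : ∃ v, a = u * v := ⟨a / u, by field_simp⟩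
  obtain ⟨s, rfl⟩ : ∃ s, b = u * s := ⟨b / u, by field_simp⟩
  obtain ⟨t, rfl⟩ : ∃ t, c = u * t := ⟨c / u, by field_simp⟩
  have v0 : v ≠ 0 := fun h0 => ha (by rw [h0, mul_zero])
  have s0 : s ≠ 0 := fun h0 => hb (by rw [h0, mul_zero])
  have t0 : t ≠ 0 := fun h0 => hc (by rw [h0, mul_zero])
  have ed : d = v * s := by
    have h1 := hu
    rw [eq_div_iff hd] at h1
    exact mul_left_cancel₀ (pow_ne_zero 2 u0) (by linear_combination h1)
  subst ed
  have ef : f = s * t := mul_left_cancel₀ (mul_ne_zero u0 v0) (by linear_combination p2)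
  subst ef
  have ee : e = v * t := mul_left_cancel₀ (mul_ne_zero u0 s0) (by linear_combination -p1)
  subst ee
  simp only [map_mul] at n0 o01 o02 o12 ⊢
  exact rank_one_bound A0 A1 A2 u v s t u0 v0 s0 n0 o01 o02 o12

/-- The squared diagonal of the matrix of the pair `0, 1` sums to at least `36`. -/
theorem diag_lower (hh : DReg h)
    (t1 : ∑ j, h 0 j * h 2 j * h 3 j * conj (h 1 j * h 4 j * h 5 j) ≠ 0)
    (t2 : ∑ j, h 0 j * h 2 j * h 4 j * conj (h 1 j * h 3 j * h 5 j) ≠ 0) :
    36 ≤ Complex.normSq (con h 2 2 0 1) + Complex.normSq (con h 3 3 0 1) +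
      Complex.normSq (con h 4 4 0 1) + Complex.normSq (con h 5 5 0 1) := by
  have P1 := products_eq hh t1
  have hd : DReg fun i j => h (Equiv.swap 3 4 i) j := dreg_hP (Equiv.swap 3 4) 1 hh
  have P2 := products_eq hd (by simpa [Equiv.swap_apply_def] using t2)
  simp only [con, Equiv.swap_apply_def] at P2
  simp (config := { decide := true }) only [if_true, if_false] at P2
  change con h 4 3 0 1 * con h 2 5 0 1 = con h 4 5 0 1 * con h 2 3 0 1 at P2
  rw [con_swap 3 4] at P2
  have z : ∀ x : Fin 6, x ≠ 1 → con h x 0 0 1 = 0 := fun x hx => by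
    rw [con_swap 0 x]; exact con_cancel hh 0 x 1 hx
  have z' : ∀ x : Fin 6, x ≠ 0 → con h x 1 0 1 = 0 := fun x hx => by
    rw [con_swap 1 x, show con h 1 x 0 1 = con h 1 x 1 0 from by simp [con, mul_comm]]
    exact con_cancel hh 1 x 0 hx
  have R : ∀ x y : Fin 6, x ≠ 0 → x ≠ 1 → y ≠ 0 → y ≠ 1 →
      con h x 2 0 1 * conj (con h y 2 0 1) + con h x 3 0 1 * conj (con h y 3 0 1) +
      con h x 4 0 1 * conj (con h y 4 0 1) + con h x 5 0 1 * conj (con h y 5 0 1) =
      if x = y then 36 else 0 := by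
    intro x y x0 x1 y0 y1
    have := pair_rows hh x y
    rw [Fin.sum_univ_six, z x x1, z' x x0] at this
    simpa [zero_mul] using this
  have N : ∀ x : Fin 6, x ≠ 0 → x ≠ 1 →
      Complex.normSq (con h x 2 0 1) + Complex.normSq (con h x 3 0 1) +
      Complex.normSq (con h x 4 0 1) + Complex.normSq (con h x 5 0 1) = 36 := by
    intro x x0 x1
    have := congrArg Complex.re (R x x x0 x1 x0 x1)
    simpa [Complex.mul_conj] using this
  have n2 := N 2 (by decide) (by decide)
  have n3 := N 3 (by decide) (by decide)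
  have n4 := N 4 (by decide) (by decide)
  have n5 := N 5 (by decide) (by decide)
  have o := fun x y x0 x1 y0 y1 (hxy : x ≠ y) => (R x y x0 x1 y0 y1).trans (if_neg hxy)
  have o23 := o 2 3 (by decide) (by decide) (by decide) (by decide) (by decide)
  have o24 := o 2 4 (by decide) (by decide) (by decide) (by decide) (by decide)
  have o25 := o 2 5 (by decide) (by decide) (by decide) (by decide) (by decide)
  have o34 := o 3 4 (by decide) (by decide) (by decide) (by decide) (by decide)
  have o35 := o 3 5 (by decide) (by decide) (by decide) (by decide) (by decide)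
  simp only [con_swap 2 3, con_swap 2 4, con_swap 2 5, con_swap 3 4, con_swap 3 5, con_swap 4 5]
    at n2 n3 n4 n5 o23 o24 o25 o34 o35
  have B := offdiag_bound _ _ _ _ (con h 2 3 0 1) (con h 2 4 0 1) (con h 2 5 0 1) (con h 3 4 0 1)
    (con h 3 5 0 1) (con h 4 5 0 1) (by linear_combination P1 - P2) (by linear_combination -P2)
    n2 n3 n4 n5 o23 o24 o25 o34 o35
  linarith

/-- The Parseval identity for the square of one row. -/
lemma square_row (hh : DReg h) :
    Complex.normSq (con h 1 1 0 0) + Complex.normSq (con h 0 2 1 1) +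
      Complex.normSq (con h 0 3 1 1) + Complex.normSq (con h 0 4 1 1) +
      Complex.normSq (con h 0 5 1 1) = 36 := by
  have e : ∀ m, con h 1 1 0 m * con h m 0 1 1 = (Complex.normSq (con h 0 m 1 1) : ℂ) := by
    intro m
    rw [← Complex.mul_conj, con_conj, con_swap m 0]
    ring
  have := con_expand hh 1 1 0 0 1 1
  simp only [e] at this
  have e2 : ∀ j, h 1 j * h 1 j * h 0 j * conj (h 0 j * h 1 j * h 1 j) = 1 := fun j => by
    simp only [map_mul]
    linear_combination (conj (h 1 j) * h 1 j) ^ 2 * conj_mul_one (hh.unim 0 j) +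
      (conj (h 1 j) * h 1 j + 1) * conj_mul_one (hh.unim 1 j)
  simp only [e2, Fin.sum_univ_six, con_cancel hh 1 0 1 (by decide)] at this
  have z : con h 0 1 1 1 = 0 := by
    rw [con_swap 1 0]; exact con_cancel hh 1 0 1 (by decide)
  rw [z] at this
  have h2 : (Complex.normSq (con h 1 1 0 0) : ℂ) = (Complex.normSq (con h 0 0 1 1) : ℂ) := by
    rw [← con_conj, Complex.normSq_conj]
  rw [← h2] at this
  have := congrArg Complex.re this
  simp at this
  linarith

/-- All contractions of three rows nonzero force all contractions of two squares to vanish. -/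
theorem sq_con_eq_zero (hh : DReg h)
    (hall : ∀ s : Equiv.Perm (Fin 6),
      ∑ j, h (s 0) j * h (s 1) j * h (s 2) j * conj (h (s 3) j * h (s 4) j * h (s 5) j) ≠ 0)
    {a b : Fin 6} (hab : a ≠ b) : ∑ j, h a j ^ 2 * conj (h b j ^ 2) = 0 := by
  set G : Equiv.Perm (Fin 6) → ℝ := fun s => Complex.normSq (con h (s 1) (s 1) (s 0) (s 0))
  set K : Equiv.Perm (Fin 6) → ℝ := fun s => Complex.normSq (con h (s 2) (s 2) (s 0) (s 1))
  have hP : ∀ s : Equiv.Perm (Fin 6), DReg fun i j => h (s i) j := fun s => dreg_hP s 1 hh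
  have shift : ∀ (π : Equiv.Perm (Fin 6)), ∑ s, K (s * π) = ∑ s, K s :=
    fun π => Equiv.sum_comp (Equiv.mulRight π) K
  have low : 720 * 36 ≤ 4 * ∑ s, K s := by
    have pt : ∀ s, 36 ≤ K s + K (s * Equiv.swap 2 3) + K (s * Equiv.swap 2 4) +
        K (s * Equiv.swap 2 5) := by
      intro s
      have t1 := hall (s * Equiv.swap 1 2 * Equiv.swap 2 3)
      have t2 := hall (s * Equiv.swap 1 2 * Equiv.swap 2 4 * Equiv.swap 3 4)
      simp (config := { decide := true }) [Equiv.Perm.mul_apply, Equiv.swap_apply_def] at t1 t2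
      have := diag_lower (hP s)
        (by simpa [mul_comm, mul_left_comm] using t1) (by simpa [mul_comm, mul_left_comm] using t2)
      simp (config := { decide := true }) [K, Equiv.Perm.mul_apply, Equiv.swap_apply_def]
      exact this
    have := Finset.sum_le_sum fun s (_ : s ∈ Finset.univ) => pt s
    simp only [Finset.sum_add_distrib, shift, Finset.sum_const, Finset.card_univ,
      Fintype.card_perm, Fintype.card_fin, nsmul_eq_mul] at this
    norm_num [Nat.factorial] at this
    linarith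
  have par : ∑ s, G s + 4 * ∑ s, K s = 720 * 36 := by
    have pt : ∀ s : Equiv.Perm (Fin 6), G s +
        K (s * Equiv.swap 2 1 * Equiv.swap 1 2 * Equiv.swap 1 2) +
        K (s * Equiv.swap 2 1 * Equiv.swap 1 3) + K (s * Equiv.swap 2 1 * Equiv.swap 1 4) +
        K (s * Equiv.swap 2 1 * Equiv.swap 1 5) = 36 := by
      intro s
      have := square_row (hP s)
      simp (config := { decide := true }) [G, K, Equiv.Perm.mul_apply, Equiv.swap_apply_def]
      have c : ∀ x y z : Fin 6, Complex.normSq (con h z z x y) = Complex.normSq (con h x y z z) :=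
        fun x y z => by rw [← con_conj x y z z, Complex.normSq_conj]
      change Complex.normSq (con h (s 1) (s 1) (s 0) (s 0)) +
        Complex.normSq (con h (s 0) (s 2) (s 1) (s 1)) +
        Complex.normSq (con h (s 0) (s 3) (s 1) (s 1)) +
        Complex.normSq (con h (s 0) (s 4) (s 1) (s 1)) +
        Complex.normSq (con h (s 0) (s 5) (s 1) (s 1)) = 36 at this
      simp only [c] at this ⊢
      exact this
    have := Finset.sum_congr (rfl : (Finset.univ : Finset (Equiv.Perm (Fin 6))) = _) fun s _ => pt s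
    simp only [Finset.sum_add_distrib, mul_assoc, shift, Finset.sum_const, Finset.card_univ,
      Fintype.card_perm, Fintype.card_fin, nsmul_eq_mul] at this
    norm_num [Nat.factorial] at this
    linarith
  have hG : ∑ s, G s = 0 := le_antisymm (by linarith)
    (Finset.sum_nonneg fun s _ => Complex.normSq_nonneg _)
  have hz := (Finset.sum_eq_zero_iff_of_nonneg fun s _ => Complex.normSq_nonneg _).1 hG
  let s0 : Equiv.Perm (Fin 6) := Equiv.swap 1 a
  let s : Equiv.Perm (Fin 6) := Equiv.swap (s0 0) b * s0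
  have h1 : s 1 = a := by
    have ha : s0 1 = a := Equiv.swap_apply_left _ _
    rw [Equiv.Perm.mul_apply, ha]
    refine Equiv.swap_apply_of_ne_of_ne ?_ hab
    rw [← ha]
    exact fun e => absurd (s0.injective e) (by decide)
  have h0 : s 0 = b := by simp [s]
  have := Complex.normSq_eq_zero.1 (hz s (Finset.mem_univ s))
  rw [h0, h1] at this
  rw [← this]
  exact Finset.sum_congr rfl fun j _ => by simp [sq]

end Vale.Agent.P355.Seven
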