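import Mathlib
import Vale.Agent.P355.Seven.CaseA

/-!
When every contraction of three rows is nonzero, every pair of rows attains equality: its four by
four matrix is a rank one matrix with twice its diagonal subtracted, all entries of modulus three.
-/

namespace Vale.Agent.P355.Seven

open scoped ComplexConjugate BigOperators

variable {h : Fin 6 → Fin 6 → ℂ}

/-- Three rows with vanishing fourth entries cannot reach the bound. -/
lemma triangle_lt (A0 A1 A2 a b d : ℂ)
    (n0 : Complex.normSq A0 + Complex.normSq a + Complex.normSq b = 36)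
    (n1 : Complex.normSq A1 + Complex.normSq a + Complex.normSq d = 36)
    (n2 : Complex.normSq A2 + Complex.normSq b + Complex.normSq d = 36)
    (o : A0 * conj a + a * conj A1 + b * conj d = 0) :
    Complex.normSq a + Complex.normSq b + Complex.normSq d < 54 := by
  by_contra hn
  push Not at hn
  have := Complex.normSq_nonneg A0
  have := Complex.normSq_nonneg A1
  have := Complex.normSq_nonneg A2
  have z0 : A0 = 0 := Complex.normSq_eq_zero.1 (by linarith)
  have z1 : A1 = 0 := Complex.normSq_eq_zero.1 (by linarith)
  have z2 : A2 = 0 := Complex.normSq_eq_zero.1 (by linarith)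
  rw [z0, map_zero] at n0
  rw [z1, map_zero] at n1
  rw [z2, map_zero] at n2
  rw [z0, z1] at o
  simp at o
  rcases o with rfl | rfl <;> simp at n0 n1 n2 <;> linarith

/-- Equality in the mean inequality of four numbers. -/
lemma four_eq (x y z w : ℝ) {D E : ℝ} (hs : (x + y + z + w) ^ 2 = 4 * D ^ 2)
    (hD : D ^ 2 + E ^ 2 = 36) (hb : 54 ≤ x * y + x * z + x * w + y * z + y * w + z * w) :
    x = y ∧ x = z ∧ x = w := by
  have := sq_nonneg E
  have := sq_nonneg (x - y)
  have := sq_nonneg (x - z)
  have := sq_nonneg (x - w)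
  have := sq_nonneg (y - z)
  have := sq_nonneg (y - w)
  have := sq_nonneg (z - w)
  have h1 : (x - y) ^ 2 = 0 := by linarith
  have h2 : (x - z) ^ 2 = 0 := by linarith
  have h3 : (x - w) ^ 2 = 0 := by linarith
  simpa [sub_eq_zero] using And.intro h1 (And.intro h2 h3)

/-- The rank one form in the equality case. -/
lemma rank_one_eq (A0 A1 A2 u v s t : ℂ) (u0 : u ≠ 0) (v0 : v ≠ 0) (s0 : s ≠ 0)
    (n0 : Complex.normSq A0 + Complex.normSq u * Complex.normSq v +
      Complex.normSq u * Complex.normSq s + Complex.normSq u * Complex.normSq t = 36)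
    (o01 : A0 * (conj u * conj v) + u * v * conj A1 + u * s * (conj v * conj s) +
      u * t * (conj v * conj t) = 0)
    (o02 : A0 * (conj u * conj s) + u * v * (conj v * conj s) + u * s * conj A2 +
      u * t * (conj s * conj t) = 0)
    (o12 : u * v * (conj u * conj s) + A1 * (conj v * conj s) + v * s * conj A2 +
      v * t * (conj s * conj t) = 0)
    (big : 54 ≤ Complex.normSq u * Complex.normSq v + Complex.normSq u * Complex.normSq s +
      Complex.normSq u * Complex.normSq t + Complex.normSq v * Complex.normSq s +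
      Complex.normSq v * Complex.normSq t + Complex.normSq s * Complex.normSq t) :
    Complex.normSq u = 3 ∧ Complex.normSq v = 3 ∧ A0 = -u ^ 2 ∧ A1 = -v ^ 2 := by
  set r : ℂ → ℂ := fun z => conj z * z with hr
  set dd : ℂ → ℂ → ℂ := fun A z => A * conj z / z - r z with hd
  set Z : ℂ := r u + r v + r s + r t with hZ
  have iu := (map_ne_zero (starRingEnd ℂ)).2 u0
  have iv := (map_ne_zero (starRingEnd ℂ)).2 v0
  have is' := (map_ne_zero (starRingEnd ℂ)).2 s0
  have R01 : dd A0 u + conj (dd A1 v) + Z = 0 := by
    simp only [hd, hr, hZ, map_sub, map_div₀, map_mul, Complex.conj_conj]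
    field_simp
    linear_combination o01
  have R02 : dd A0 u + conj (dd A2 s) + Z = 0 := by
    simp only [hd, hr, hZ, map_sub, map_div₀, map_mul, Complex.conj_conj]
    field_simp
    linear_combination o02
  have R12 : dd A1 v + conj (dd A2 s) + Z = 0 := by
    simp only [hd, hr, hZ, map_sub, map_div₀, map_mul, Complex.conj_conj]
    field_simp
    linear_combination o12
  have h1 : dd A1 v = dd A0 u := by linear_combination R12 - R02
  have hre : 2 * (dd A0 u).re + Z.re = 0 := by
    rw [h1] at R01
    have := congrArg Complex.re R01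
    simp only [Complex.add_re, Complex.conj_re, Complex.zero_re] at this
    linarith
  have hA : Complex.normSq A0 =
      ((dd A0 u).re + Complex.normSq u) ^ 2 + (dd A0 u).im ^ 2 := by
    have h1 : dd A0 u + r u = A0 * conj u / u := by simp [hd]
    have h2 := congrArg Complex.normSq h1
    rw [map_div₀, map_mul, Complex.normSq_conj,
      mul_div_assoc, div_self (Complex.normSq_pos.2 u0).ne', mul_one] at h2
    rw [← h2, show r u = ((Complex.normSq u : ℝ) : ℂ) from
      Complex.normSq_eq_conj_mul_self.symm, Complex.normSq_apply (dd A0 u + _)]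
    simp only [Complex.add_re, Complex.add_im, Complex.ofReal_re, Complex.ofReal_im, add_zero]
    ring
  have hZre : Z.re = Complex.normSq u + Complex.normSq v + Complex.normSq s + Complex.normSq t := by
    simp [hZ, hr, ← Complex.normSq_eq_conj_mul_self]
  rw [hA] at n0
  rw [hZre] at hre
  set D := (dd A0 u).re with hDre
  set E := (dd A0 u).im with hDim
  have hZ : (Complex.normSq u + Complex.normSq v + Complex.normSq s + Complex.normSq t) =
      -(2 * D) := by linarith
  have hsq : D ^ 2 + E ^ 2 = 36 := by
    have e := congrArg (fun x => Complex.normSq u * x) hZ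
    nlinarith [e]
  have hZ2 : (Complex.normSq u + Complex.normSq v + Complex.normSq s + Complex.normSq t) ^ 2 =
      4 * D ^ 2 := by rw [hZ]; ring
  obtain ⟨uv, us, ut⟩ := four_eq _ _ _ _ (D := D) (E := E) hZ2 hsq big
  rw [← uv, ← us, ← ut] at hZ big
  have hD : D = -2 * Complex.normSq u := by linarith
  rw [hD] at hsq
  have hu3 : Complex.normSq u = 3 := by
    nlinarith [sq_nonneg E, Complex.normSq_nonneg u]
  rw [hu3] at hsq hD
  have hE : E = 0 := by nlinarith [sq_nonneg E]
  have hdd : dd A0 u = -6 := Complex.ext (by rw [← hDre, hD]; norm_num) (by rw [← hDim, hE]; norm_num)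
  have hv3 : Complex.normSq v = 3 := uv ▸ hu3
  have fin : ∀ A z : ℂ, Complex.normSq z = 3 → dd A z = -6 → A = -z ^ 2 := by
    intro A z hz e
    have z0 : z ≠ 0 := fun h0 => by simp [h0] at hz
    have rz : conj z * z = 3 := by
      rw [← Complex.normSq_eq_conj_mul_self, hz]; norm_num
    simp only [hd, hr, rz] at e
    field_simp at e
    apply mul_left_cancel₀ ((map_ne_zero (starRingEnd ℂ)).2 z0)
    linear_combination e + z * rz
  exact ⟨hu3, hv3, fin _ _ hu3 hdd, fin _ _ hv3 (h1.trans hdd)⟩

/-- The matrix of a pair in the equality case: moduli and products of entries. -/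
lemma offdiag_eq (A0 A1 A2 A3 a b c d e f : ℂ) (p1 : a * f = b * e) (p2 : a * f = c * d)
    (n0 : Complex.normSq A0 + Complex.normSq a + Complex.normSq b + Complex.normSq c = 36)
    (n1 : Complex.normSq a + Complex.normSq A1 + Complex.normSq d + Complex.normSq e = 36)
    (n2 : Complex.normSq b + Complex.normSq d + Complex.normSq A2 + Complex.normSq f = 36)
    (n3 : Complex.normSq c + Complex.normSq e + Complex.normSq f + Complex.normSq A3 = 36)
    (o01 : A0 * conj a + a * conj A1 + b * conj d + c * conj e = 0)
    (o02 : A0 * conj b + a * conj d + b * conj A2 + c * conj f = 0)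
    (o12 : a * conj b + A1 * conj d + d * conj A2 + e * conj f = 0)
    (o23 : b * conj c + d * conj e + A2 * conj f + f * conj A3 = 0)
    (big : 54 ≤ Complex.normSq a + Complex.normSq b + Complex.normSq c + Complex.normSq d +
      Complex.normSq e + Complex.normSq f) :
    Complex.normSq a = 9 ∧ Complex.normSq A0 = 9 ∧ A0 * A1 = a ^ 2 := by
  have := Complex.normSq_nonneg A0
  have := Complex.normSq_nonneg A1
  have := Complex.normSq_nonneg A2
  have := Complex.normSq_nonneg A3
  by_cases hz : a * f = 0
  · exfalso
    have hb : b * e = 0 := p1 ▸ hz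
    have hc : c * d = 0 := p2 ▸ hz
    rcases mul_eq_zero.1 hz with r | r <;> rcases mul_eq_zero.1 hb with s | s <;>
      rcases mul_eq_zero.1 hc with t | t <;>
      simp only [r, s, t, map_zero, mul_zero, zero_mul, add_zero, zero_add] at *
    all_goals try linarith
    · exact absurd (triangle_lt A2 A3 A1 f d e (by linarith) (by linarith) (by linarith)
        (by linear_combination o23)) (by linarith)
    · exact absurd (triangle_lt A3 A2 A0 f c b (by linarith) (by linarith) (by linarith)
        (by have := congrArg conj o23; simp at this; linear_combination this)) (by linarith)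
    · exact absurd (triangle_lt A0 A1 A3 a c e (by linarith) (by linarith) (by linarith)
        (by linear_combination o01)) (by linarith)
    · exact absurd (triangle_lt A0 A1 A2 a b d (by linarith) (by linarith) (by linarith)
        (by linear_combination o01)) (by linarith)
  obtain ⟨ha, hf⟩ := mul_ne_zero_iff.1 hz
  obtain ⟨hb, he⟩ := mul_ne_zero_iff.1 (p1 ▸ hz)
  obtain ⟨hc, hd⟩ := mul_ne_zero_iff.1 (p2 ▸ hz)
  obtain ⟨u, hu⟩ := IsAlgClosed.exists_pow_nat_eq (a * b / d) (n := 2) (by norm_num)
  have u0 : u ≠ 0 := by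
    intro h0
    rw [h0, zero_pow two_ne_zero] at hu
    exact div_ne_zero (mul_ne_zero ha hb) hd hu.symm
  obtain ⟨v, rfl⟩ : ∃ v, a = u * v := ⟨a / u, by field_simp⟩
  obtain ⟨s, rfl⟩ : ∃ s, b = u * s := ⟨b / u, by field_simp⟩
  obtain ⟨t, rfl⟩ : ∃ t, c = u * t := ⟨c / u, by field_simp⟩
  have v0 : v ≠ 0 := fun h0 => ha (by rw [h0, mul_zero])
  have s0 : s ≠ 0 := fun h0 => hb (by rw [h0, mul_zero])
  have ed : d = v * s := by
    have h1 := hu
    rw [eq_div_iff hd] at h1
    exact mul_left_cancel₀ (pow_ne_zero 2 u0) (by linear_combination h1)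
  subst ed
  have ef : f = s * t := mul_left_cancel₀ (mul_ne_zero u0 v0) (by linear_combination p2)
  subst ef
  have ee : e = v * t := mul_left_cancel₀ (mul_ne_zero u0 s0) (by linear_combination -p1)
  subst ee
  simp only [map_mul] at n0 o01 o02 o12 big ⊢
  obtain ⟨hu3, hv3, e0, e1⟩ :=
    rank_one_eq A0 A1 A2 u v s t u0 v0 s0 n0 o01 o02 o12 big
  refine ⟨by rw [hu3, hv3]; norm_num, ?_, by rw [e0, e1]; ring⟩
  rw [e0, Complex.normSq_neg, map_pow, hu3]; norm_num

end Vale.Agent.P355.Seven
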