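import Mathlib
import Vale.Agent.P355.Seven.CaseAEq

/-!
When every contraction of three rows is nonzero, for every pair of rows the four diagonal entries
have squared moduli summing to exactly `36`; so the equality case holds for every pair.
-/

namespace Vale.Agent.P355.Seven

open scoped ComplexConjugate BigOperators

/-- Every contraction of three rows against the other three is nonzero. -/
def RowsFull (h : Fin 6 → Fin 6 → ℂ) : Prop :=
  ∀ s : Equiv.Perm (Fin 6),
    ∑ j, h (s 0) j * h (s 1) j * h (s 2) j * conj (h (s 3) j * h (s 4) j * h (s 5) j) ≠ 0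

variable {h : Fin 6 → Fin 6 → ℂ}

lemma RowsFull.perm (hf : RowsFull h) (p : Equiv.Perm (Fin 6)) :
    RowsFull fun i j => h (p i) j := fun s => hf (s.trans p)

lemma RowsFull.sq (hh : DReg h) (hf : RowsFull h) {a b : Fin 6} (hab : a ≠ b) :
    con h a a b b = 0 := by
  rw [← sq_con_eq_zero hh hf hab]
  exact Finset.sum_congr rfl fun j _ => by simp [pow_two]

/-- The diagonal of every pair sums to `36`. -/
lemma diag_exact (hh : DReg h) (hf : RowsFull h) :
    Complex.normSq (con h 2 2 0 1) + Complex.normSq (con h 3 3 0 1) +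
      Complex.normSq (con h 4 4 0 1) + Complex.normSq (con h 5 5 0 1) = 36 := by
  set K : Equiv.Perm (Fin 6) → ℝ := fun s => Complex.normSq (con h (s 2) (s 2) (s 0) (s 1))
  set S : Equiv.Perm (Fin 6) → ℝ := fun s =>
    K s + K (s * Equiv.swap 2 3) + K (s * Equiv.swap 2 4) + K (s * Equiv.swap 2 5)
  have hP : ∀ s : Equiv.Perm (Fin 6), DReg fun i j => h (s i) j := fun s => dreg_hP s 1 hh
  have shift : ∀ (π : Equiv.Perm (Fin 6)), ∑ s, K (s * π) = ∑ s, K s :=
    fun π => Equiv.sum_comp (Equiv.mulRight π) K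
  have low : ∀ s, 36 ≤ S s := by
    intro s
    have t1 := hf (s * Equiv.swap 1 2 * Equiv.swap 2 3)
    have t2 := hf (s * Equiv.swap 1 2 * Equiv.swap 2 4 * Equiv.swap 3 4)
    simp (config := { decide := true }) [Equiv.Perm.mul_apply, Equiv.swap_apply_def] at t1 t2
    have := diag_lower (hP s)
      (by simpa [mul_comm, mul_left_comm] using t1) (by simpa [mul_comm, mul_left_comm] using t2)
    simp (config := { decide := true }) [S, K, Equiv.Perm.mul_apply, Equiv.swap_apply_def]
    exact this
  have pt : ∀ s : Equiv.Perm (Fin 6),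
      K (s * Equiv.swap 2 1 * Equiv.swap 1 2 * Equiv.swap 1 2) +
      K (s * Equiv.swap 2 1 * Equiv.swap 1 3) + K (s * Equiv.swap 2 1 * Equiv.swap 1 4) +
      K (s * Equiv.swap 2 1 * Equiv.swap 1 5) = 36 := by
    intro s
    have := square_row (hP s)
    change Complex.normSq (con h (s 1) (s 1) (s 0) (s 0)) +
      Complex.normSq (con h (s 0) (s 2) (s 1) (s 1)) +
      Complex.normSq (con h (s 0) (s 3) (s 1) (s 1)) +
      Complex.normSq (con h (s 0) (s 4) (s 1) (s 1)) +
      Complex.normSq (con h (s 0) (s 5) (s 1) (s 1)) = 36 at this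
    rw [hf.sq hh (fun e => absurd (s.injective e) (by decide) : s 1 ≠ s 0), map_zero,
      zero_add] at this
    simp (config := { decide := true }) [K, Equiv.Perm.mul_apply, Equiv.swap_apply_def]
    have c : ∀ x y z : Fin 6, Complex.normSq (con h z z x y) = Complex.normSq (con h x y z z) :=
      fun x y z => by rw [← con_conj x y z z, Complex.normSq_conj]
    simp only [c] at this ⊢
    exact this
  have total : ∑ s, S s = ∑ _s : Equiv.Perm (Fin 6), (36 : ℝ) := by
    rw [← Finset.sum_congr rfl fun s _ => pt s]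
    simp only [S, Finset.sum_add_distrib, mul_assoc, shift]
  have := (Finset.sum_eq_sum_iff_of_le fun s _ => low s).1 total.symm 1 (Finset.mem_univ 1)
  simpa [S, K, Equiv.swap_apply_def] using this.symm

/-- Moduli and products in the matrix of the pair `0, 1`. -/
theorem pair_eq (hh : DReg h) (hf : RowsFull h) :
    Complex.normSq (con h 2 3 0 1) = 9 ∧ Complex.normSq (con h 2 2 0 1) = 9 ∧
      con h 2 2 0 1 * con h 3 3 0 1 = con h 2 3 0 1 ^ 2 ∧
      con h 2 4 0 1 * con h 3 5 0 1 = con h 2 5 0 1 * con h 3 4 0 1 := by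
  have t1 : ∑ j, h 0 j * h 2 j * h 3 j * conj (h 1 j * h 4 j * h 5 j) ≠ 0 := by
    have := hf (Equiv.swap 1 2 * Equiv.swap 2 3)
    simp (config := { decide := true }) [Equiv.Perm.mul_apply, Equiv.swap_apply_def] at this
    simpa [mul_comm, mul_left_comm] using this
  have t2 : ∑ j, h 0 j * h 2 j * h 4 j * conj (h 1 j * h 3 j * h 5 j) ≠ 0 := by
    have := hf (Equiv.swap 1 2 * Equiv.swap 2 4 * Equiv.swap 3 4)
    simp (config := { decide := true }) [Equiv.Perm.mul_apply, Equiv.swap_apply_def] at this
    simpa [mul_comm, mul_left_comm] using this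
  have P1 := products_eq hh t1
  have hd : DReg fun i j => h (Equiv.swap 3 4 i) j := dreg_hP (Equiv.swap 3 4) 1 hh
  have P2 := products_eq hd (by simpa [Equiv.swap_apply_def] using t2)
  simp only [con, Equiv.swap_apply_def] at P2
  simp (config := { decide := true }) only [if_true, if_false] at P2
  change con h 4 3 0 1 * con h 2 5 0 1 = con h 4 5 0 1 * con h 2 3 0 1 at P2
  rw [con_swap 3 4] at P2
  have z : ∀ x : Fin 6, x ≠ 1 → con h x 0 0 1 = 0 := fun x hx => by
    rw [con_swap 0 x]; exact con_cancel hh 0 x 1 hx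
  have z' : ∀ x : Fin 6, x ≠ 0 → con h x 1 0 1 = 0 := fun x hx => by
    rw [con_swap 1 x, show con h 1 x 0 1 = con h 1 x 1 0 from by simp [con, mul_comm]]
    exact con_cancel hh 1 x 0 hx
  have R : ∀ x y : Fin 6, x ≠ 0 → x ≠ 1 → y ≠ 0 → y ≠ 1 →
      con h x 2 0 1 * conj (con h y 2 0 1) + con h x 3 0 1 * conj (con h y 3 0 1) +
      con h x 4 0 1 * conj (con h y 4 0 1) + con h x 5 0 1 * conj (con h y 5 0 1) =
      if x = y then 36 else 0 := by
    intro x y x0 x1 y0 y1
    have := pair_rows hh x y
    rw [Fin.sum_univ_six, z x x1, z' x x0] at this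
    simpa [zero_mul] using this
  have N : ∀ x : Fin 6, x ≠ 0 → x ≠ 1 →
      Complex.normSq (con h x 2 0 1) + Complex.normSq (con h x 3 0 1) +
      Complex.normSq (con h x 4 0 1) + Complex.normSq (con h x 5 0 1) = 36 := by
    intro x x0 x1
    have := congrArg Complex.re (R x x x0 x1 x0 x1)
    simpa [Complex.mul_conj] using this
  have n2 := N 2 (by decide) (by decide)
  have n3 := N 3 (by decide) (by decide)
  have n4 := N 4 (by decide) (by decide)
  have n5 := N 5 (by decide) (by decide)
  have o := fun x y x0 x1 y0 y1 (hxy : x ≠ y) => (R x y x0 x1 y0 y1).trans (if_neg hxy)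
  have o23 := o 2 3 (by decide) (by decide) (by decide) (by decide) (by decide)
  have o24 := o 2 4 (by decide) (by decide) (by decide) (by decide) (by decide)
  have o34 := o 3 4 (by decide) (by decide) (by decide) (by decide) (by decide)
  have o45 := o 4 5 (by decide) (by decide) (by decide) (by decide) (by decide)
  have D := diag_exact hh hf
  simp only [con_swap 2 3, con_swap 2 4, con_swap 2 5, con_swap 3 4, con_swap 3 5, con_swap 4 5]
    at n2 n3 n4 n5 o23 o24 o34 o45
  obtain ⟨e1, e2, e3⟩ := offdiag_eq _ _ _ _ (con h 2 3 0 1) (con h 2 4 0 1) (con h 2 5 0 1)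
    (con h 3 4 0 1) (con h 3 5 0 1) (con h 4 5 0 1) (by linear_combination P1 - P2)
    (by linear_combination -P2) n2 n3 n4 n5 o23 o24 o34 o45 (by linarith)
  exact ⟨e1, e2, e3, by linear_combination -P1⟩

end Vale.Agent.P355.Seven
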