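import Mathlib
import Vale.Agent.P355.Seven.CaseAPair

/-!
When every contraction of three rows is nonzero, they have modulus three, the contractions of
shapes `001|345` and `000|112` vanish, and `000|111` has modulus six.
-/

namespace Vale.Agent.P355.Seven

open scoped ComplexConjugate BigOperators

variable {h : Fin 6 → Fin 6 → ℂ}

/-- The three rows `a, b, c` against `d, e, f`. -/
noncomputable def tri (h : Fin 6 → Fin 6 → ℂ) (a b c d e f : Fin 6) : ℂ :=
  ∑ j, h a j * h b j * h c j * conj (h d j * h e j * h f j)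

/-- The permutation with a given list of values. -/
noncomputable def ofVals (f : Fin 6 → Fin 6) (hb : Function.Bijective f) : Equiv.Perm (Fin 6) :=
  Equiv.ofBijective f hb

lemma ofVals_apply (f : Fin 6 → Fin 6) (hb : Function.Bijective f) (i : Fin 6) :
    ofVals f hb i = f i := rfl

lemma dreg_rows (hh : DReg h) (p : Equiv.Perm (Fin 6)) : DReg fun i j => h (p i) j :=
  dreg_hP p 1 hh

lemma pair_eq_perm (hh : DReg h) (hf : RowsFull h) (p : Equiv.Perm (Fin 6)) :
    Complex.normSq (con h (p 2) (p 3) (p 0) (p 1)) = 9 ∧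
      Complex.normSq (con h (p 2) (p 2) (p 0) (p 1)) = 9 ∧
      con h (p 2) (p 2) (p 0) (p 1) * con h (p 3) (p 3) (p 0) (p 1) =
        con h (p 2) (p 3) (p 0) (p 1) ^ 2 ∧
      con h (p 2) (p 4) (p 0) (p 1) * con h (p 3) (p 5) (p 0) (p 1) =
        con h (p 2) (p 5) (p 0) (p 1) * con h (p 3) (p 4) (p 0) (p 1) :=
  by
  have := pair_eq (dreg_rows hh p) (hf.perm p)
  simpa only [con] using this

lemma normSq_swap (a b c d : Fin 6) :
    Complex.normSq (con h c d a b) = Complex.normSq (con h a b c d) := by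
  rw [← con_conj, Complex.normSq_conj]

lemma con_swap' (a b c d : Fin 6) : con h a b d c = con h a b c d := by simp [con, mul_comm]

/-- A contraction of two pairs has modulus three. -/
lemma con_nine (hh : DReg h) (hf : RowsFull h) (p : Equiv.Perm (Fin 6)) :
    Complex.normSq (con h (p 0) (p 1) (p 2) (p 3)) = 9 ∧
      Complex.normSq (con h (p 0) (p 1) (p 2) (p 2)) = 9 := by
  obtain ⟨e1, e2, -, -⟩ := pair_eq_perm hh hf p
  exact ⟨by rw [← normSq_swap]; exact e1, by rw [← normSq_swap]; exact e2⟩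

/-- A triple times the diagonal entry of a pair inside it. -/
lemma tri_mul (hh : DReg h) (hf : RowsFull h) :
    tri h 0 1 3 2 4 5 * con h 0 1 3 3 = con h 0 1 2 3 * con h 0 1 4 5 := by
  have z1 : con h 0 1 2 0 = 0 := by
    rw [con_swap' 0 1 0 2]; exact con_cancel hh 0 1 2 (by decide)
  have z2 : con h 0 1 2 1 = 0 := by
    rw [con_swap' 0 1 1 2, con_swap 1 0]; exact con_cancel hh 1 0 2 (by decide)
  have z3 : con h 0 1 3 0 = 0 := by
    rw [con_swap' 0 1 0 3]; exact con_cancel hh 0 1 3 (by decide)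
  have z4 : con h 0 1 3 1 = 0 := by
    rw [con_swap' 0 1 1 3, con_swap 1 0]; exact con_cancel hh 1 0 3 (by decide)
  have z5 : con h 4 3 4 5 = 0 := con_cancel hh 4 3 5 (by decide)
  have z6 : con h 5 3 4 5 = 0 := by
    rw [con_swap' 5 3 5 4]; exact con_cancel hh 5 3 4 (by decide)
  have E1 := con_expand hh 0 1 2 3 4 5
  have E2 := con_expand hh 0 1 3 3 4 5
  have e : ∀ j, h 0 j * h 1 j * h 3 j * conj (h 3 j * h 4 j * h 5 j) =
      h 0 j * h 1 j * conj (h 4 j * h 5 j) := fun j => by
    simp only [map_mul]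
    linear_combination (h 0 j * h 1 j * (conj (h 4 j) * conj (h 5 j))) *
      conj_mul_one (hh.unim 3 j)
  rw [Fin.sum_univ_six] at E1 E2
  simp only [e, z1, z2, z3, z4, z5, z6, mul_zero, zero_mul, add_zero, zero_add] at E1 E2
  have hq : con h 0 1 2 2 * con h 0 1 3 3 = con h 0 1 2 3 ^ 2 := by
    have := congrArg conj (pair_eq hh hf).2.2.1
    simpa only [map_mul, map_pow, con_conj] using this
  rw [con_swap' 0 1 2 3] at E2
  change _ = 6 * tri h 0 1 3 2 4 5 at E1
  change _ = 6 * con h 0 1 4 5 at E2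
  linear_combination -(1 / 6) * con h 0 1 3 3 * E1 + (1 / 6) * con h 0 1 2 3 * E2 +
    (1 / 6) * con h 2 3 4 5 * hq

/-- A triple times the diagonal entry of a pair inside it, in every labelling. -/
lemma tri_mul_perm (hh : DReg h) (hf : RowsFull h) (p : Equiv.Perm (Fin 6)) :
    tri h (p 0) (p 1) (p 3) (p 2) (p 4) (p 5) * con h (p 0) (p 1) (p 3) (p 3) =
      con h (p 0) (p 1) (p 2) (p 3) * con h (p 0) (p 1) (p 4) (p 5) :=
  by
  have := tri_mul (dreg_rows hh p) (hf.perm p)
  simpa only [con, tri] using this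

/-- A triple has modulus three. -/
lemma tri_nine (hh : DReg h) (hf : RowsFull h) :
    Complex.normSq (tri h 0 1 2 3 4 5) = 9 := by
  have e := congrArg Complex.normSq (tri_mul_perm hh hf (Equiv.swap 2 3))
  have a := con_nine hh hf 1
  have b := (con_nine hh hf (Equiv.swap 2 4 * Equiv.swap 3 5)).1
  simp (config := { decide := true }) [Equiv.Perm.mul_apply, Equiv.swap_apply_def] at e a b
  rw [con_swap' 0 1 2 3] at e
  rw [a.2, a.1, b] at e
  linarith

/-- Parseval in the basis of rows. -/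
lemma parseval_rows (hh : DReg h) (Y : Fin 6 → ℂ) (hY : ∀ j, conj (Y j) * Y j = 1) :
    ∑ m, Complex.normSq (∑ j, Y j * conj (h m j)) = 36 := by
  have key : ∑ m, (Complex.normSq (∑ j, Y j * conj (h m j)) : ℂ) = 36 := by
    simp only [Complex.normSq_eq_conj_mul_self, map_sum, Finset.sum_mul_sum]
    rw [Finset.sum_comm]
    have e : ∀ j, ∑ m, ∑ k, conj (Y j * conj (h m j)) * (Y k * conj (h m k)) = 6 := by
      intro j
      rw [Finset.sum_comm]
      have e1 : ∀ k, ∑ m, conj (Y j * conj (h m j)) * (Y k * conj (h m k)) =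
          conj (Y j) * Y k * ∑ m, conj (h m k) * h m j := by
        intro k
        rw [Finset.mul_sum]
        exact Finset.sum_congr rfl fun m _ => by simp only [map_mul, Complex.conj_conj]; ring
      rw [Finset.sum_congr rfl fun k _ => e1 k]
      simp [hh.cols, hY]
    rw [Finset.sum_congr rfl fun j _ => e j]
    simp
    norm_num
  have := congrArg Complex.re key
  simpa using this

/-- The contraction of shape `001|345` vanishes. -/
lemma zero_B (hh : DReg h) (hf : RowsFull h) :
    ∑ j, h 0 j * h 0 j * h 1 j * conj (h 3 j * h 4 j * h 5 j) = 0 := by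
  set Y : Fin 6 → ℂ := fun j => conj (h 0 j * h 1 j) * (h 3 j * h 4 j * h 5 j)
  have hY : ∀ j, conj (Y j) * Y j = 1 := fun j => by
    have := conj_mul_one (hh.unim 0 j)
    have := conj_mul_one (hh.unim 1 j)
    have := conj_mul_one (hh.unim 3 j)
    have := conj_mul_one (hh.unim 4 j)
    have := conj_mul_one (hh.unim 5 j)
    simp only [Y, map_mul, Complex.conj_conj]
    grind
  have P := parseval_rows hh Y hY
  rw [Fin.sum_univ_six] at P
  have t : ∑ j, Y j * conj (h 2 j) = conj (tri h 0 1 2 3 4 5) := by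
    rw [tri, map_sum]
    exact Finset.sum_congr rfl fun j _ => by simp only [Y, map_mul, Complex.conj_conj]; ring
  have c3 : ∑ j, Y j * conj (h 3 j) = con h 4 5 0 1 := Finset.sum_congr rfl fun j _ => by
    simp only [Y, map_mul]
    linear_combination (conj (h 0 j) * conj (h 1 j) * h 4 j * h 5 j) * conj_mul_one (hh.unim 3 j)
  have c4 : ∑ j, Y j * conj (h 4 j) = con h 3 5 0 1 := Finset.sum_congr rfl fun j _ => by
    simp only [Y, map_mul]
    linear_combination (conj (h 0 j) * conj (h 1 j) * h 3 j * h 5 j) * conj_mul_one (hh.unim 4 j)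
  have c5 : ∑ j, Y j * conj (h 5 j) = con h 3 4 0 1 := Finset.sum_congr rfl fun j _ => by
    simp only [Y, map_mul]
    linear_combination (conj (h 0 j) * conj (h 1 j) * h 3 j * h 4 j) * conj_mul_one (hh.unim 5 j)
  have a3 := (con_nine hh hf (Equiv.swap 2 4 * Equiv.swap 3 5)).1
  have a4 := (con_nine hh hf (Equiv.swap 2 3 * Equiv.swap 3 5)).1
  have a5 := (con_nine hh hf (Equiv.swap 2 3 * Equiv.swap 3 4)).1
  simp (config := { decide := true }) [Equiv.Perm.mul_apply, Equiv.swap_apply_def] at a3 a4 a5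
  rw [t, c3, c4, c5, Complex.normSq_conj, tri_nine hh hf, normSq_swap, normSq_swap 0 1,
    normSq_swap 0 1, a3, a4, a5] at P
  have z : Complex.normSq (∑ j, Y j * conj (h 0 j)) = 0 := by
    have := Complex.normSq_nonneg (∑ j, Y j * conj (h 0 j))
    have := Complex.normSq_nonneg (∑ j, Y j * conj (h 1 j))
    linarith
  have := congrArg conj (Complex.normSq_eq_zero.1 z)
  rw [map_zero, map_sum] at this
  rw [← this]
  exact Finset.sum_congr rfl fun j _ => by simp only [Y, map_mul, Complex.conj_conj]; ring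

/-- The two products of shape `00|1m`, `0m|11` agree for `m = 2, 3`. -/
lemma two_three (hh : DReg h) (hf : RowsFull h) :
    con h 0 0 1 2 * con h 2 0 1 1 = con h 0 0 1 3 * con h 3 0 1 1 := by
  have k1 := tri_mul_perm hh hf (ofVals ![0, 2, 3, 1, 4, 5] (by decide))
  have k2 := tri_mul_perm hh hf (ofVals ![1, 2, 3, 0, 4, 5] (by decide))
  have k3 := tri_mul_perm hh hf (ofVals ![0, 3, 2, 1, 4, 5] (by decide))
  have k4 := tri_mul_perm hh hf (ofVals ![1, 3, 2, 0, 4, 5] (by decide))
  obtain ⟨v2, -, -, -⟩ := pair_eq_perm hh hf (ofVals ![4, 5, 1, 2, 0, 3] (by decide))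
  obtain ⟨v3, -, -, -⟩ := pair_eq_perm hh hf (ofVals ![4, 5, 1, 3, 0, 2] (by decide))
  obtain ⟨-, -, -, pr⟩ := pair_eq_perm hh hf (ofVals ![4, 5, 0, 1, 2, 3] (by decide))
  have t2 := tri_nine hh hf
  have t3 : Complex.normSq (tri h 0 1 3 2 4 5) = 9 := by
    have := tri_nine (dreg_rows hh (Equiv.swap 2 3)) (hf.perm (Equiv.swap 2 3))
    simpa [tri, Equiv.swap_apply_def] using this
  simp [ofVals_apply] at k1 k2 k3 k4 v2 v3 pr
  have k2' := congrArg conj k2
  have k4' := congrArg conj k4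
  have u2 : conj (tri h 0 1 2 3 4 5) * tri h 0 1 2 3 4 5 = 9 := by
    rw [← Complex.normSq_eq_conj_mul_self, t2]; norm_num
  have u3 : conj (tri h 0 1 3 2 4 5) * tri h 0 1 3 2 4 5 = 9 := by
    rw [← Complex.normSq_eq_conj_mul_self, t3]; norm_num
  have w2 : conj (con h 1 2 4 5) * con h 1 2 4 5 = 9 := by
    rw [← Complex.normSq_eq_conj_mul_self, v2]; norm_num
  have w3 : conj (con h 1 3 4 5) * con h 1 3 4 5 = 9 := by
    rw [← Complex.normSq_eq_conj_mul_self, v3]; norm_num
  simp only [map_mul, con_conj] at k2' k4'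
  have r : con h 0 2 4 5 * conj (con h 1 2 4 5) = con h 0 3 4 5 * conj (con h 1 3 4 5) := by
    linear_combination -(1 / 9) * (con h 0 2 4 5 * conj (con h 1 2 4 5)) * w3 +
      (1 / 9) * (conj (con h 1 2 4 5) * conj (con h 1 3 4 5)) * pr +
      (1 / 9) * (con h 0 3 4 5 * conj (con h 1 3 4 5)) * w2
  have s1 : tri h 0 2 1 3 4 5 = tri h 0 1 2 3 4 5 :=
    Finset.sum_congr rfl fun j _ => by ring
  have s2 : tri h 1 2 0 3 4 5 = tri h 0 1 2 3 4 5 :=
    Finset.sum_congr rfl fun j _ => by ring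
  have s3 : tri h 0 3 1 2 4 5 = tri h 0 1 3 2 4 5 :=
    Finset.sum_congr rfl fun j _ => by ring
  have s4 : tri h 1 3 0 2 4 5 = tri h 0 1 3 2 4 5 :=
    Finset.sum_congr rfl fun j _ => by ring
  rw [s1, con_swap' 0 2 1 3] at k1
  rw [s2, con_swap 0 3] at k2'
  rw [s3, con_swap' 0 3 1 2] at k3
  rw [s4, con_swap 0 2] at k4'
  rw [con_conj 1 2 4 5] at r
  rw [con_conj 1 3 4 5] at r
  rw [con_swap 0 2 1 1, con_swap 0 3 1 1]
  have e2 : 9 * (con h 0 0 1 2 * con h 0 2 1 1) =
      (con h 0 3 1 2 * con h 4 5 1 2) * (con h 0 2 1 3 * con h 0 2 4 5) := by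
    rw [← k1, ← k2', ← u2]; ring
  have e3 : 9 * (con h 0 0 1 3 * con h 0 3 1 1) =
      (con h 0 2 1 3 * con h 4 5 1 3) * (con h 0 3 1 2 * con h 0 3 4 5) := by
    rw [← k3, ← k4', ← u3]; ring
  linear_combination (1 / 9) * e2 - (1 / 9) * e3 +
    (1 / 9) * (con h 0 3 1 2 * con h 0 2 1 3) * r

/-- The contraction of shape `000|111` has modulus six. -/
lemma cube_six (hh : DReg h) (hf : RowsFull h) :
    Complex.normSq (∑ j, h 0 j * h 0 j * h 0 j * conj (h 1 j * h 1 j * h 1 j)) = 36 := by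
  have p3 := two_three hh hf
  have p4 := two_three (dreg_rows hh (Equiv.swap 3 4)) (hf.perm (Equiv.swap 3 4))
  have p5 := two_three (dreg_rows hh (Equiv.swap 3 5)) (hf.perm (Equiv.swap 3 5))
  have q4 : con h 0 0 1 2 * con h 2 0 1 1 = con h 0 0 1 4 * con h 4 0 1 1 := by
    simpa [con, Equiv.swap_apply_def] using p4
  have q5 : con h 0 0 1 2 * con h 2 0 1 1 = con h 0 0 1 5 * con h 5 0 1 1 := by
    simpa [con, Equiv.swap_apply_def] using p5
  have E := con_expand hh 0 0 1 0 1 1
  have z0 : con h 0 0 1 0 = 0 := by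
    rw [con_swap' 0 0 0 1]; exact con_cancel hh 0 0 1 (by decide)
  rw [Fin.sum_univ_six, z0, hf.sq hh (by decide : (0 : Fin 6) ≠ 1), ← p3, ← q4, ← q5] at E
  have n1 : Complex.normSq (con h 0 0 1 2) = 9 := by
    have := (con_nine hh hf (Equiv.swap 0 1 * Equiv.swap 1 2)).2
    simp (config := { decide := true }) [Equiv.Perm.mul_apply, Equiv.swap_apply_def] at this
    rw [normSq_swap]; simpa [con, mul_comm] using this
  have n2 : Complex.normSq (con h 2 0 1 1) = 9 := by
    have := (con_nine hh hf (Equiv.swap 1 2)).2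
    simp (config := { decide := true }) [Equiv.swap_apply_def] at this
    rw [con_swap 0 2]; exact this
  have E2 : 4 * (con h 0 0 1 2 * con h 2 0 1 1) =
      6 * ∑ j, h 0 j * h 0 j * h 0 j * conj (h 1 j * h 1 j * h 1 j) := by
    linear_combination E
  have := congrArg Complex.normSq E2
  rw [map_mul, map_mul, map_mul, n1, n2, Complex.normSq_ofNat, Complex.normSq_ofNat] at this
  linarith

/-- The contraction of shape `000|112` vanishes. -/
lemma zero_A (hh : DReg h) (hf : RowsFull h) :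
    ∑ j, h 0 j * h 0 j * h 0 j * conj (h 1 j * h 1 j * h 2 j) = 0 := by
  set Y : Fin 6 → ℂ := fun j => h 0 j * h 0 j * h 0 j * conj (h 1 j * h 1 j)
  have hY : ∀ j, conj (Y j) * Y j = 1 := fun j => by
    have := conj_mul_one (hh.unim 0 j)
    have := conj_mul_one (hh.unim 1 j)
    simp only [Y, map_mul, Complex.conj_conj]
    grind
  have P := parseval_rows hh Y hY
  rw [Fin.sum_univ_six] at P
  have c1 : ∑ j, Y j * conj (h 1 j) =
      ∑ j, h 0 j * h 0 j * h 0 j * conj (h 1 j * h 1 j * h 1 j) :=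
    Finset.sum_congr rfl fun j _ => by simp only [Y, map_mul]; ring
  rw [c1, cube_six hh hf] at P
  have z : Complex.normSq (∑ j, Y j * conj (h 2 j)) = 0 := by
    have := Complex.normSq_nonneg (∑ j, Y j * conj (h 0 j))
    have := Complex.normSq_nonneg (∑ j, Y j * conj (h 2 j))
    have := Complex.normSq_nonneg (∑ j, Y j * conj (h 3 j))
    have := Complex.normSq_nonneg (∑ j, Y j * conj (h 4 j))
    have := Complex.normSq_nonneg (∑ j, Y j * conj (h 5 j))
    linarith
  rw [← Complex.normSq_eq_zero.1 z]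
  exact Finset.sum_congr rfl fun j _ => by simp only [Y, map_mul]; ring

end Vale.Agent.P355.Seven
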