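import Mathlib
import Vale.Agent.P355.Seven.CaseA
import Vale.Agent.P355.Seven.Zero

/-!
The case split: a doubly regular matrix which is not flat has vanishing contractions of squared
rows, once one nonzero contraction of three rows forces all of them to be nonzero.
-/

namespace Vale.Agent.P355.Seven

open scoped ComplexConjugate BigOperators

/-- The contraction of three rows against the other three. -/
noncomputable def tauRow (h : Fin 6 → Fin 6 → ℂ) (s : Equiv.Perm (Fin 6)) : ℂ :=
  ∑ j, h (s 0) j * h (s 1) j * h (s 2) j * conj (h (s 3) j * h (s 4) j * h (s 5) j)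

/-- Rows of squares are orthogonal as soon as columns of squares are. -/
lemma sq_rows_of_sq_cols {h : Fin 6 → Fin 6 → ℂ} (hh : DReg h)
    (hc : ∀ j k, j ≠ k → ∑ i, conj (h i j ^ 2) * h i k ^ 2 = 0) {a b : Fin 6} (hab : a ≠ b) :
    ∑ j, h a j ^ 2 * conj (h b j ^ 2) = 0 := by
  let X : Matrix (Fin 6) (Fin 6) ℂ := Matrix.of fun i j => h i j ^ 2
  have e : ((6 : ℂ)⁻¹ • X.conjTranspose) * X = 1 := by
    ext j k
    simp only [Matrix.smul_mul, Matrix.smul_apply, Matrix.mul_apply, Matrix.conjTranspose_apply,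
      Matrix.of_apply, RCLike.star_def, smul_eq_mul, X, mul_assoc]
    by_cases hjk : j = k
    · subst hjk
      have : ∀ i, conj (h i j ^ 2) * h i j ^ 2 = 1 := fun i => by
        rw [map_pow, ← mul_pow, conj_mul_one (hh.unim i j), one_pow]
      simp only [mul_assoc, this]
      simp
    · rw [Matrix.one_apply_ne hjk, ← Finset.mul_sum, hc j k hjk, mul_zero]
  have e2 : X * ((6 : ℂ)⁻¹ • X.conjTranspose) = 1 := mul_eq_one_comm.1 e
  have e' := congrFun (congrFun e2 a) b
  rw [Matrix.one_apply_ne hab] at e'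
  simpa [Matrix.mul_apply, X, mul_left_comm _ (6 : ℂ)⁻¹, ← Finset.mul_sum] using e'

/-- Outside the flat case the contractions of squared rows vanish. -/
theorem sq_rows_of_not_flat {h : Fin 6 → Fin 6 → ℂ} (hh : DReg h)
    (hprop : ∀ {k : Fin 6 → Fin 6 → ℂ}, DReg k →
      (∃ s, tauRow k s ≠ 0) → ∀ s, tauRow k s ≠ 0)
    (hf : ¬ TauFlat h) {a b : Fin 6} (hab : a ≠ b) :
    ∑ j, h a j ^ 2 * conj (h b j ^ 2) = 0 := by
  simp only [TauFlat, not_forall, not_and_or] at hf
  obtain ⟨s, hs | hs⟩ := hf
  · exact sq_con_eq_zero hh (hprop hh ⟨s, hs⟩) hab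
  · have ht : DReg (hT h) := dreg_hT hh
    have hr : tauRow (hT h) s ≠ 0 := by
      refine fun h0 => hs ?_
      have := congrArg conj h0
      rw [map_zero] at this
      rw [← this, tauRow, map_sum]
      refine Finset.sum_congr rfl fun i _ => ?_
      simp [hT, mul_comm, mul_left_comm]
    refine sq_rows_of_sq_cols hh (fun j k hjk => ?_) hab
    rw [← sq_con_eq_zero ht (hprop ht ⟨s, hr⟩) hjk]
    exact Finset.sum_congr rfl fun i _ => by simp [hT]

end Vale.Agent.P355.Seven
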