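import Mathlib
import Vale.Agent.P355.Seven.Sym

/-!
The squared contractions of three rows against the other three have the same total as those of
three columns against the other three.
-/

namespace Vale.Agent.P355.Seven

open scoped ComplexConjugate BigOperators

/-- A sum over the twenty splittings of six points into two triples. -/
noncomputable def sum20 (F : Fin 6 → Fin 6 → Fin 6 → Fin 6 → Fin 6 → Fin 6 → ℂ) : ℂ :=
    F 0 1 2 3 4 5 + F 0 1 3 2 4 5 + F 0 1 4 2 3 5 + F 0 1 5 2 3 4 + F 0 2 3 1 4 5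
    + F 0 2 4 1 3 5 + F 0 2 5 1 3 4 + F 0 3 4 1 2 5 + F 0 3 5 1 2 4 + F 0 4 5 1 2 3
    + F 1 2 3 0 4 5 + F 1 2 4 0 3 5 + F 1 2 5 0 3 4 + F 1 3 4 0 2 5 + F 1 3 5 0 2 4
    + F 1 4 5 0 2 3 + F 2 3 4 0 1 5 + F 2 3 5 0 1 4 + F 2 4 5 0 1 3 + F 3 4 5 0 1 2

/-- The elementary symmetric polynomials of degrees two, three and four. -/
noncomputable def es2 (x : Fin 6 → ℂ) : ℂ :=
    x 0 * x 1 + x 0 * x 2 + x 0 * x 3 + x 0 * x 4 + x 0 * x 5 + x 1 * x 2 + x 1 * x 3
    + x 1 * x 4 + x 1 * x 5 + x 2 * x 3 + x 2 * x 4 + x 2 * x 5 + x 3 * x 4 + x 3 * x 5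
    + x 4 * x 5

/-- The elementary symmetric polynomial of degree three. -/
noncomputable def es3 (x : Fin 6 → ℂ) : ℂ :=
    x 0 * x 1 * x 2 + x 0 * x 1 * x 3 + x 0 * x 1 * x 4 + x 0 * x 1 * x 5 + x 0 * x 2 * x 3
    + x 0 * x 2 * x 4 + x 0 * x 2 * x 5 + x 0 * x 3 * x 4 + x 0 * x 3 * x 5 + x 0 * x 4 * x 5
    + x 1 * x 2 * x 3 + x 1 * x 2 * x 4 + x 1 * x 2 * x 5 + x 1 * x 3 * x 4 + x 1 * x 3 * x 5
    + x 1 * x 4 * x 5 + x 2 * x 3 * x 4 + x 2 * x 3 * x 5 + x 2 * x 4 * x 5 + x 3 * x 4 * x 5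

/-- The elementary symmetric polynomial of degree four. -/
noncomputable def es4 (x : Fin 6 → ℂ) : ℂ :=
    x 0 * x 1 * x 2 * x 3 + x 0 * x 1 * x 2 * x 4 + x 0 * x 1 * x 2 * x 5
    + x 0 * x 1 * x 3 * x 4 + x 0 * x 1 * x 3 * x 5 + x 0 * x 1 * x 4 * x 5
    + x 0 * x 2 * x 3 * x 4 + x 0 * x 2 * x 3 * x 5 + x 0 * x 2 * x 4 * x 5
    + x 0 * x 3 * x 4 * x 5 + x 1 * x 2 * x 3 * x 4 + x 1 * x 2 * x 3 * x 5
    + x 1 * x 2 * x 4 * x 5 + x 1 * x 3 * x 4 * x 5 + x 2 * x 3 * x 4 * x 5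

/-- The elementary symmetric polynomial of degree five. -/
noncomputable def es5 (x : Fin 6 → ℂ) : ℂ :=
    x 0 * x 1 * x 2 * x 3 * x 4 + x 0 * x 1 * x 2 * x 3 * x 5 + x 0 * x 1 * x 2 * x 4 * x 5
    + x 0 * x 1 * x 3 * x 4 * x 5 + x 0 * x 2 * x 3 * x 4 * x 5 + x 1 * x 2 * x 3 * x 4 * x 5

/-- Triples against triples of six unimodular numbers. -/
noncomputable def triF (x : Fin 6 → ℂ) : ℂ :=
  sum20 fun a b c d e f => x a * x b * x c * conj (x d * x e * x f)

/-- The value in power sums. -/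
noncomputable def powF (x : Fin 6 → ℂ) : ℂ :=
  (∑ a, x a ^ 3) * conj (∑ a, x a ^ 3) / 9 - (∑ a, x a ^ 2) * conj (∑ a, x a ^ 2) / 2 - 2

lemma triF_eq (x : Fin 6 → ℂ) (hu : ∀ a, conj (x a) * x a = 1) (h1 : ∑ a, x a = 0) :
    triF x = powF x := by
  have e1 : x 0 + x 1 + x 2 + x 3 + x 4 + x 5 = 0 := by rw [← h1, Fin.sum_univ_six]
  have e1' : conj (x 0) + conj (x 1) + conj (x 2) + conj (x 3) + conj (x 4) + conj (x 5) = 0 := by
    simpa using congrArg conj e1
  have newton2 : ∀ x : Fin 6 → ℂ, x 0 + x 1 + x 2 + x 3 + x 4 + x 5 = 0 →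
      ∑ a, x a ^ 2 = -2 * es2 x := by
    intro x e
    simp only [Fin.sum_univ_six, es2]
    linear_combination (x 0 + x 1 + x 2 + x 3 + x 4 + x 5) * e
  have newton3 : ∀ x : Fin 6 → ℂ, x 0 + x 1 + x 2 + x 3 + x 4 + x 5 = 0 →
      ∑ a, x a ^ 3 = 3 * es3 x := by
    intro x e
    simp only [Fin.sum_univ_six, es3]
    linear_combination ((x 0 + x 1 + x 2 + x 3 + x 4 + x 5) ^ 2 - 3 * (x 0 * x 1 + x 0 * x 2 + x 0 * x 3 + x 0 * x 4 + x 0 * x 5 + x 1 * x 2 + x 1 * x 3
    + x 1 * x 4 + x 1 * x 5 + x 2 * x 3 + x 2 * x 4 + x 2 * x 5 + x 3 * x 4 + x 3 * x 5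
    + x 4 * x 5)) * e
  have hn : ∀ a, x a ≠ 0 := fun a h0 => by simpa [h0] using hu a
  have hi : ∀ a, conj (x a) = (x a)⁻¹ := fun a => eq_inv_of_mul_eq_one_left (hu a)
  rw [powF, map_sum, map_sum]
  simp only [map_pow]
  rw [newton2 x e1, newton3 x e1, newton2 (fun a => conj (x a)) e1',
    newton3 (fun a => conj (x a)) e1']
  set P : ℂ := x 0 * x 1 * x 2 * x 3 * x 4 * x 5 with hP
  have hP0 : P ≠ 0 := by simp [P, hn]
  have c3 : es3 (fun a => conj (x a)) * P = es3 x := by
    simp only [es3, hi, P]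
    field_simp [hn]
    ring
  have c2 : es2 (fun a => conj (x a)) * P = es4 x := by
    simp only [es2, es4, hi, P]
    field_simp [hn]
    ring
  have sq : triF x * P = es3 (fun a => x a ^ 2) := by
    simp only [triF, sum20, es3, map_mul, hi, P]
    field_simp [hn]
  have key : es3 (fun a => x a ^ 2) = es3 x ^ 2 - 2 * es2 x * es4 x - 2 * P +
      2 * (x 0 + x 1 + x 2 + x 3 + x 4 + x 5) * es5 x := by
    simp only [es2, es3, es4, es5, P]
    ring
  rw [e1] at key
  apply mul_right_cancel₀ hP0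
  linear_combination sq + key - (es3 x) * c3 + 2 * (es2 x) * c2

/-- The total of the squared contractions of three rows against the other three. -/
noncomputable def triTotal (h : Fin 6 → Fin 6 → ℂ) : ℂ :=
  sum20 fun a b c d e f => (∑ j, h a j * h b j * h c j * conj (h d j * h e j * h f j)) *
    conj (∑ j, h a j * h b j * h c j * conj (h d j * h e j * h f j))

lemma sum20_sum (G : Fin 6 → Fin 6 → Fin 6 → Fin 6 → Fin 6 → Fin 6 → Fin 6 → Fin 6 → ℂ) :
    sum20 (fun a b c d e f => ∑ j, ∑ k, G j k a b c d e f) = ∑ j, ∑ k, sum20 (G j k) := by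
  simp only [sum20, Finset.sum_add_distrib]

attribute [local irreducible] sum20

lemma trace_swap (X : Fin 6 → Fin 6 → ℂ) :
    ∑ j, ∑ k, (∑ a, X a j * conj (X a k)) * conj (∑ a, X a j * conj (X a k)) =
      ∑ a, ∑ b, (∑ j, X a j * conj (X b j)) * conj (∑ j, X a j * conj (X b j)) := by
  simp only [map_sum, Finset.sum_mul_sum]
  rw [Finset.sum_comm_cycle, Finset.sum_congr rfl fun a _ => Finset.sum_comm_cycle]
  refine Finset.sum_congr rfl fun a _ => Finset.sum_congr rfl fun b _ => ?_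
  refine Finset.sum_congr rfl fun j _ => Finset.sum_congr rfl fun k _ => ?_
  simp only [map_mul, Complex.conj_conj]
  ring

lemma triTotal_eq {h : Fin 6 → Fin 6 → ℂ} (hh : DReg h) :
    triTotal h = ∑ j, ∑ k, powF (fun a => h a j * conj (h a k)) + 216 := by
  have e : triTotal h = ∑ j, ∑ k, triF (fun a => h a j * conj (h a k)) := by
    have t : ∀ a b c d e f : Fin 6,
        (∑ j, h a j * h b j * h c j * conj (h d j * h e j * h f j)) *
          conj (∑ j, h a j * h b j * h c j * conj (h d j * h e j * h f j)) =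
        ∑ j, ∑ k, h a j * conj (h a k) * (h b j * conj (h b k)) * (h c j * conj (h c k)) *
          conj (h d j * conj (h d k) * (h e j * conj (h e k)) * (h f j * conj (h f k))) := by
      intro a b c d e f
      rw [map_sum, Finset.sum_mul_sum]
      refine Finset.sum_congr rfl fun j _ => Finset.sum_congr rfl fun k _ => ?_
      simp only [map_mul, Complex.conj_conj]
      ring
    rw [triTotal]
    simp only [t]
    rw [sum20_sum]
    rfl
  have d : ∀ j k, triF (fun a => h a j * conj (h a k)) =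
      powF (fun a => h a j * conj (h a k)) + if j = k then 36 else 0 := by
    intro j k
    split_ifs with hjk
    · subst hjk
      have o : ∀ a, h a j * conj (h a j) = 1 := fun a => by
        rw [mul_comm]; exact conj_mul_one (hh.unim a j)
      simp only [triF, powF, sum20, o, map_one, mul_one, one_pow, Finset.sum_const,
        Finset.card_univ, Fintype.card_fin, map_natCast, nsmul_eq_mul, Nat.cast_ofNat,
        Complex.conj_ofNat]
      norm_num
    · rw [add_zero]
      refine triF_eq _ (fun a => ?_) ?_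
      · simp only [map_mul, Complex.conj_conj]
        linear_combination (conj (h a k) * h a k) * conj_mul_one (hh.unim a j) +
          conj_mul_one (hh.unim a k)
      · have := hh.cols k j
        rw [if_neg (Ne.symm hjk)] at this
        rw [← this]
        exact Finset.sum_congr rfl fun a _ => mul_comm _ _
  simp only [e, d, Finset.sum_add_distrib, Finset.sum_ite_eq, Finset.mem_univ, if_true]
  simp
  norm_num

/-- Rows and columns have the same total. -/
theorem triTotal_hT {h : Fin 6 → Fin 6 → ℂ} (hh : DReg h) : triTotal (hT h) = triTotal h := by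
  rw [triTotal_eq hh, triTotal_eq (dreg_hT hh)]
  have L : ∀ n : ℕ,
      ∑ j, ∑ k, (∑ a, (hT h a j * conj (hT h a k)) ^ n) * conj (∑ a, (hT h a j * conj (hT h a k)) ^ n) =
      ∑ j, ∑ k, (∑ a, (h a j * conj (h a k)) ^ n) * conj (∑ a, (h a j * conj (h a k)) ^ n) := by
    intro n
    have t1 : ∀ j k, ∑ a, (h a j * conj (h a k)) ^ n = ∑ a, h a j ^ n * conj (h a k ^ n) :=
      fun j k => Finset.sum_congr rfl fun a _ => by rw [mul_pow, map_pow]
    have t2 : ∀ j k, ∑ a, (hT h a j * conj (hT h a k)) ^ n =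
        conj (∑ a, h j a ^ n * conj (h k a ^ n)) := by
      intro j k
      rw [map_sum]
      refine Finset.sum_congr rfl fun a _ => ?_
      simp only [hT, Complex.conj_conj, mul_pow, map_mul, map_pow]
    simp only [t1, t2, Complex.conj_conj]
    rw [trace_swap fun a j => h a j ^ n]
    exact Finset.sum_congr rfl fun a _ => Finset.sum_congr rfl fun b _ => mul_comm _ _
  simp only [powF, Finset.sum_sub_distrib, ← Finset.sum_div, L]

end Vale.Agent.P355.Seven
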