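import Mathlib
import Vale.Agent.P355.Seven.CaseAZero
import Vale.Agent.P355.Seven.CaseSplit
import Vale.Agent.P355.Seven.ColIdentity
import Vale.Agent.P355.Seven.AFlat

/-!
Outside the flat case the three families of the small certificate vanish, provided one nonzero
contraction of three rows forces all of them to be nonzero.
-/

namespace Vale.Agent.P355.Seven

open scoped ComplexConjugate BigOperators

variable {h : Fin 6 → Fin 6 → ℂ}

lemma rel_rows (hh : DReg h) (hf : RowsFull h) (s : Equiv.Perm (Fin 6)) :
    gVal h (([0, 0] : List (Fin 6)).map s) (([1, 1] : List (Fin 6)).map s) = 0 ∧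
    gVal h (([0, 0, 0] : List (Fin 6)).map s) (([1, 1, 2] : List (Fin 6)).map s) = 0 ∧
    gVal h (([0, 0, 1] : List (Fin 6)).map s) (([3, 4, 5] : List (Fin 6)).map s) = 0 := by
  have hs := dreg_rows hh s
  have A := hf.sq hh (fun e => absurd (s.injective e) (by decide) : s 0 ≠ s 1)
  have B := zero_A hs (hf.perm s)
  have C := zero_B hs (hf.perm s)
  refine ⟨?_, ?_, ?_⟩
  · rw [← A]
    exact Finset.sum_congr rfl fun j _ => by simp
  · rw [← B]
    exact Finset.sum_congr rfl fun j _ => by simp; ring
  · rw [← C]
    exact Finset.sum_congr rfl fun j _ => by simp; ring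

/-- With all row and all column contractions nonzero, the three families vanish. -/
theorem aFlat_of_full (hh : DReg h) (hr : RowsFull h) (hc : RowsFull (hT h)) : AFlat h := by
  have hcols : ∀ (P Q : List (Fin 6)) (s : Equiv.Perm (Fin 6)),
      gVal (hT h) (P.map s) (Q.map s) = 0 →
      gVal (fun i j => h j i) (P.map s) (Q.map s) = 0 := fun P Q s e => by
    rw [show (fun i j => h j i) = hC (hT h) from funext fun i => funext fun j => by simp [hC, hT],
      gVal_hC, e, map_zero]
  have R := rel_rows hh hr
  have C := rel_rows (dreg_hT hh) hc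
  exact ⟨fun s => ⟨(R s).1, hcols _ _ s (C s).1⟩,
    fun s => ⟨(R s).2.1, hcols _ _ s (C s).2.1⟩,
    fun s => ⟨(R s).2.2, hcols _ _ s (C s).2.2⟩⟩

lemma triTotal_eq_zero (hz : ∀ s : Equiv.Perm (Fin 6), tauRow h s = 0) : triTotal h = 0 := by
  have e : ∀ a b c d e f : Fin 6, Function.Bijective ![a, b, c, d, e, f] →
      ∑ j, h a j * h b j * h c j * conj (h d j * h e j * h f j) = 0 := by
    intro a b c d e f hb
    have := hz (ofVals ![a, b, c, d, e, f] hb)
    simpa [tauRow, ofVals_apply] using this
  simp only [triTotal, sum20]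
  simp (discharger := decide) only [e, zero_mul, add_zero]

/-- All rows full gives some column contraction nonzero. -/
lemma exists_col (hh : DReg h) (hr : RowsFull h) : ∃ s, tauRow (hT h) s ≠ 0 := by
  by_contra hn
  push Not at hn
  have h0 := triTotal_eq_zero hn
  rw [triTotal_hT hh] at h0
  have nine : ∀ a b c d e f : Fin 6, Function.Bijective ![a, b, c, d, e, f] →
      (∑ j, h a j * h b j * h c j * conj (h d j * h e j * h f j)) *
        conj (∑ j, h a j * h b j * h c j * conj (h d j * h e j * h f j)) = 9 := by
    intro a b c d e f hb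
    have t := tri_nine (dreg_rows hh (ofVals ![a, b, c, d, e, f] hb))
      (hr.perm (ofVals ![a, b, c, d, e, f] hb))
    rw [Complex.mul_conj]
    simp [tri, ofVals_apply] at t
    simp [t]
  simp only [triTotal, sum20] at h0
  simp (discharger := decide) only [nine] at h0
  norm_num at h0

/-- Outside the flat case the three families vanish, given propagation along rows. -/
theorem aFlat_of_not_flat_of_prop
    (hprop : ∀ {k : Fin 6 → Fin 6 → ℂ}, DReg k → (∃ s, tauRow k s ≠ 0) → ∀ s, tauRow k s ≠ 0)
    (hh : DReg h) (hf : ¬ TauFlat h) : AFlat h := by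
  have hTT : hT (hT h) = h := funext fun i => funext fun j => by simp [hT]
  simp only [TauFlat, not_forall, not_and_or] at hf
  obtain ⟨s, hs | hs⟩ := hf
  · have hr : RowsFull h := hprop hh ⟨s, hs⟩
    exact aFlat_of_full hh hr (hprop (dreg_hT hh) (exists_col hh hr))
  · have hne : tauRow (hT h) s ≠ 0 := by
      refine fun h0 => hs ?_
      have := congrArg conj h0
      rw [map_zero] at this
      rw [← this, tauRow, map_sum]
      refine Finset.sum_congr rfl fun i _ => ?_
      simp [hT, mul_comm, mul_left_comm]
    have hc : RowsFull (hT h) := hprop (dreg_hT hh) ⟨s, hne⟩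
    have hr := exists_col (dreg_hT hh) hc
    rw [hTT] at hr
    exact aFlat_of_full hh (hprop hh hr) hc

end Vale.Agent.P355.Seven
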