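import Mathlib
import Vale.Agent.P355.Seven.Tau

/-!
Identities among contractions of rows which force the contraction of three rows against the other
three to vanish. Each is a combination of expansions in the orthogonal basis of rows.
-/

namespace Vale.Agent.P355.Seven

open scoped ComplexConjugate BigOperators

set_option linter.unusedSimpArgs false

variable {h : Fin 6 → Fin 6 → ℂ}

private lemma zn100001 (hh : DReg h) : gW h (-1) 0 0 0 0 1 = 0 := by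
  simpa [gW, dreg_inv hh, mul_comm] using hh.rows 5 0

private lemma zn100010 (hh : DReg h) : gW h (-1) 0 0 0 1 0 = 0 := by
  simpa [gW, dreg_inv hh, mul_comm] using hh.rows 4 0

private lemma zn101000 (hh : DReg h) : gW h (-1) 0 1 0 0 0 = 0 := by
  simpa [gW, dreg_inv hh, mul_comm] using hh.rows 2 0

private lemma zn110000 (hh : DReg h) : gW h (-1) 1 0 0 0 0 = 0 := by
  simpa [gW, dreg_inv hh, mul_comm] using hh.rows 1 0

private lemma z0n10001 (hh : DReg h) : gW h 0 (-1) 0 0 0 1 = 0 := by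
  simpa [gW, dreg_inv hh, mul_comm] using hh.rows 5 1

private lemma z0n10010 (hh : DReg h) : gW h 0 (-1) 0 0 1 0 = 0 := by
  simpa [gW, dreg_inv hh, mul_comm] using hh.rows 4 1

private lemma z0n10100 (hh : DReg h) : gW h 0 (-1) 0 1 0 0 = 0 := by
  simpa [gW, dreg_inv hh, mul_comm] using hh.rows 3 1

private lemma z0n11000 (hh : DReg h) : gW h 0 (-1) 1 0 0 0 = 0 := by
  simpa [gW, dreg_inv hh, mul_comm] using hh.rows 2 1

private lemma z00n1001 (hh : DReg h) : gW h 0 0 (-1) 0 0 1 = 0 := by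
  simpa [gW, dreg_inv hh, mul_comm] using hh.rows 5 2

private lemma z00n1010 (hh : DReg h) : gW h 0 0 (-1) 0 1 0 = 0 := by
  simpa [gW, dreg_inv hh, mul_comm] using hh.rows 4 2

private lemma z00n1100 (hh : DReg h) : gW h 0 0 (-1) 1 0 0 = 0 := by
  simpa [gW, dreg_inv hh, mul_comm] using hh.rows 3 2

private lemma z000n101 (hh : DReg h) : gW h 0 0 0 (-1) 0 1 = 0 := by
  simpa [gW, dreg_inv hh, mul_comm] using hh.rows 5 3

private lemma z000n110 (hh : DReg h) : gW h 0 0 0 (-1) 1 0 = 0 := by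
  simpa [gW, dreg_inv hh, mul_comm] using hh.rows 4 3

private lemma z0000n11 (hh : DReg h) : gW h 0 0 0 0 (-1) 1 = 0 := by
  simpa [gW, dreg_inv hh, mul_comm] using hh.rows 5 4

private lemma z00001n1 (hh : DReg h) : gW h 0 0 0 0 1 (-1) = 0 := by
  simpa [gW, dreg_inv hh, mul_comm] using hh.rows 4 5

private lemma z0001n10 (hh : DReg h) : gW h 0 0 0 1 (-1) 0 = 0 := by
  simpa [gW, dreg_inv hh, mul_comm] using hh.rows 3 4

private lemma z00010n1 (hh : DReg h) : gW h 0 0 0 1 0 (-1) = 0 := by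
  simpa [gW, dreg_inv hh, mul_comm] using hh.rows 3 5

private lemma z001n100 (hh : DReg h) : gW h 0 0 1 (-1) 0 0 = 0 := by
  simpa [gW, dreg_inv hh, mul_comm] using hh.rows 2 3

private lemma z0010n10 (hh : DReg h) : gW h 0 0 1 0 (-1) 0 = 0 := by
  simpa [gW, dreg_inv hh, mul_comm] using hh.rows 2 4

private lemma z00100n1 (hh : DReg h) : gW h 0 0 1 0 0 (-1) = 0 := by
  simpa [gW, dreg_inv hh, mul_comm] using hh.rows 2 5

private lemma z01n1000 (hh : DReg h) : gW h 0 1 (-1) 0 0 0 = 0 := by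
  simpa [gW, dreg_inv hh, mul_comm] using hh.rows 1 2

private lemma z010n100 (hh : DReg h) : gW h 0 1 0 (-1) 0 0 = 0 := by
  simpa [gW, dreg_inv hh, mul_comm] using hh.rows 1 3

private lemma z0100n10 (hh : DReg h) : gW h 0 1 0 0 (-1) 0 = 0 := by
  simpa [gW, dreg_inv hh, mul_comm] using hh.rows 1 4

private lemma z01000n1 (hh : DReg h) : gW h 0 1 0 0 0 (-1) = 0 := by
  simpa [gW, dreg_inv hh, mul_comm] using hh.rows 1 5

private lemma z1n10000 (hh : DReg h) : gW h 1 (-1) 0 0 0 0 = 0 := by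
  simpa [gW, dreg_inv hh, mul_comm] using hh.rows 0 1

private lemma z10n1000 (hh : DReg h) : gW h 1 0 (-1) 0 0 0 = 0 := by
  simpa [gW, dreg_inv hh, mul_comm] using hh.rows 0 2

private lemma z100n100 (hh : DReg h) : gW h 1 0 0 (-1) 0 0 = 0 := by
  simpa [gW, dreg_inv hh, mul_comm] using hh.rows 0 3

private lemma z1000n10 (hh : DReg h) : gW h 1 0 0 0 (-1) 0 = 0 := by
  simpa [gW, dreg_inv hh, mul_comm] using hh.rows 0 4

private lemma z10000n1 (hh : DReg h) : gW h 1 0 0 0 0 (-1) = 0 := by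
  simpa [gW, dreg_inv hh, mul_comm] using hh.rows 0 5

private lemma e0 (hh : DReg h) :
    (gW h 0 0 0 (-1) (-1) 2) * (gW h 1 1 0 0 0 (-2))
      + (gW h 0 0 1 (-1) (-1) 1) * (gW h 1 1 (-1) 0 0 (-1))
      - 6 * (gW h 1 1 0 (-1) (-1) 0) = 0 := by
  have E := gW_expand hh 1 1 0 0 0 (-1)
    0 0 0 (-1) (-1) 1
  norm_num at E
  simp only [z000n101 hh, z0000n11 hh, z01000n1 hh, z10000n1 hh, mul_zero, zero_mul, add_zero, zero_add] at E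
  linear_combination E

private lemma e1 (hh : DReg h) :
    (gW h 0 0 0 (-1) (-1) 2) * (gW h 1 1 (-1) 0 0 (-1))
      + (gW h 0 0 1 (-1) (-1) 1) * (gW h 1 1 (-2) 0 0 0)
      - 6 * (gW h 1 1 (-1) (-1) (-1) 1) = 0 := by
  have E := gW_expand hh 1 1 (-1) 0 0 0
    0 0 0 (-1) (-1) 1
  norm_num at E
  simp only [z000n101 hh, z0000n11 hh, z01n1000 hh, z10n1000 hh, mul_zero, zero_mul, add_zero, zero_add] at E
  linear_combination E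

private lemma e2 (hh : DReg h) :
    (gW h 0 0 (-1) 1 1 (-1)) * (gW h 1 1 0 0 (-2) 0)
      + (gW h 0 0 (-1) 2 0 (-1)) * (gW h 1 1 0 (-1) (-1) 0)
      - 6 * (gW h 1 1 (-1) 1 (-1) (-1)) = 0 := by
  have E := gW_expand hh 1 1 0 0 (-1) 0
    0 0 (-1) 1 0 (-1)
  norm_num at E
  simp only [z00n1100 hh, z00010n1 hh, z0100n10 hh, z1000n10 hh, mul_zero, zero_mul, add_zero, zero_add] at E
  linear_combination E

private lemma e3 (hh : DReg h) :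
    (gW h 0 0 (-1) (-1) 1 1) * (gW h 1 1 0 0 0 (-2))
      + (gW h 0 0 (-1) (-1) 2 0) * (gW h 1 1 0 0 (-1) (-1))
      - 6 * (gW h 1 1 (-1) (-1) 1 (-1)) = 0 := by
  have E := gW_expand hh 1 1 0 0 0 (-1)
    0 0 (-1) (-1) 1 0
  norm_num at E
  simp only [z00n1010 hh, z000n110 hh, z01000n1 hh, z10000n1 hh, mul_zero, zero_mul, add_zero, zero_add] at E
  linear_combination E

private lemma e4 (hh : DReg h) :
    (gW h 0 0 (-1) 1 1 (-1)) * (gW h 1 1 0 (-1) (-1) 0)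
      + (gW h 0 0 (-1) 2 0 (-1)) * (gW h 1 1 0 (-2) 0 0)
      - 6 * (gW h 1 1 (-1) 0 0 (-1)) = 0 := by
  have E := gW_expand hh 1 1 0 (-1) 0 0
    0 0 (-1) 1 0 (-1)
  norm_num at E
  simp only [z00n1100 hh, z00010n1 hh, z010n100 hh, z100n100 hh, mul_zero, zero_mul, add_zero, zero_add] at E
  linear_combination E

private lemma e5 (hh : DReg h) :
    (gW h 0 0 (-1) 0 2 (-1)) * (gW h 1 1 0 (-1) (-1) 0)
      + (gW h 0 0 (-1) 1 1 (-1)) * (gW h 1 1 0 (-2) 0 0)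
      - 6 * (gW h 1 1 (-1) (-1) 1 (-1)) = 0 := by
  have E := gW_expand hh 1 1 0 (-1) 0 0
    0 0 (-1) 0 1 (-1)
  norm_num at E
  simp only [z00n1010 hh, z00001n1 hh, z010n100 hh, z100n100 hh, mul_zero, zero_mul, add_zero, zero_add] at E
  linear_combination E

private lemma e6 (hh : DReg h) :
    (gW h 0 0 (-1) 0 2 (-1)) * (gW h 1 1 0 0 (-2) 0)
      + (gW h 0 0 (-1) 1 1 (-1)) * (gW h 1 1 0 (-1) (-1) 0)
      - 6 * (gW h 1 1 (-1) 0 0 (-1)) = 0 := by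
  have E := gW_expand hh 1 1 0 0 (-1) 0
    0 0 (-1) 0 1 (-1)
  norm_num at E
  simp only [z00n1010 hh, z00001n1 hh, z0100n10 hh, z1000n10 hh, mul_zero, zero_mul, add_zero, zero_add] at E
  linear_combination E

private lemma e7 (hh : DReg h) :
    (gW h 0 0 (-1) (-1) 0 2) * (gW h 1 1 0 0 0 (-2))
      + (gW h 0 0 (-1) (-1) 1 1) * (gW h 1 1 0 0 (-1) (-1))
      - 6 * (gW h 1 1 (-1) (-1) 0 0) = 0 := by
  have E := gW_expand hh 1 1 0 0 0 (-1)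
    0 0 (-1) (-1) 0 1
  norm_num at E
  simp only [z00n1001 hh, z000n101 hh, z01000n1 hh, z10000n1 hh, mul_zero, zero_mul, add_zero, zero_add] at E
  linear_combination E

private lemma e8 (hh : DReg h) :
    (gW h 0 0 1 (-1) (-1) 1) * (gW h 1 1 (-1) 0 0 (-1))
      + (gW h 0 0 2 (-1) (-1) 0) * (gW h 1 1 (-2) 0 0 0)
      - 6 * (gW h 1 1 0 (-1) (-1) 0) = 0 := by
  have E := gW_expand hh 1 1 (-1) 0 0 0
    0 0 1 (-1) (-1) 0
  norm_num at E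
  simp only [z001n100 hh, z0010n10 hh, z01n1000 hh, z10n1000 hh, mul_zero, zero_mul, add_zero, zero_add] at E
  linear_combination E

private lemma e9 (hh : DReg h) :
    (gW h 0 0 1 (-1) (-1) 1) * (gW h 1 1 0 0 0 (-2))
      + (gW h 0 0 2 (-1) (-1) 0) * (gW h 1 1 (-1) 0 0 (-1))
      - 6 * (gW h 1 1 1 (-1) (-1) (-1)) = 0 := by
  have E := gW_expand hh 1 1 0 0 0 (-1)
    0 0 1 (-1) (-1) 0
  norm_num at E
  simp only [z001n100 hh, z0010n10 hh, z01000n1 hh, z10000n1 hh, mul_zero, zero_mul, add_zero, zero_add] at E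
  linear_combination E

private lemma e10 (hh : DReg h) :
    (gW h 0 0 (-1) (-1) 0 2) * (gW h 1 1 0 0 (-1) (-1))
      + (gW h 0 0 (-1) (-1) 1 1) * (gW h 1 1 0 0 (-2) 0)
      - 6 * (gW h 1 1 (-1) (-1) (-1) 1) = 0 := by
  have E := gW_expand hh 1 1 0 0 (-1) 0
    0 0 (-1) (-1) 0 1
  norm_num at E
  simp only [z00n1001 hh, z000n101 hh, z0100n10 hh, z1000n10 hh, mul_zero, zero_mul, add_zero, zero_add] at E
  linear_combination E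

private lemma e11 (hh : DReg h) :
    (gW h 0 0 (-1) (-1) 1 1) * (gW h 1 1 0 0 (-1) (-1))
      + (gW h 0 0 (-1) (-1) 2 0) * (gW h 1 1 0 0 (-2) 0)
      - 6 * (gW h 1 1 (-1) (-1) 0 0) = 0 := by
  have E := gW_expand hh 1 1 0 0 (-1) 0
    0 0 (-1) (-1) 1 0
  norm_num at E
  simp only [z00n1010 hh, z000n110 hh, z0100n10 hh, z1000n10 hh, mul_zero, zero_mul, add_zero, zero_add] at E
  linear_combination E

private lemma e12 (hh : DReg h) :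
    (gW h (-2) 1 1 0 0 0) * (gW h 2 (-1) 0 0 (-1) 0)
      + (gW h (-1) 1 1 (-1) 0 0) * (gW h 1 (-1) 0 1 (-1) 0)
      + (gW h (-1) 1 1 0 0 (-1)) * (gW h 1 (-1) 0 0 (-1) 1) = 0 := by
  have E := gW_expand hh (-1) 1 1 0 0 0
    1 (-1) 0 0 (-1) 0
  norm_num at E
  simp only [zn101000 hh, zn110000 hh, z0010n10 hh, z1n10000 hh, z1000n10 hh, mul_zero, zero_mul, add_zero, zero_add] at E
  linear_combination E

private lemma e13 (hh : DReg h) :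
    (gW h 0 1 (-1) 0 (-1) 1) * (gW h 1 0 1 0 (-1) (-1))
      + (gW h 0 1 (-1) 1 (-1) 0) * (gW h 1 0 1 (-1) (-1) 0)
      + (gW h 0 2 (-1) 0 (-1) 0) * (gW h 1 (-1) 1 0 (-1) 0)
      - 6 * (gW h 1 1 0 0 (-2) 0) = 0 := by
  have E := gW_expand hh 1 0 1 0 (-1) 0
    0 1 (-1) 0 (-1) 0
  norm_num at E
  simp only [z0010n10 hh, z01n1000 hh, z0100n10 hh, z1000n10 hh, mul_zero, zero_mul, add_zero, zero_add] at E
  linear_combination E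

private lemma e14 (hh : DReg h) :
    (gW h 0 (-1) 1 (-1) 0 1) * (gW h 1 1 (-1) 0 0 (-1))
      + (gW h 0 (-1) 1 (-1) 1 0) * (gW h 1 1 (-1) 0 (-1) 0)
      + (gW h 0 (-1) 2 (-1) 0 0) * (gW h 1 1 (-2) 0 0 0) = 0 := by
  have E := gW_expand hh 1 1 (-1) 0 0 0
    0 (-1) 1 (-1) 0 0
  norm_num at E
  simp only [z0n11000 hh, z001n100 hh, z01n1000 hh, z10n1000 hh, z100n100 hh, mul_zero, zero_mul, add_zero, zero_add] at E
  linear_combination E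

private lemma e15 (hh : DReg h) :
    (gW h (-1) 1 1 0 0 (-1)) * (gW h 2 0 0 (-1) (-1) 0)
      + (gW h 0 1 1 0 0 (-2)) * (gW h 1 0 0 (-1) (-1) 1)
      - 6 * (gW h 1 1 1 (-1) (-1) (-1)) = 0 := by
  have E := gW_expand hh 0 1 1 0 0 (-1)
    1 0 0 (-1) (-1) 0
  norm_num at E
  simp only [z00100n1 hh, z01000n1 hh, z100n100 hh, z1000n10 hh, mul_zero, zero_mul, add_zero, zero_add] at E
  linear_combination E

private lemma e16 (hh : DReg h) :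
    (gW h 0 1 (-1) (-1) 0 1) * (gW h 1 (-1) 1 0 0 (-1))
      + (gW h 0 1 (-1) (-1) 1 0) * (gW h 1 (-1) 1 0 (-1) 0)
      + (gW h 0 2 (-1) (-1) 0 0) * (gW h 1 (-2) 1 0 0 0) = 0 := by
  have E := gW_expand hh 1 (-1) 1 0 0 0
    0 1 (-1) (-1) 0 0
  norm_num at E
  simp only [z0n11000 hh, z01n1000 hh, z010n100 hh, z1n10000 hh, z100n100 hh, mul_zero, zero_mul, add_zero, zero_add] at E
  linear_combination E

private lemma e17 (hh : DReg h) :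
    (gW h (-1) 2 0 0 (-1) 0) * (gW h 1 0 0 (-1) 1 (-1))
      + (gW h 0 0 0 (-1) 2 (-1)) * (gW h 0 2 0 0 (-2) 0)
      + (gW h 0 0 1 (-1) 1 (-1)) * (gW h 0 2 (-1) 0 (-1) 0)
      - 6 * (gW h 0 2 0 (-1) 0 (-1)) = 0 := by
  have E := gW_expand hh 0 2 0 0 (-1) 0
    0 0 0 (-1) 1 (-1)
  norm_num at E
  simp only [z000n110 hh, z00001n1 hh, z0100n10 hh, mul_zero, zero_mul, add_zero, zero_add] at E
  linear_combination E

private lemma e18 (hh : DReg h) :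
    (gW h 1 (-1) 0 1 (-1) 0) * (gW h 1 1 0 (-1) 0 (-1))
      + (gW h 1 0 (-1) 1 (-1) 0) * (gW h 1 0 1 (-1) 0 (-1))
      + (gW h 1 0 0 (-1) 1 (-1)) * (gW h 1 0 0 1 (-2) 0)
      - 6 * (gW h 2 0 0 0 (-1) (-1)) = 0 := by
  have E := gW_expand hh 1 0 0 1 (-1) 0
    1 0 0 (-1) 0 (-1)
  norm_num at E
  simp only [z0001n10 hh, z100n100 hh, z1000n10 hh, z10000n1 hh, mul_zero, zero_mul, add_zero, zero_add] at E
  linear_combination E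

private lemma e19 (hh : DReg h) :
    (gW h 1 (-1) 0 0 (-1) 1) * (gW h 1 1 0 (-1) 0 (-1))
      + (gW h 1 0 (-1) 0 (-1) 1) * (gW h 1 0 1 (-1) 0 (-1))
      + (gW h 1 0 0 (-1) 1 (-1)) * (gW h 1 0 0 0 (-2) 1)
      - 6 * (gW h 2 0 0 (-1) (-1) 0) = 0 := by
  have E := gW_expand hh 1 0 0 0 (-1) 1
    1 0 0 (-1) 0 (-1)
  norm_num at E
  simp only [z0000n11 hh, z100n100 hh, z1000n10 hh, z10000n1 hh, mul_zero, zero_mul, add_zero, zero_add] at E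
  linear_combination E

private lemma e20 (hh : DReg h) :
    (gW h 0 1 0 (-2) 0 1) * (gW h 1 (-1) 1 0 0 (-1))
      + (gW h 0 1 0 (-2) 1 0) * (gW h 1 (-1) 1 0 (-1) 0)
      + (gW h 0 2 0 (-2) 0 0) * (gW h 1 (-2) 1 0 0 0)
      - 6 * (gW h 1 0 1 (-2) 0 0) = 0 := by
  have E := gW_expand hh 1 (-1) 1 0 0 0
    0 1 0 (-2) 0 0
  norm_num at E
  simp only [z0n11000 hh, z010n100 hh, z1n10000 hh, mul_zero, zero_mul, add_zero, zero_add] at E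
  linear_combination E

private lemma e21 (hh : DReg h) :
    (gW h 0 0 0 2 (-1) (-1)) * (gW h 2 0 0 (-2) 0 0)
      + (gW h 0 0 1 1 (-1) (-1)) * (gW h 2 0 (-1) (-1) 0 0)
      + (gW h 0 1 0 1 (-1) (-1)) * (gW h 2 (-1) 0 (-1) 0 0)
      - 6 * (gW h 2 0 0 0 (-1) (-1)) = 0 := by
  have E := gW_expand hh 2 0 0 (-1) 0 0
    0 0 0 1 (-1) (-1)
  norm_num at E
  simp only [z0001n10 hh, z00010n1 hh, z100n100 hh, mul_zero, zero_mul, add_zero, zero_add] at E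
  linear_combination E

private lemma e22 (hh : DReg h) :
    (gW h (-1) 0 1 (-1) 0 1) * (gW h 1 0 1 0 (-1) (-1))
      + (gW h 0 (-1) 1 (-1) 0 1) * (gW h 0 1 1 0 (-1) (-1))
      + (gW h 0 0 1 (-2) 0 1) * (gW h 0 0 1 1 (-1) (-1))
      - 6 * (gW h 0 0 2 (-1) (-1) 0) = 0 := by
  have E := gW_expand hh 0 0 1 (-1) 0 1
    0 0 1 0 (-1) (-1)
  norm_num at E
  simp only [z000n101 hh, z001n100 hh, z0010n10 hh, z00100n1 hh, mul_zero, zero_mul, add_zero, zero_add] at E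
  linear_combination E

private lemma e23 (hh : DReg h) :
    (gW h (-1) 1 0 (-1) 1 0) * (gW h 1 1 0 0 (-1) (-1))
      + (gW h 0 1 (-1) (-1) 1 0) * (gW h 0 1 1 0 (-1) (-1))
      + (gW h 0 1 0 (-2) 1 0) * (gW h 0 1 0 1 (-1) (-1))
      - 6 * (gW h 0 2 0 (-1) 0 (-1)) = 0 := by
  have E := gW_expand hh 0 1 0 (-1) 1 0
    0 1 0 0 (-1) (-1)
  norm_num at E
  simp only [z000n110 hh, z010n100 hh, z0100n10 hh, z01000n1 hh, mul_zero, zero_mul, add_zero, zero_add] at E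
  linear_combination E

private lemma e24 (hh : DReg h) :
    (gW h 0 (-1) 1 0 1 (-1)) * (gW h 1 1 0 0 (-1) (-1))
      + (gW h 0 (-1) 1 1 0 (-1)) * (gW h 1 1 0 (-1) 0 (-1))
      + (gW h 0 (-1) 2 0 0 (-1)) * (gW h 1 1 (-1) 0 0 (-1))
      - 6 * (gW h 1 0 1 0 0 (-2)) = 0 := by
  have E := gW_expand hh 1 1 0 0 0 (-1)
    0 (-1) 1 0 0 (-1)
  norm_num at E
  simp only [z0n11000 hh, z00100n1 hh, z01000n1 hh, z10000n1 hh, mul_zero, zero_mul, add_zero, zero_add] at E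
  linear_combination E

private lemma e25 (hh : DReg h) :
    (gW h (-1) 1 1 (-1) 0 0) * (gW h 2 0 (-1) (-1) 0 0)
      + (gW h 0 1 1 (-1) (-1) 0) * (gW h 1 0 (-1) (-1) 1 0)
      + (gW h 0 1 1 (-1) 0 (-1)) * (gW h 1 0 (-1) (-1) 0 1)
      - 6 * (gW h 1 1 0 (-2) 0 0) = 0 := by
  have E := gW_expand hh 0 1 1 (-1) 0 0
    1 0 (-1) (-1) 0 0
  norm_num at E
  simp only [z001n100 hh, z010n100 hh, z10n1000 hh, z100n100 hh, mul_zero, zero_mul, add_zero, zero_add] at E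
  linear_combination E

private lemma e26 (hh : DReg h) :
    (gW h (-1) 0 2 0 0 (-1)) * (gW h 1 0 0 (-1) (-1) 1)
      + (gW h 0 (-1) 2 0 0 (-1)) * (gW h 0 1 0 (-1) (-1) 1)
      + (gW h 0 0 0 (-1) (-1) 2) * (gW h 0 0 2 0 0 (-2))
      - 6 * (gW h 0 0 2 (-1) (-1) 0) = 0 := by
  have E := gW_expand hh 0 0 2 0 0 (-1)
    0 0 0 (-1) (-1) 1
  norm_num at E
  simp only [z000n101 hh, z0000n11 hh, z00100n1 hh, mul_zero, zero_mul, add_zero, zero_add] at E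
  linear_combination E

private lemma e27 (hh : DReg h) :
    (gW h (-2) 1 1 0 0 0) * (gW h 2 0 0 0 (-2) 0)
      + (gW h (-1) 1 1 (-1) 0 0) * (gW h 1 0 0 1 (-2) 0)
      + (gW h (-1) 1 1 0 0 (-1)) * (gW h 1 0 0 0 (-2) 1)
      - 6 * (gW h 0 1 1 0 (-2) 0) = 0 := by
  have E := gW_expand hh (-1) 1 1 0 0 0
    1 0 0 0 (-2) 0
  norm_num at E
  simp only [zn101000 hh, zn110000 hh, z1000n10 hh, mul_zero, zero_mul, add_zero, zero_add] at E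
  linear_combination E

private lemma e28 (hh : DReg h) :
    (gW h (-1) 0 1 (-1) 1 0) * (gW h 1 0 1 0 (-1) (-1))
      + (gW h 0 (-1) 1 (-1) 1 0) * (gW h 0 1 1 0 (-1) (-1))
      + (gW h 0 0 1 (-2) 1 0) * (gW h 0 0 1 1 (-1) (-1))
      - 6 * (gW h 0 0 2 (-1) 0 (-1)) = 0 := by
  have E := gW_expand hh 0 0 1 (-1) 1 0
    0 0 1 0 (-1) (-1)
  norm_num at E
  simp only [z000n110 hh, z001n100 hh, z0010n10 hh, z00100n1 hh, mul_zero, zero_mul, add_zero, zero_add] at E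
  linear_combination E

private lemma e29 (hh : DReg h) :
    (gW h (-1) 1 1 (-1) 0 0) * (gW h 2 (-1) 0 (-1) 0 0)
      + (gW h 0 1 1 (-1) (-1) 0) * (gW h 1 (-1) 0 (-1) 1 0)
      + (gW h 0 1 1 (-1) 0 (-1)) * (gW h 1 (-1) 0 (-1) 0 1)
      - 6 * (gW h 1 0 1 (-2) 0 0) = 0 := by
  have E := gW_expand hh 0 1 1 (-1) 0 0
    1 (-1) 0 (-1) 0 0
  norm_num at E
  simp only [z001n100 hh, z010n100 hh, z1n10000 hh, z100n100 hh, mul_zero, zero_mul, add_zero, zero_add] at E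
  linear_combination E

private lemma e30 (hh : DReg h) :
    (gW h (-1) 0 1 0 1 (-1)) * (gW h 1 1 0 0 (-1) (-1))
      + (gW h (-1) 0 1 1 0 (-1)) * (gW h 1 1 0 (-1) 0 (-1))
      + (gW h (-1) 0 2 0 0 (-1)) * (gW h 1 1 (-1) 0 0 (-1))
      - 6 * (gW h 0 1 1 0 0 (-2)) = 0 := by
  have E := gW_expand hh 1 1 0 0 0 (-1)
    (-1) 0 1 0 0 (-1)
  norm_num at E
  simp only [zn101000 hh, z00100n1 hh, z01000n1 hh, z10000n1 hh, mul_zero, zero_mul, add_zero, zero_add] at E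
  linear_combination E

private lemma e31 (hh : DReg h) :
    (gW h 0 0 1 (-2) 0 1) * (gW h 1 1 (-1) 0 0 (-1))
      + (gW h 0 0 1 (-2) 1 0) * (gW h 1 1 (-1) 0 (-1) 0)
      + (gW h 0 0 2 (-2) 0 0) * (gW h 1 1 (-2) 0 0 0)
      - 6 * (gW h 1 1 0 (-2) 0 0) = 0 := by
  have E := gW_expand hh 1 1 (-1) 0 0 0
    0 0 1 (-2) 0 0
  norm_num at E
  simp only [z001n100 hh, z01n1000 hh, z10n1000 hh, mul_zero, zero_mul, add_zero, zero_add] at E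
  linear_combination E

private lemma e32 (hh : DReg h) :
    (gW h (-1) 1 0 0 (-1) 1) * (gW h 1 0 1 0 (-1) (-1))
      + (gW h (-1) 1 0 1 (-1) 0) * (gW h 1 0 1 (-1) (-1) 0)
      + (gW h (-1) 2 0 0 (-1) 0) * (gW h 1 (-1) 1 0 (-1) 0)
      - 6 * (gW h 0 1 1 0 (-2) 0) = 0 := by
  have E := gW_expand hh 1 0 1 0 (-1) 0
    (-1) 1 0 0 (-1) 0
  norm_num at E
  simp only [zn110000 hh, z0010n10 hh, z0100n10 hh, z1000n10 hh, mul_zero, zero_mul, add_zero, zero_add] at E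
  linear_combination E

private lemma e33 (hh : DReg h) :
    (gW h (-1) 1 0 (-1) 0 1) * (gW h 1 1 0 0 (-1) (-1))
      + (gW h 0 1 (-1) (-1) 0 1) * (gW h 0 1 1 0 (-1) (-1))
      + (gW h 0 1 0 (-2) 0 1) * (gW h 0 1 0 1 (-1) (-1))
      - 6 * (gW h 0 2 0 (-1) (-1) 0) = 0 := by
  have E := gW_expand hh 0 1 0 (-1) 0 1
    0 1 0 0 (-1) (-1)
  norm_num at E
  simp only [z000n101 hh, z010n100 hh, z0100n10 hh, z01000n1 hh, mul_zero, zero_mul, add_zero, zero_add] at E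
  linear_combination E

private lemma e34 (hh : DReg h) :
    (gW h 0 1 0 (-1) (-1) 1) * (gW h 1 0 1 0 0 (-2))
      + (gW h 0 2 0 (-1) (-1) 0) * (gW h 1 (-1) 1 0 0 (-1))
      - 6 * (gW h 1 1 1 (-1) (-1) (-1)) = 0 := by
  have E := gW_expand hh 1 0 1 0 0 (-1)
    0 1 0 (-1) (-1) 0
  norm_num at E
  simp only [z00100n1 hh, z010n100 hh, z0100n10 hh, z10000n1 hh, mul_zero, zero_mul, add_zero, zero_add] at E
  linear_combination E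

private lemma e35 (hh : DReg h) :
    (gW h (-1) 0 1 1 0 (-1)) * (gW h 1 0 0 (-1) (-1) 1)
      + (gW h 0 (-1) 1 1 0 (-1)) * (gW h 0 1 0 (-1) (-1) 1)
      + (gW h 0 0 0 (-1) (-1) 2) * (gW h 0 0 1 1 0 (-2)) = 0 := by
  have E := gW_expand hh 0 0 1 1 0 (-1)
    0 0 0 (-1) (-1) 1
  norm_num at E
  simp only [z000n101 hh, z0000n11 hh, z00010n1 hh, z0010n10 hh, z00100n1 hh, mul_zero, zero_mul, add_zero, zero_add] at E
  linear_combination E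

private lemma e36 (hh : DReg h) :
    (gW h 0 0 0 2 (-1) (-1)) * (gW h 1 0 0 (-2) 0 1)
      + (gW h 0 0 1 1 (-1) (-1)) * (gW h 1 0 (-1) (-1) 0 1)
      + (gW h 0 1 0 1 (-1) (-1)) * (gW h 1 (-1) 0 (-1) 0 1) = 0 := by
  have E := gW_expand hh 1 0 0 (-1) 0 1
    0 0 0 1 (-1) (-1)
  norm_num at E
  simp only [z000n101 hh, z0001n10 hh, z00010n1 hh, z100n100 hh, z1000n10 hh, mul_zero, zero_mul, add_zero, zero_add] at E
  linear_combination E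

private lemma e37 (hh : DReg h) :
    (gW h (-1) 1 0 (-1) 0 1) * (gW h 1 (-1) 1 0 0 (-1))
      + (gW h (-1) 1 0 (-1) 1 0) * (gW h 1 (-1) 1 0 (-1) 0)
      + (gW h (-1) 2 0 (-1) 0 0) * (gW h 1 (-2) 1 0 0 0) = 0 := by
  have E := gW_expand hh 1 (-1) 1 0 0 0
    (-1) 1 0 (-1) 0 0
  norm_num at E
  simp only [zn110000 hh, z0n11000 hh, z001n100 hh, z010n100 hh, z1n10000 hh, mul_zero, zero_mul, add_zero, zero_add] at E
  linear_combination E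

private lemma e38 (hh : DReg h) :
    (gW h (-1) 0 1 0 1 (-1)) * (gW h 1 0 0 (-1) (-1) 1)
      + (gW h 0 (-1) 1 0 1 (-1)) * (gW h 0 1 0 (-1) (-1) 1)
      + (gW h 0 0 0 (-1) (-1) 2) * (gW h 0 0 1 0 1 (-2)) = 0 := by
  have E := gW_expand hh 0 0 1 0 1 (-1)
    0 0 0 (-1) (-1) 1
  norm_num at E
  simp only [z000n101 hh, z0000n11 hh, z00001n1 hh, z001n100 hh, z00100n1 hh, mul_zero, zero_mul, add_zero, zero_add] at E
  linear_combination E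

private lemma e39 (hh : DReg h) :
    (gW h (-1) 1 0 0 (-1) 1) * (gW h 1 0 0 (-1) 1 (-1))
      + (gW h 0 0 0 (-1) 2 (-1)) * (gW h 0 1 0 0 (-2) 1)
      + (gW h 0 0 1 (-1) 1 (-1)) * (gW h 0 1 (-1) 0 (-1) 1) = 0 := by
  have E := gW_expand hh 0 1 0 0 (-1) 1
    0 0 0 (-1) 1 (-1)
  norm_num at E
  simp only [z000n110 hh, z0000n11 hh, z00001n1 hh, z010n100 hh, z0100n10 hh, mul_zero, zero_mul, add_zero, zero_add] at E
  linear_combination E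

private lemma e40 (hh : DReg h) :
    (gW h (-2) 1 1 0 0 0) * (gW h 2 0 (-1) 0 (-1) 0)
      + (gW h (-1) 1 1 (-1) 0 0) * (gW h 1 0 (-1) 1 (-1) 0)
      + (gW h (-1) 1 1 0 0 (-1)) * (gW h 1 0 (-1) 0 (-1) 1) = 0 := by
  have E := gW_expand hh (-1) 1 1 0 0 0
    1 0 (-1) 0 (-1) 0
  norm_num at E
  simp only [zn101000 hh, zn110000 hh, z0100n10 hh, z10n1000 hh, z1000n10 hh, mul_zero, zero_mul, add_zero, zero_add] at E
  linear_combination E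

private lemma e41 (hh : DReg h) :
    (gW h (-1) 1 0 1 (-1) 0) * (gW h 1 0 0 (-1) 1 (-1))
      + (gW h 0 0 0 (-1) 2 (-1)) * (gW h 0 1 0 1 (-2) 0)
      + (gW h 0 0 1 (-1) 1 (-1)) * (gW h 0 1 (-1) 1 (-1) 0) = 0 := by
  have E := gW_expand hh 0 1 0 1 (-1) 0
    0 0 0 (-1) 1 (-1)
  norm_num at E
  simp only [z000n110 hh, z00001n1 hh, z0001n10 hh, z0100n10 hh, z01000n1 hh, mul_zero, zero_mul, add_zero, zero_add] at E
  linear_combination E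

private lemma e42 (hh : DReg h) :
    (gW h (-1) 0 1 (-1) 0 1) * (gW h 1 1 (-1) 0 0 (-1))
      + (gW h (-1) 0 1 (-1) 1 0) * (gW h 1 1 (-1) 0 (-1) 0)
      + (gW h (-1) 0 2 (-1) 0 0) * (gW h 1 1 (-2) 0 0 0) = 0 := by
  have E := gW_expand hh 1 1 (-1) 0 0 0
    (-1) 0 1 (-1) 0 0
  norm_num at E
  simp only [zn101000 hh, z001n100 hh, z01n1000 hh, z010n100 hh, z10n1000 hh, mul_zero, zero_mul, add_zero, zero_add] at E
  linear_combination E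

private lemma e43 (hh : DReg h) :
    (gW h 0 0 1 (-1) 1 (-1)) * (gW h 1 1 0 0 (-2) 0)
      + (gW h 0 0 2 (-1) 0 (-1)) * (gW h 1 1 (-1) 0 (-1) 0)
      - 6 * (gW h 1 1 1 (-1) (-1) (-1)) = 0 := by
  have E := gW_expand hh 1 1 0 0 (-1) 0
    0 0 1 (-1) 0 (-1)
  norm_num at E
  simp only [z001n100 hh, z00100n1 hh, z0100n10 hh, z1000n10 hh, mul_zero, zero_mul, add_zero, zero_add] at E
  linear_combination E

private lemma e44 (hh : DReg h) :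
    (gW h 0 0 0 2 (-1) (-1)) * (gW h 1 0 0 (-2) 1 0)
      + (gW h 0 0 1 1 (-1) (-1)) * (gW h 1 0 (-1) (-1) 1 0)
      + (gW h 0 1 0 1 (-1) (-1)) * (gW h 1 (-1) 0 (-1) 1 0) = 0 := by
  have E := gW_expand hh 1 0 0 (-1) 1 0
    0 0 0 1 (-1) (-1)
  norm_num at E
  simp only [z000n110 hh, z0001n10 hh, z00010n1 hh, z100n100 hh, z10000n1 hh, mul_zero, zero_mul, add_zero, zero_add] at E
  linear_combination E

private lemma e45 (hh : DReg h) :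
    (gW h 0 0 0 (-1) 2 (-1)) * (gW h 1 0 0 1 (-2) 0)
      + (gW h 0 0 1 (-1) 1 (-1)) * (gW h 1 0 (-1) 1 (-1) 0)
      + (gW h 0 1 0 (-1) 1 (-1)) * (gW h 1 (-1) 0 1 (-1) 0) = 0 := by
  have E := gW_expand hh 1 0 0 1 (-1) 0
    0 0 0 (-1) 1 (-1)
  norm_num at E
  simp only [z000n110 hh, z00001n1 hh, z0001n10 hh, z1000n10 hh, z10000n1 hh, mul_zero, zero_mul, add_zero, zero_add] at E
  linear_combination E

private lemma e46 (hh : DReg h) :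
    (gW h (-1) 1 1 0 0 (-1)) * (gW h 2 0 (-1) 0 0 (-1))
      + (gW h 0 1 1 (-1) 0 (-1)) * (gW h 1 0 (-1) 1 0 (-1))
      + (gW h 0 1 1 0 (-1) (-1)) * (gW h 1 0 (-1) 0 1 (-1))
      - 6 * (gW h 1 1 0 0 0 (-2)) = 0 := by
  have E := gW_expand hh 0 1 1 0 0 (-1)
    1 0 (-1) 0 0 (-1)
  norm_num at E
  simp only [z00100n1 hh, z01000n1 hh, z10n1000 hh, z10000n1 hh, mul_zero, zero_mul, add_zero, zero_add] at E
  linear_combination E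

private lemma e47 (hh : DReg h) :
    (gW h (-1) 0 1 (-1) 0 1) * (gW h 2 0 (-1) 0 0 (-1))
      + (gW h 0 (-1) 1 (-1) 0 1) * (gW h 1 1 (-1) 0 0 (-1))
      + (gW h 0 0 1 (-2) 0 1) * (gW h 1 0 (-1) 1 0 (-1))
      + (gW h 0 0 1 (-1) (-1) 1) * (gW h 1 0 (-1) 0 1 (-1)) = 0 := by
  have E := gW_expand hh 0 0 1 (-1) 0 1
    1 0 (-1) 0 0 (-1)
  norm_num at E
  simp only [z000n101 hh, z001n100 hh, z10n1000 hh, z100n100 hh, z10000n1 hh, mul_zero, zero_mul, add_zero, zero_add] at E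
  linear_combination E

private lemma e48 (hh : DReg h) :
    (gW h (-1) 1 1 0 (-1) 0) * (gW h 2 0 (-1) 0 (-1) 0)
      + (gW h 0 1 1 (-1) (-1) 0) * (gW h 1 0 (-1) 1 (-1) 0)
      + (gW h 0 1 1 0 (-1) (-1)) * (gW h 1 0 (-1) 0 (-1) 1)
      - 6 * (gW h 1 1 0 0 (-2) 0) = 0 := by
  have E := gW_expand hh 0 1 1 0 (-1) 0
    1 0 (-1) 0 (-1) 0
  norm_num at E
  simp only [z0010n10 hh, z0100n10 hh, z10n1000 hh, z1000n10 hh, mul_zero, zero_mul, add_zero, zero_add] at E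
  linear_combination E

private lemma e49 (hh : DReg h) :
    (gW h (-1) 0 1 (-1) 1 0) * (gW h 2 0 (-1) 0 (-1) 0)
      + (gW h 0 (-1) 1 (-1) 1 0) * (gW h 1 1 (-1) 0 (-1) 0)
      + (gW h 0 0 1 (-2) 1 0) * (gW h 1 0 (-1) 1 (-1) 0)
      + (gW h 0 0 1 (-1) 1 (-1)) * (gW h 1 0 (-1) 0 (-1) 1) = 0 := by
  have E := gW_expand hh 0 0 1 (-1) 1 0
    1 0 (-1) 0 (-1) 0
  norm_num at E
  simp only [z000n110 hh, z001n100 hh, z10n1000 hh, z100n100 hh, z1000n10 hh, mul_zero, zero_mul, add_zero, zero_add] at E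
  linear_combination E

private lemma e50 (hh : DReg h) :
    (gW h 0 1 1 0 (-1) (-1)) * (gW h 1 0 (-1) 1 (-1) 0)
      + (gW h 0 2 0 0 (-1) (-1)) * (gW h 1 (-1) 0 1 (-1) 0)
      - 6 * (gW h 1 1 0 1 (-2) (-1)) = 0 := by
  have E := gW_expand hh 1 0 0 1 (-1) 0
    0 1 0 0 (-1) (-1)
  norm_num at E
  simp only [z0001n10 hh, z0100n10 hh, z01000n1 hh, z1000n10 hh, mul_zero, zero_mul, add_zero, zero_add] at E
  linear_combination E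

private lemma e51 (hh : DReg h) :
    (gW h 0 1 1 0 (-1) (-1)) * (gW h 1 0 (-1) 1 0 (-1))
      + (gW h 0 2 0 0 (-1) (-1)) * (gW h 1 (-1) 0 1 0 (-1))
      - 6 * (gW h 1 1 0 1 (-1) (-2)) = 0 := by
  have E := gW_expand hh 1 0 0 1 0 (-1)
    0 1 0 0 (-1) (-1)
  norm_num at E
  simp only [z00010n1 hh, z0100n10 hh, z01000n1 hh, z10000n1 hh, mul_zero, zero_mul, add_zero, zero_add] at E
  linear_combination E

private lemma e52 (hh : DReg h) :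
    (gW h 0 0 0 2 (-1) (-1)) * (gW h 1 1 0 (-1) (-1) 0)
      + (gW h 0 0 1 1 (-1) (-1)) * (gW h 1 1 (-1) 0 (-1) 0)
      - 6 * (gW h 1 1 0 1 (-2) (-1)) = 0 := by
  have E := gW_expand hh 1 1 0 0 (-1) 0
    0 0 0 1 (-1) (-1)
  norm_num at E
  simp only [z0001n10 hh, z00010n1 hh, z0100n10 hh, z1000n10 hh, mul_zero, zero_mul, add_zero, zero_add] at E
  linear_combination E

private lemma e53 (hh : DReg h) :
    (gW h 0 0 1 (-1) (-1) 1) * (gW h 1 0 (-1) 1 0 (-1))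
      + (gW h 0 0 2 (-1) (-1) 0) * (gW h 1 0 (-2) 1 0 0)
      + (gW h 0 1 1 (-1) (-1) 0) * (gW h 1 (-1) (-1) 1 0 0) = 0 := by
  have E := gW_expand hh 1 0 (-1) 1 0 0
    0 0 1 (-1) (-1) 0
  norm_num at E
  simp only [z00n1100 hh, z001n100 hh, z0010n10 hh, z10n1000 hh, z1000n10 hh, mul_zero, zero_mul, add_zero, zero_add] at E
  linear_combination E

private lemma e54 (hh : DReg h) :
    (gW h 0 1 0 (-1) 1 (-1)) * (gW h 1 (-1) 0 1 (-1) 0)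
      + (gW h 0 1 1 (-1) 0 (-1)) * (gW h 1 (-1) (-1) 1 0 0)
      + (gW h 0 2 0 (-1) 0 (-1)) * (gW h 1 (-2) 0 1 0 0) = 0 := by
  have E := gW_expand hh 1 (-1) 0 1 0 0
    0 1 0 (-1) 0 (-1)
  norm_num at E
  simp only [z0n10100 hh, z010n100 hh, z01000n1 hh, z1n10000 hh, z10000n1 hh, mul_zero, zero_mul, add_zero, zero_add] at E
  linear_combination E

private lemma e55 (hh : DReg h) :
    (gW h 0 0 0 2 (-1) (-1)) * (gW h 1 1 0 (-1) 0 (-1))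
      + (gW h 0 0 1 1 (-1) (-1)) * (gW h 1 1 (-1) 0 0 (-1))
      - 6 * (gW h 1 1 0 1 (-1) (-2)) = 0 := by
  have E := gW_expand hh 1 1 0 0 0 (-1)
    0 0 0 1 (-1) (-1)
  norm_num at E
  simp only [z0001n10 hh, z00010n1 hh, z01000n1 hh, z10000n1 hh, mul_zero, zero_mul, add_zero, zero_add] at E
  linear_combination E

private lemma e56 (hh : DReg h) :
    (gW h (-1) 0 0 (-1) 1 1) * (gW h 1 1 0 0 (-1) (-1))
      + (gW h (-1) 0 0 (-1) 2 0) * (gW h 1 1 0 0 (-2) 0)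
      + (gW h (-1) 0 1 (-1) 1 0) * (gW h 1 1 (-1) 0 (-1) 0) = 0 := by
  have E := gW_expand hh 1 1 0 0 (-1) 0
    (-1) 0 0 (-1) 1 0
  norm_num at E
  simp only [zn100010 hh, z000n110 hh, z010n100 hh, z0100n10 hh, z1000n10 hh, mul_zero, zero_mul, add_zero, zero_add] at E
  linear_combination E

private lemma e57 (hh : DReg h) :
    (gW h 0 (-1) 0 (-1) 1 1) * (gW h 1 1 0 0 (-1) (-1))
      + (gW h 0 (-1) 0 (-1) 2 0) * (gW h 1 1 0 0 (-2) 0)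
      + (gW h 0 (-1) 1 (-1) 1 0) * (gW h 1 1 (-1) 0 (-1) 0) = 0 := by
  have E := gW_expand hh 1 1 0 0 (-1) 0
    0 (-1) 0 (-1) 1 0
  norm_num at E
  simp only [z0n10010 hh, z000n110 hh, z0100n10 hh, z100n100 hh, z1000n10 hh, mul_zero, zero_mul, add_zero, zero_add] at E
  linear_combination E

private lemma e58 (hh : DReg h) :
    (gW h 0 (-1) 0 (-1) 0 2) * (gW h 1 1 0 0 0 (-2))
      + (gW h 0 (-1) 0 (-1) 1 1) * (gW h 1 1 0 0 (-1) (-1))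
      + (gW h 0 (-1) 1 (-1) 0 1) * (gW h 1 1 (-1) 0 0 (-1)) = 0 := by
  have E := gW_expand hh 1 1 0 0 0 (-1)
    0 (-1) 0 (-1) 0 1
  norm_num at E
  simp only [z0n10001 hh, z000n101 hh, z01000n1 hh, z100n100 hh, z10000n1 hh, mul_zero, zero_mul, add_zero, zero_add] at E
  linear_combination E

private lemma e59 (hh : DReg h) :
    (gW h (-1) 0 0 (-1) 0 2) * (gW h 1 1 0 0 0 (-2))
      + (gW h (-1) 0 0 (-1) 1 1) * (gW h 1 1 0 0 (-1) (-1))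
      + (gW h (-1) 0 1 (-1) 0 1) * (gW h 1 1 (-1) 0 0 (-1)) = 0 := by
  have E := gW_expand hh 1 1 0 0 0 (-1)
    (-1) 0 0 (-1) 0 1
  norm_num at E
  simp only [zn100001 hh, z000n101 hh, z010n100 hh, z01000n1 hh, z10000n1 hh, mul_zero, zero_mul, add_zero, zero_add] at E
  linear_combination E

theorem tau_edge (hh : DReg h)
    (f11n11n1n1 : gW h 1 1 (-1) 1 (-1) (-1) = 0) :
    (gW h 1 1 1 (-1) (-1) (-1)) * (gW h 1 1 (-2) 0 0 0) = 0 := by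
  linear_combination -(1 / 6 : ℂ) * (gW h 1 1 (-1) 0 0 (-1)) * e0 hh
    + (1 / 6 : ℂ) * (gW h 1 1 0 0 0 (-2)) * e1 hh
    + (1 / 6 : ℂ) * (gW h 1 1 0 (-2) 0 0) * e2 hh
    + (1 / 6 : ℂ) * (gW h 1 1 0 0 (-2) 0) * e3 hh
    - (1 / 6 : ℂ) * (gW h 1 1 0 (-1) (-1) 0) * e4 hh
    - (1 / 6 : ℂ) * (gW h 1 1 0 0 (-2) 0) * e5 hh
    + (1 / 6 : ℂ) * (gW h 1 1 0 (-1) (-1) 0) * e6 hh
    + (1 / 6 : ℂ) * (gW h 1 1 0 0 (-1) (-1)) * e7 hh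
    + (1 / 6 : ℂ) * (gW h 1 1 (-1) 0 0 (-1)) * e8 hh
    - (1 / 6 : ℂ) * (gW h 1 1 (-2) 0 0 0) * e9 hh
    - (1 / 6 : ℂ) * (gW h 1 1 0 0 0 (-2)) * e10 hh
    - (1 / 6 : ℂ) * (gW h 1 1 0 0 (-1) (-1)) * e11 hh
    + (1 : ℂ) * (gW h 1 1 0 (-2) 0 0) * f11n11n1n1

theorem tau_none (hh : DReg h)
    (f000n12n1 : gW h 0 0 0 (-1) 2 (-1) = 0)
    (f1n21000 : gW h 1 (-2) 1 0 0 0 = 0)
    (f0002n1n1 : gW h 0 0 0 2 (-1) (-1) = 0)
    (f000n1n12 : gW h 0 0 0 (-1) (-1) 2 = 0)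
    (f11n2000 : gW h 1 1 (-2) 0 0 0 = 0)
    (fn211000 : gW h (-2) 1 1 0 0 0 = 0) :
    (gW h 1 1 1 (-1) (-1) (-1)) = 0 := by
  linear_combination (1 / 108 : ℂ) * (gW h 1 1 0 (-1) 0 (-1)) * e12 hh
    - (1 / 108 : ℂ) * (gW h 0 1 0 1 (-2) 0) * (gW h 1 0 1 (-1) (-1) 0) * f000n12n1
    - (1 / 108 : ℂ) * (gW h 0 0 1 (-1) 1 (-1)) * e13 hh
    - (1 / 108 : ℂ) * (gW h 0 1 0 1 (-1) (-1)) * (gW h 0 2 0 (-2) 0 0) * f1n21000
    - (1 / 108 : ℂ) * (gW h (-1) 1 1 (-1) 0 0) * (gW h 2 0 0 (-2) 0 0) * f0002n1n1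
    - (1 / 108 : ℂ) * (gW h 0 0 2 0 0 (-2)) * (gW h 1 1 (-1) 0 0 (-1)) * f000n1n12
    + (1 / 108 : ℂ) * (gW h 0 1 1 0 (-1) (-1)) * e14 hh
    - (1 / 108 : ℂ) * (gW h 0 1 1 (-1) 0 (-1)) * (gW h 1 0 0 (-2) 0 1) * f0002n1n1
    - (1 / 108 : ℂ) * (gW h (-1) 0 2 (-1) 0 0) * (gW h 1 0 1 0 (-1) (-1)) * f11n2000
    - (1 / 18 : ℂ) * e15 hh
    + (1 / 108 : ℂ) * (gW h 0 1 1 0 (-1) (-1)) * e16 hh
    + (1 / 108 : ℂ) * (gW h 1 (-1) 1 0 (-1) 0) * e17 hh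
    - (1 / 108 : ℂ) * (gW h (-1) 1 1 (-1) 0 0) * e18 hh
    - (1 / 108 : ℂ) * (gW h (-1) 1 1 0 0 (-1)) * e19 hh
    + (1 / 108 : ℂ) * (gW h 0 1 0 1 (-1) (-1)) * e20 hh
    + (1 / 108 : ℂ) * (gW h (-1) 1 1 (-1) 0 0) * e21 hh
    - (1 / 108 : ℂ) * (gW h 1 1 (-1) 0 0 (-1)) * e22 hh
    - (1 / 108 : ℂ) * (gW h 1 (-1) 1 0 (-1) 0) * e23 hh
    - (1 / 108 : ℂ) * (gW h 0 1 0 (-1) (-1) 1) * e24 hh
    - (1 / 108 : ℂ) * (gW h 0 0 1 1 (-1) (-1)) * e25 hh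
    + (1 / 108 : ℂ) * (gW h 1 1 (-1) 0 0 (-1)) * e26 hh
    + (1 / 108 : ℂ) * (gW h 1 0 0 (-1) 1 (-1)) * e27 hh
    - (1 / 108 : ℂ) * (gW h 1 1 (-1) 0 (-1) 0) * e28 hh
    - (1 / 108 : ℂ) * (gW h 0 1 0 1 (-1) (-1)) * e29 hh
    - (1 / 108 : ℂ) * (gW h 1 0 0 (-1) (-1) 1) * e30 hh
    + (1 / 108 : ℂ) * (gW h 0 0 1 1 (-1) (-1)) * e31 hh
    - (1 / 108 : ℂ) * (gW h 1 0 0 (-1) 1 (-1)) * e32 hh
    - (1 / 108 : ℂ) * (gW h 1 (-1) 1 0 0 (-1)) * e33 hh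
    - (1 / 18 : ℂ) * e34 hh
    + (1 / 108 : ℂ) * (gW h 1 1 0 (-1) 0 (-1)) * e35 hh
    + (1 / 108 : ℂ) * (gW h 0 1 1 (-1) 0 (-1)) * e36 hh
    + (1 / 108 : ℂ) * (gW h 1 1 0 0 (-1) (-1)) * e37 hh
    + (1 / 108 : ℂ) * (gW h 1 1 0 0 (-1) (-1)) * e38 hh
    + (1 / 108 : ℂ) * (gW h 1 0 1 0 (-1) (-1)) * e39 hh
    + (1 / 108 : ℂ) * (gW h 1 0 1 (-1) 0 (-1)) * e40 hh
    + (1 / 108 : ℂ) * (gW h 1 0 1 (-1) (-1) 0) * e41 hh
    + (1 / 108 : ℂ) * (gW h 1 0 1 0 (-1) (-1)) * e42 hh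
    - (1 / 18 : ℂ) * e43 hh
    + (1 / 108 : ℂ) * (gW h 0 1 1 (-1) (-1) 0) * e44 hh
    - (1 / 108 : ℂ) * (gW h 0 1 1 (-1) (-1) 0) * (gW h 1 0 0 (-2) 1 0) * f0002n1n1
    - (1 / 108 : ℂ) * (gW h 0 (-1) 2 (-1) 0 0) * (gW h 0 1 1 0 (-1) (-1)) * f11n2000
    - (1 / 108 : ℂ) * (gW h (-1) 2 0 (-1) 0 0) * (gW h 1 1 0 0 (-1) (-1)) * f1n21000
    - (1 / 108 : ℂ) * (gW h 0 1 1 0 (-1) (-1)) * (gW h 0 2 (-1) (-1) 0 0) * f1n21000
    - (1 / 108 : ℂ) * (gW h 1 0 1 (-1) 0 (-1)) * (gW h 2 0 (-1) 0 (-1) 0) * fn211000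
    - (1 / 108 : ℂ) * (gW h 1 0 0 (-1) 1 (-1)) * (gW h 2 0 0 0 (-2) 0) * fn211000
    - (1 / 108 : ℂ) * (gW h 0 0 1 1 0 (-2)) * (gW h 1 1 0 (-1) 0 (-1)) * f000n1n12
    - (1 / 108 : ℂ) * (gW h 0 1 0 0 (-2) 1) * (gW h 1 0 1 0 (-1) (-1)) * f000n12n1
    - (1 / 108 : ℂ) * (gW h 0 2 0 0 (-2) 0) * (gW h 1 (-1) 1 0 (-1) 0) * f000n12n1
    - (1 / 108 : ℂ) * (gW h 0 0 1 1 (-1) (-1)) * (gW h 0 0 2 (-2) 0 0) * f11n2000
    - (1 / 108 : ℂ) * (gW h 0 0 1 0 1 (-2)) * (gW h 1 1 0 0 (-1) (-1)) * f000n1n12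
    - (1 / 108 : ℂ) * (gW h 1 1 0 (-1) 0 (-1)) * (gW h 2 (-1) 0 0 (-1) 0) * fn211000

theorem tau_line (hh : DReg h)
    (f20n100n1 : gW h 2 0 (-1) 0 0 (-1) = 0)
    (f000n12n1 : gW h 0 0 0 (-1) 2 (-1) = 0)
    (f020n10n1 : gW h 0 2 0 (-1) 0 (-1) = 0)
    (f0200n1n1 : gW h 0 2 0 0 (-1) (-1) = 0)
    (f20n10n10 : gW h 2 0 (-1) 0 (-1) 0 = 0)
    (f10n2100 : gW h 1 0 (-2) 1 0 0 = 0)
    (f0002n1n1 : gW h 0 0 0 2 (-1) (-1) = 0)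
    (f11n2000 : gW h 1 1 (-2) 0 0 0 = 0) :
    (gW h 1 1 1 (-1) (-1) (-1)) = 0 := by
  linear_combination -(1 / 12 : ℂ) * e9 hh
    + (1 / 72 : ℂ) * (gW h 0 1 1 (-1) (-1) 0) * e45 hh
    - (1 / 72 : ℂ) * (gW h (-1) 0 1 (-1) 0 1) * (gW h 0 1 1 0 (-1) (-1)) * f20n100n1
    - (1 / 72 : ℂ) * (gW h 0 1 1 (-1) (-1) 0) * (gW h 1 0 0 1 (-2) 0) * f000n12n1
    - (1 / 12 : ℂ) * e43 hh
    - (1 / 72 : ℂ) * (gW h 0 0 1 (-1) (-1) 1) * e46 hh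
    - (1 / 72 : ℂ) * (gW h 1 1 (-1) 0 0 (-1)) * e22 hh
    + (1 / 72 : ℂ) * (gW h 0 1 1 0 (-1) (-1)) * e47 hh
    - (1 / 72 : ℂ) * (gW h 1 1 (-1) 0 (-1) 0) * e28 hh
    - (1 / 72 : ℂ) * (gW h 0 0 1 (-1) 1 (-1)) * e48 hh
    + (1 / 72 : ℂ) * (gW h 0 1 1 0 (-1) (-1)) * e49 hh
    + (1 / 72 : ℂ) * (gW h 1 0 1 0 (-1) (-1)) * e42 hh
    - (1 / 72 : ℂ) * (gW h 0 0 1 (-2) 1 0) * e50 hh
    - (1 / 72 : ℂ) * (gW h 0 0 1 (-2) 0 1) * e51 hh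
    + (1 / 72 : ℂ) * (gW h 0 0 1 (-2) 1 0) * e52 hh
    + (1 / 72 : ℂ) * (gW h 0 1 1 (-1) 0 (-1)) * e53 hh
    - (1 / 72 : ℂ) * (gW h 0 1 1 (-1) (-1) 0) * e54 hh
    + (1 / 72 : ℂ) * (gW h 0 0 1 (-2) 0 1) * e55 hh
    + (1 / 72 : ℂ) * (gW h 0 1 1 (-1) (-1) 0) * (gW h 1 (-2) 0 1 0 0) * f020n10n1
    + (1 / 72 : ℂ) * (gW h 0 0 1 (-2) 1 0) * (gW h 1 (-1) 0 1 (-1) 0) * f0200n1n1
    + (1 / 72 : ℂ) * (gW h (-1) 1 1 0 (-1) 0) * (gW h 0 0 1 (-1) 1 (-1)) * f20n10n10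
    + (1 / 72 : ℂ) * (gW h 0 0 1 (-2) 0 1) * (gW h 1 (-1) 0 1 0 (-1)) * f0200n1n1
    - (1 / 72 : ℂ) * (gW h (-1) 0 1 (-1) 1 0) * (gW h 0 1 1 0 (-1) (-1)) * f20n10n10
    + (1 / 72 : ℂ) * (gW h (-1) 1 1 0 0 (-1)) * (gW h 0 0 1 (-1) (-1) 1) * f20n100n1
    - (1 / 72 : ℂ) * (gW h 0 0 2 (-1) (-1) 0) * (gW h 0 1 1 (-1) 0 (-1)) * f10n2100
    - (1 / 72 : ℂ) * (gW h 0 0 1 (-2) 0 1) * (gW h 1 1 0 (-1) 0 (-1)) * f0002n1n1
    - (1 / 72 : ℂ) * (gW h (-1) 0 2 (-1) 0 0) * (gW h 1 0 1 0 (-1) (-1)) * f11n2000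
    - (1 / 72 : ℂ) * (gW h 0 0 1 (-2) 1 0) * (gW h 1 1 0 (-1) (-1) 0) * f0002n1n1

theorem tau_two (hh : DReg h)
    (f1100n20 : gW h 1 1 0 0 (-2) 0 = 0)
    (f11000n2 : gW h 1 1 0 0 0 (-2) = 0)
    (f001n210 : gW h 0 0 1 (-2) 1 0 = 0)
    (f11n2000 : gW h 1 1 (-2) 0 0 0 = 0) :
    (gW h 1 1 1 (-1) (-1) (-1)) = 0 := by
  linear_combination -(1 / 72 : ℂ) * (gW h (-1) 0 0 (-1) 2 0) * (gW h 1 0 1 0 (-1) (-1)) * f1100n20
    + (1 / 72 : ℂ) * (gW h (-1) 0 0 (-1) 0 2) * (gW h 1 0 1 0 (-1) (-1)) * f11000n2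
    + (1 / 72 : ℂ) * (gW h 1 0 1 0 (-1) (-1)) * e56 hh
    + (1 / 72 : ℂ) * (gW h 1 0 1 0 (-1) (-1)) * e42 hh
    - (1 / 36 : ℂ) * (gW h 1 1 (-1) 0 (-1) 0) * e28 hh
    + (1 / 72 : ℂ) * (gW h 0 1 1 0 (-1) (-1)) * e14 hh
    + (1 / 72 : ℂ) * (gW h 0 1 1 0 (-1) (-1)) * e57 hh
    - (1 / 6 : ℂ) * e43 hh
    - (1 / 72 : ℂ) * (gW h 0 1 1 0 (-1) (-1)) * e58 hh
    - (1 / 72 : ℂ) * (gW h 1 0 1 0 (-1) (-1)) * e59 hh
    + (1 / 36 : ℂ) * (gW h 0 0 1 1 (-1) (-1)) * (gW h 1 1 (-1) 0 (-1) 0) * f001n210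
    - (1 / 72 : ℂ) * (gW h 0 (-1) 2 (-1) 0 0) * (gW h 0 1 1 0 (-1) (-1)) * f11n2000
    - (1 / 72 : ℂ) * (gW h 0 (-1) 0 (-1) 2 0) * (gW h 0 1 1 0 (-1) (-1)) * f1100n20
    + (1 / 6 : ℂ) * (gW h 0 0 1 (-1) 1 (-1)) * f1100n20
    + (1 / 72 : ℂ) * (gW h 0 (-1) 0 (-1) 0 2) * (gW h 0 1 1 0 (-1) (-1)) * f11000n2
    - (1 / 72 : ℂ) * (gW h (-1) 0 2 (-1) 0 0) * (gW h 1 0 1 0 (-1) (-1)) * f11n2000

end Vale.Agent.P355.Seven
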