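import Mathlib
import Vale.Agent.P355.Seven.TauCert
import Vale.Agent.P355.Seven.CaseSplit

/-!
If one contraction of three rows against the other three is nonzero, then all twenty are.

Let `S = {0, 1, 2}` have nonzero contraction. The contractions of its nine neighbours form a grid,
with rows the pairs in `S` and columns the elements outside `S`. An edge from a nonzero to a zero
contraction kills a contraction of a pair against a square (`tau_edge`). Three identities then
force the contraction of `S` to vanish as soon as one neighbour vanishes.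
-/

namespace Vale.Agent.P355.Seven

open scoped ComplexConjugate BigOperators

set_option linter.unusedSimpArgs false
set_option linter.unusedTactic false
set_option linter.unreachableTactic false

variable {h : Fin 6 → Fin 6 → ℂ}

/-- The contraction of the rows in `S` against those outside. -/
noncomputable def tauS (h : Fin 6 → Fin 6 → ℂ) (S : Finset (Fin 6)) : ℂ :=
  ∑ j, ∏ i, if i ∈ S then h i j else conj (h i j)

lemma tauS_compl (S : Finset (Fin 6)) : tauS h Sᶜ = conj (tauS h S) := by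
  simp only [tauS, map_sum, map_prod]
  refine Finset.sum_congr rfl fun j _ => Finset.prod_congr rfl fun i _ => ?_
  by_cases hi : i ∈ S <;> simp [hi]

lemma tauS_relabel (s : Equiv.Perm (Fin 6)) (S : Finset (Fin 6)) :
    tauS (fun i j => h (s i) j) S = tauS h (S.image s) := by
  refine Finset.sum_congr rfl fun j _ => Fintype.prod_equiv s _ _ fun i => ?_
  simp [s.injective.eq_iff]

lemma tauS_base : tauS h {0, 1, 2} =
    ∑ j, h 0 j * h 1 j * h 2 j * conj (h 3 j * h 4 j * h 5 j) := by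
  refine Finset.sum_congr rfl fun j _ => ?_
  rw [Fin.prod_univ_six]
  simp (config := { decide := true }) only [if_true, if_false, map_mul]
  ring

lemma tauRow_eq (s : Equiv.Perm (Fin 6)) :
    tauRow h s = tauS h (({0, 1, 2} : Finset (Fin 6)).image s) := by
  rw [← tauS_relabel, tauS_base]
  rfl

lemma dreg_zpow_neg_two (hh : DReg h) (i j : Fin 6) :
    h i j ^ (-2 : ℤ) = conj (h i j) * conj (h i j) := by
  rw [← dreg_inv hh, zpow_neg, zpow_ofNat, pow_two, mul_inv]

lemma edge_base (hh : DReg h) (h1 : tauS h {0, 1, 2} ≠ 0) (h0 : tauS h {0, 1, 3} = 0) :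
    con h 0 1 2 2 = 0 := by
  have i := dreg_inv hh
  have e1 : gW h 1 1 1 (-1) (-1) (-1) = tauS h {0, 1, 2} := by
    rw [tauS_base]
    exact Finset.sum_congr rfl fun j _ => by simp [dreg_zpow_neg_two hh, zpow_neg, i, con]; try ring
  have e0 : gW h 1 1 (-1) 1 (-1) (-1) = tauS h {0, 1, 3} :=
    Finset.sum_congr rfl fun j _ => by
      rw [Fin.prod_univ_six]
      simp (config := { decide := true }) [zpow_neg, i]
  have ec : gW h 1 1 (-2) 0 0 0 = con h 0 1 2 2 :=
    Finset.sum_congr rfl fun j _ => by simp [dreg_zpow_neg_two hh, zpow_neg, i, con]; try ring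
  have := tau_edge hh (e0.trans h0)
  rw [e1, ec] at this
  exact (mul_eq_zero.1 this).resolve_left h1

lemma exists_perm4 (a b c d : Fin 6) (hd : a ≠ b ∧ a ≠ c ∧ a ≠ d ∧ b ≠ c ∧ b ≠ d ∧ c ≠ d) :
    ∃ s : Equiv.Perm (Fin 6), s 0 = a ∧ s 1 = b ∧ s 2 = c ∧ s 3 = d := by
  obtain ⟨hab, hac, had, hbc, hbd, hcd⟩ := hd
  have step : ∀ (s : Equiv.Perm (Fin 6)) (i k : Fin 6) (x : Fin 6), i ≠ k → s i ≠ x →
      (Equiv.swap (s k) x * s) i = s i := fun s i k x hik hx =>
    Equiv.swap_apply_of_ne_of_ne (fun e => hik (s.injective e)) hx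
  let s1 : Equiv.Perm (Fin 6) := Equiv.swap 0 a
  let s2 := Equiv.swap (s1 1) b * s1
  let s3 := Equiv.swap (s2 2) c * s2
  let s4 := Equiv.swap (s3 3) d * s3
  have a1 : s1 0 = a := Equiv.swap_apply_left _ _
  have a2 : s2 0 = a := (step s1 0 1 b (by decide) (a1 ▸ hab)).trans a1
  have b2 : s2 1 = b := Equiv.swap_apply_left _ _
  have a3 : s3 0 = a := (step s2 0 2 c (by decide) (a2 ▸ hac)).trans a2
  have b3 : s3 1 = b := (step s2 1 2 c (by decide) (b2 ▸ hbc)).trans b2
  have c3 : s3 2 = c := Equiv.swap_apply_left _ _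
  exact ⟨s4, (step s3 0 3 d (by decide) (a3 ▸ had)).trans a3,
    (step s3 1 3 d (by decide) (b3 ▸ hbd)).trans b3,
    (step s3 2 3 d (by decide) (c3 ▸ hcd)).trans c3, Equiv.swap_apply_left _ _⟩

/-- An edge from a nonzero to a zero contraction. -/
lemma edge (hh : DReg h) (a b c d : Fin 6)
    (hd : a ≠ b ∧ a ≠ c ∧ a ≠ d ∧ b ≠ c ∧ b ≠ d ∧ c ≠ d)
    (h1 : tauS h {a, b, c} ≠ 0) (h0 : tauS h {a, b, d} = 0) :
    con h a b c c = 0 ∧ con h c c a b = 0 := by
  obtain ⟨s, rfl, rfl, rfl, rfl⟩ := exists_perm4 a b c d hd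
  have hk : DReg fun i j => h (s i) j := dreg_hP s 1 hh
  have e : con h (s 0) (s 1) (s 2) (s 2) = 0 := edge_base hk
    (by rw [tauS_relabel]; simpa [Finset.image_insert] using h1)
    (by rw [tauS_relabel]; simpa [Finset.image_insert] using h0)
  exact ⟨e, by rw [← con_conj, e, map_zero]⟩

lemma nz_compl {S T : Finset (Fin 6)} (e : Sᶜ = T) (hS : tauS h S ≠ 0) : tauS h T ≠ 0 := by
  rw [← e, tauS_compl]
  exact fun h0 => hS (by simpa using congrArg conj h0)

lemma z_compl {S T : Finset (Fin 6)} (e : Sᶜ = T) (hS : tauS h S = 0) : tauS h T = 0 := by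
  rw [← e, tauS_compl, hS, map_zero]

lemma gW_base (hh : DReg h) : gW h 1 1 1 (-1) (-1) (-1) = tauS h {0, 1, 2} := by
  rw [tauS_base]
  exact Finset.sum_congr rfl fun j _ => by simp [zpow_neg, dreg_inv hh]; ring

/-- No row and no column of the grid is free of zeros. -/
lemma no_line (hh : DReg h) (n : tauS h {0, 1, 2} ≠ 0)
    {x y z : Fin 6} (hx : x = 3 ∨ x = 4 ∨ x = 5) (hy : y = 3 ∨ y = 4 ∨ y = 5)
    (hz : z = 3 ∨ z = 4 ∨ z = 5) (r01 : tauS h {0, 1, x} = 0) (r02 : tauS h {0, 2, y} = 0)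
    (r12 : tauS h {1, 2, z} = 0)
    {u v w : Fin 6} (hu : u = 0 ∨ u = 1 ∨ u = 2) (hv : v = 0 ∨ v = 1 ∨ v = 2)
    (hw : w = 0 ∨ w = 1 ∨ w = 2) (c3 : tauS h {4, 5, u} = 0) (c4 : tauS h {3, 5, v} = 0)
    (c5 : tauS h {3, 4, w} = 0) : False := by
  have i := dreg_inv hh
  have m : tauS h {3, 4, 5} ≠ 0 := nz_compl (by decide) n
  have E1 := edge hh 0 1 2 x (by rcases hx with rfl | rfl | rfl <;> decide) n r01
  have E2 := edge hh 0 2 1 y (by rcases hy with rfl | rfl | rfl <;> decide)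
    (by rwa [show ({0, 2, 1} : Finset (Fin 6)) = {0, 1, 2} by decide]) r02
  have E3 := edge hh 1 2 0 z (by rcases hz with rfl | rfl | rfl <;> decide)
    (by rwa [show ({1, 2, 0} : Finset (Fin 6)) = {0, 1, 2} by decide]) r12
  have E4 := edge hh 4 5 3 u (by rcases hu with rfl | rfl | rfl <;> decide)
    (by rwa [show ({4, 5, 3} : Finset (Fin 6)) = {3, 4, 5} by decide]) c3
  have E5 := edge hh 3 5 4 v (by rcases hv with rfl | rfl | rfl <;> decide)
    (by rwa [show ({3, 5, 4} : Finset (Fin 6)) = {3, 4, 5} by decide]) c4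
  have E6 := edge hh 3 4 5 w (by rcases hw with rfl | rfl | rfl <;> decide) m c5
  refine n ((gW_base hh).symm.trans (tau_none hh ?_ ?_ ?_ ?_ ?_ ?_))
  · rw [← E5.2]; exact Finset.sum_congr rfl fun j _ => by simp [dreg_zpow_neg_two hh, zpow_neg, i, con]; try ring
  · rw [← E2.1]; exact Finset.sum_congr rfl fun j _ => by simp [dreg_zpow_neg_two hh, zpow_neg, i, con]; try ring
  · rw [← E4.2]; exact Finset.sum_congr rfl fun j _ => by simp [dreg_zpow_neg_two hh, zpow_neg, i, con]; try ring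
  · rw [← E6.2]; exact Finset.sum_congr rfl fun j _ => by simp [dreg_zpow_neg_two hh, zpow_neg, i, con]; try ring
  · rw [← E1.1]; exact Finset.sum_congr rfl fun j _ => by simp [dreg_zpow_neg_two hh, zpow_neg, i, con]; try ring
  · rw [← E3.1]; exact Finset.sum_congr rfl fun j _ => by simp [dreg_zpow_neg_two hh, zpow_neg, i, con]; try ring

/-- A zero next to two nonzero entries in its row. -/
lemma two_in_row (hh : DReg h) (n : tauS h {0, 1, 2} ≠ 0) (z : tauS h {0, 1, 3} = 0)
    (n4 : tauS h {0, 1, 4} ≠ 0) (n5 : tauS h {0, 1, 5} ≠ 0) : False := by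
  have i := dreg_inv hh
  have E1 := edge hh 0 1 4 3 (by decide) n4 z
  have E2 := edge hh 0 1 5 3 (by decide) n5 z
  have E3 := edge hh 2 4 3 5 (by decide) (nz_compl (by decide) n5) (z_compl (by decide) z)
  have E4 := edge hh 0 1 2 3 (by decide) n z
  refine n ((gW_base hh).symm.trans (tau_two hh ?_ ?_ ?_ ?_))
  · rw [← E1.1]; exact Finset.sum_congr rfl fun j _ => by simp [dreg_zpow_neg_two hh, zpow_neg, i, con]; try ring
  · rw [← E2.1]; exact Finset.sum_congr rfl fun j _ => by simp [dreg_zpow_neg_two hh, zpow_neg, i, con]; try ring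
  · rw [← E3.1]; exact Finset.sum_congr rfl fun j _ => by simp [dreg_zpow_neg_two hh, zpow_neg, i, con]; try ring
  · rw [← E4.1]; exact Finset.sum_congr rfl fun j _ => by simp [dreg_zpow_neg_two hh, zpow_neg, i, con]; try ring

/-- A full row, and a column with a zero away from the zero `013`. -/
lemma full_row_base (hh : DReg h) (n : tauS h {0, 1, 2} ≠ 0) (z : tauS h {0, 1, 3} = 0)
    (n3 : tauS h {0, 2, 3} ≠ 0) (n4 : tauS h {0, 2, 4} ≠ 0) (n5 : tauS h {0, 2, 5} ≠ 0)
    (c : tauS h {0, 1, 4} = 0 ∨ tauS h {1, 2, 4} = 0) : False := by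
  have i := dreg_inv hh
  have m : tauS h {3, 5, 4} ≠ 0 := nz_compl (by decide) n
  have z' : tauS h {2, 4, 5} = 0 := z_compl (by decide) z
  have E1 := edge hh 2 4 0 5 (by decide)
    (by rwa [show ({2, 4, 0} : Finset (Fin 6)) = {0, 2, 4} by decide]) z'
  have E2 := edge hh 2 5 0 4 (by decide)
    (by rwa [show ({2, 5, 0} : Finset (Fin 6)) = {0, 2, 5} by decide])
    (z_compl (by decide) z)
  have E3 := edge hh 0 3 2 1 (by decide)
    (by rwa [show ({0, 3, 2} : Finset (Fin 6)) = {0, 2, 3} by decide])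
    (by rwa [show ({0, 3, 1} : Finset (Fin 6)) = {0, 1, 3} by decide])
  have E4 := edge hh 4 5 1 2 (by decide) (nz_compl (by decide) n3) (z_compl (by decide) z)
  have E5 := edge hh 0 1 2 3 (by decide) n z
  have E6 := edge hh 4 5 3 2 (by decide) (nz_compl (by decide) n) (z_compl (by decide) z)
  have E7 : (con h 3 5 1 1 = 0 ∧ con h 1 1 3 5 = 0) ∧ (con h 3 5 4 4 = 0 ∧ con h 4 4 3 5 = 0) := by
    rcases c with c | c
    · exact ⟨edge hh 3 5 1 2 (by decide) (nz_compl (by decide) n4) (z_compl (by decide) c),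
        edge hh 3 5 4 2 (by decide) m (z_compl (by decide) c)⟩
    · exact ⟨edge hh 3 5 1 0 (by decide) (nz_compl (by decide) n4) (z_compl (by decide) c),
        edge hh 3 5 4 0 (by decide) m (z_compl (by decide) c)⟩
  refine n ((gW_base hh).symm.trans (tau_line hh ?_ ?_ ?_ ?_ ?_ ?_ ?_ ?_))
  · rw [← E2.2]; exact Finset.sum_congr rfl fun j _ => by simp [dreg_zpow_neg_two hh, zpow_neg, i, con]; try ring
  · rw [← E7.2.2]; exact Finset.sum_congr rfl fun j _ => by simp [dreg_zpow_neg_two hh, zpow_neg, i, con]; try ring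
  · rw [← E7.1.2]; exact Finset.sum_congr rfl fun j _ => by simp [dreg_zpow_neg_two hh, zpow_neg, i, con]; try ring
  · rw [← E4.2]; exact Finset.sum_congr rfl fun j _ => by simp [dreg_zpow_neg_two hh, zpow_neg, i, con]; try ring
  · rw [← E1.2]; exact Finset.sum_congr rfl fun j _ => by simp [dreg_zpow_neg_two hh, zpow_neg, i, con]; try ring
  · rw [← E3.1]; exact Finset.sum_congr rfl fun j _ => by simp [dreg_zpow_neg_two hh, zpow_neg, i, con]; try ring
  · rw [← E6.2]; exact Finset.sum_congr rfl fun j _ => by simp [dreg_zpow_neg_two hh, zpow_neg, i, con]; try ring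
  · rw [← E5.1]; exact Finset.sum_congr rfl fun j _ => by simp [dreg_zpow_neg_two hh, zpow_neg, i, con]; try ring

/-- The same without the condition on the column. -/
lemma full_row (hh : DReg h) (n : tauS h {0, 1, 2} ≠ 0) (z : tauS h {0, 1, 3} = 0)
    (n3 : tauS h {0, 2, 3} ≠ 0) (n4 : tauS h {0, 2, 4} ≠ 0) (n5 : tauS h {0, 2, 5} ≠ 0) :
    False := by
  by_cases c4 : tauS h {0, 1, 4} = 0 ∨ tauS h {1, 2, 4} = 0
  · exact full_row_base hh n z n3 n4 n5 c4
  by_cases c5 : tauS h {0, 1, 5} = 0 ∨ tauS h {1, 2, 5} = 0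
  · let s : Equiv.Perm (Fin 6) := Equiv.swap 4 5
    have hk : DReg fun i j => h (s i) j := dreg_hP s 1 hh
    refine full_row_base hk ?_ ?_ ?_ ?_ ?_ ?_ <;>
      simp only [tauS_relabel (h := h) s]
    · rwa [show ({0, 1, 2} : Finset (Fin 6)).image s = {0, 1, 2} by decide]
    · rwa [show ({0, 1, 3} : Finset (Fin 6)).image s = {0, 1, 3} by decide]
    · rwa [show ({0, 2, 3} : Finset (Fin 6)).image s = {0, 2, 3} by decide]
    · rwa [show ({0, 2, 4} : Finset (Fin 6)).image s = {0, 2, 5} by decide]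
    · rwa [show ({0, 2, 5} : Finset (Fin 6)).image s = {0, 2, 4} by decide]
    · rwa [show ({0, 1, 4} : Finset (Fin 6)).image s = {0, 1, 5} by decide,
        show ({1, 2, 4} : Finset (Fin 6)).image s = {1, 2, 5} by decide]
  · exact two_in_row hh n z (not_or.1 c4).1 (not_or.1 c5).1

/-- `full_row` after a change of labels. -/
lemma full_row_perm (hh : DReg h) (s : Equiv.Perm (Fin 6))
    {S Z A B C : Finset (Fin 6)} (eS : ({0, 1, 2} : Finset (Fin 6)).image s = S)
    (eZ : ({0, 1, 3} : Finset (Fin 6)).image s = Z) (eA : ({0, 2, 3} : Finset (Fin 6)).image s = A)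
    (eB : ({0, 2, 4} : Finset (Fin 6)).image s = B) (eC : ({0, 2, 5} : Finset (Fin 6)).image s = C)
    (n : tauS h S ≠ 0) (z : tauS h Z = 0) (a : tauS h A ≠ 0) (b : tauS h B ≠ 0)
    (c : tauS h C ≠ 0) : False := by
  rw [← eS, ← tauS_relabel s] at n
  rw [← eZ, ← tauS_relabel s] at z
  rw [← eA, ← tauS_relabel s] at a
  rw [← eB, ← tauS_relabel s] at b
  rw [← eC, ← tauS_relabel s] at c
  have hk : DReg fun i j => h (s i) j := dreg_hP s 1 hh
  exact full_row hk n z a b c

/-- A neighbour of a nonzero contraction is nonzero. -/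
theorem neighbour_ne (hh : DReg h) (n : tauS h {0, 1, 2} ≠ 0) : tauS h {0, 1, 3} ≠ 0 := by
  intro z
  have m : tauS h {3, 4, 5} ≠ 0 := nz_compl (by decide) n
  have z' : tauS h {2, 4, 5} = 0 := z_compl (by decide) z
  by_cases r2 : tauS h {0, 2, 3} = 0 ∨ tauS h {0, 2, 4} = 0 ∨ tauS h {0, 2, 5} = 0
  swap
  · simp only [not_or] at r2
    exact full_row hh n z r2.1 r2.2.1 r2.2.2
  by_cases r3 : tauS h {1, 2, 3} = 0 ∨ tauS h {1, 2, 4} = 0 ∨ tauS h {1, 2, 5} = 0
  swap
  · simp only [not_or] at r3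
    exact full_row_perm hh (Equiv.swap 0 1) (by decide) (by decide) (by decide) (by decide)
      (by decide) n z r3.1 r3.2.1 r3.2.2
  by_cases d4 : tauS h {0, 1, 4} = 0 ∨ tauS h {0, 2, 4} = 0 ∨ tauS h {1, 2, 4} = 0
  swap
  · simp only [not_or] at d4
    exact full_row_perm hh
      (Equiv.swap 2 3 * Equiv.swap 1 4 * Equiv.swap 0 5) (S := {3, 4, 5}) (Z := {2, 4, 5})
      (A := {2, 3, 5}) (B := {1, 3, 5}) (C := {0, 3, 5})
      (by decide) (by decide) (by decide) (by decide) (by decide) m z'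
      (nz_compl (by decide) d4.1) (nz_compl (by decide) d4.2.1) (nz_compl (by decide) d4.2.2)
  by_cases d5 : tauS h {0, 1, 5} = 0 ∨ tauS h {0, 2, 5} = 0 ∨ tauS h {1, 2, 5} = 0
  swap
  · simp only [not_or] at d5
    exact full_row_perm hh
      (Equiv.swap 4 5 * Equiv.swap 2 3 * Equiv.swap 1 4 * Equiv.swap 0 5) (S := {3, 4, 5})
      (Z := {2, 4, 5}) (A := {2, 3, 4}) (B := {1, 3, 4}) (C := {0, 3, 4})
      (by decide) (by decide) (by decide) (by decide) (by decide) m z'
      (nz_compl (by decide) d5.1) (nz_compl (by decide) d5.2.1) (nz_compl (by decide) d5.2.2)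
  obtain ⟨y, hy, ey⟩ : ∃ y : Fin 6, (y = 3 ∨ y = 4 ∨ y = 5) ∧ tauS h {0, 2, y} = 0 := by
    rcases r2 with e | e | e <;> exact ⟨_, by decide, e⟩
  obtain ⟨w, hw, ew⟩ : ∃ w : Fin 6, (w = 3 ∨ w = 4 ∨ w = 5) ∧ tauS h {1, 2, w} = 0 := by
    rcases r3 with e | e | e <;> exact ⟨_, by decide, e⟩
  obtain ⟨v, hv, ev⟩ : ∃ v : Fin 6, (v = 0 ∨ v = 1 ∨ v = 2) ∧ tauS h {3, 5, v} = 0 := by
    rcases d4 with e | e | e
    · exact ⟨2, by decide, z_compl (by decide) e⟩
    · exact ⟨1, by decide, z_compl (by decide) e⟩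
    · exact ⟨0, by decide, z_compl (by decide) e⟩
  obtain ⟨u, hu, eu⟩ : ∃ u : Fin 6, (u = 0 ∨ u = 1 ∨ u = 2) ∧ tauS h {3, 4, u} = 0 := by
    rcases d5 with e | e | e
    · exact ⟨2, by decide, z_compl (by decide) e⟩
    · exact ⟨1, by decide, z_compl (by decide) e⟩
    · exact ⟨0, by decide, z_compl (by decide) e⟩
  exact no_line hh n (x := 3) (y := y) (z := w) (u := 2) (v := v) (w := u) (by decide) hy hw z ey ew
    (by decide) hv hu (by rwa [show ({4, 5, 2} : Finset (Fin 6)) = {2, 4, 5} by decide]) ev eu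

/-- One nonzero contraction makes all of them nonzero. -/
theorem tauRow_all_ne (hh : DReg h) (hs : ∃ s, tauRow h s ≠ 0) : ∀ s, tauRow h s ≠ 0 := by
  obtain ⟨s0, h0⟩ := hs
  set B : Finset (Fin 6) := {0, 1, 2}
  have step : ∀ f : Equiv.Perm (Fin 6), tauS h (B.image f) ≠ 0 → ∀ x y : Fin 6,
      tauS h (B.image (f * Equiv.swap x y)) ≠ 0 := by
    intro f hf x y
    have ec : ∀ g : Equiv.Perm (Fin 6), B.image (f * g) = (B.image g).image f := fun g => by
      rw [Finset.image_image]; rfl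
    rw [ec]
    have key : ∀ x y : Fin 6, B.image (Equiv.swap x y) = B ∨
        (B.image (Equiv.swap 2 x * Equiv.swap 3 y) = B ∧ ({0, 1, 3} : Finset (Fin 6)).image
          (Equiv.swap 2 x * Equiv.swap 3 y) = B.image (Equiv.swap x y)) ∨
        (B.image (Equiv.swap 2 y * Equiv.swap 3 x) = B ∧ ({0, 1, 3} : Finset (Fin 6)).image
          (Equiv.swap 2 y * Equiv.swap 3 x) = B.image (Equiv.swap x y)) := by decide
    have go : ∀ g : Equiv.Perm (Fin 6), B.image g = B →
        tauS h ((({0, 1, 3} : Finset (Fin 6)).image g).image f) ≠ 0 := by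
      intro g hg
      have hk : DReg fun i j => h ((f * g) i) j := dreg_hP (f * g) 1 hh
      have := neighbour_ne hk (by rw [tauS_relabel, ec, hg]; exact hf)
      rw [tauS_relabel] at this
      rw [Finset.image_image]
      exact this
    rcases key x y with e | ⟨e1, e2⟩ | ⟨e1, e2⟩
    · rwa [e]
    · rw [← e2]; exact go _ e1
    · rw [← e2]; exact go _ e1
  intro s
  rw [tauRow_eq]
  have all : ∀ t : Equiv.Perm (Fin 6), tauS h (B.image (s0 * t)) ≠ 0 := by
    intro t
    induction t using Equiv.Perm.swap_induction_on' with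
    | one => rw [mul_one, ← tauRow_eq]; exact h0
    | mul_swap g x y _ ih => rw [← mul_assoc]; exact step _ ih x y
  have := all (s0⁻¹ * s)
  rwa [mul_inv_cancel_left] at this

/-- Outside the flat case the contractions of squared rows vanish, without further hypothesis. -/
theorem sq_rows_eq_zero {a b : Fin 6} (hh : DReg h) (hf : ¬ TauFlat h) (hab : a ≠ b) :
    ∑ j, h a j ^ 2 * conj (h b j ^ 2) = 0 :=
  sq_rows_of_not_flat hh (fun hk hs => tauRow_all_ne hk hs) hf hab

end Vale.Agent.P355.Seven
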