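import Mathlib
import Vale.Agent.P355.Seven.TauProp
import Vale.Agent.P355.Seven.CaseAFlat

/-!
Outside the flat case the three zero families hold, with no further hypothesis.
-/

namespace Vale.Agent.P355.Seven

variable {h : Fin 6 → Fin 6 → ℂ}

/-- A doubly regular matrix is either flat or has the three vanishing families. -/
theorem aFlat_of_not_flat (hh : DReg h) (hf : ¬ TauFlat h) : AFlat h :=
  aFlat_of_not_flat_of_prop (fun hk hs => tauRow_all_ne hk hs) hh hf

end Vale.Agent.P355.Seven
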