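import Mathlib
import Vale.Agent.P355.Seven.Flat
import Vale.Agent.P355.Seven.AFlat

/-!
Two checked identities, one for flat matrices and one for the others, exclude seven bases.
-/

namespace Vale.Agent.P355.Seven

open scoped ComplexConjugate BigOperators InnerProductSpace

/-- A combination of centred features whose average over the symmetries has negative real part on
all normal forms of a setup cannot exist. -/
theorem setup_false {ι : Type} [Fintype ι] (cf : ι → ℂ) (ls : ι → List Lit)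
    (sl : ι → Slot × Slot × Slot × Slot)
    (hv : ∀ k, monWt (ls k) = quartWt (sl k).1 (sl k).2.1 (sl k).2.2.1 (sl k).2.2.2)
    {B : Fin 7 → Fin 6 → Fin 6 → ℂ} {H : Fin 6 → Fin 6 → ℂ} (s : Setup B H)
    (hneg : ∀ p, (∑ g : Gsym, ∑ k, cf k *
      feat (ls k) (sl k).1 (sl k).2.1 (sl k).2.2.1 (sl k).2.2.2
        (act g (nf H (vec B p)))).re < 0) : False := by
  have hsum : ∑ p, ∑ g : Gsym, ∑ k, cf k *
      feat (ls k) (sl k).1 (sl k).2.1 (sl k).2.2.1 (sl k).2.2.2 (act g (nf H (vec B p))) = 0 := by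
    rw [Finset.sum_comm]
    refine Finset.sum_eq_zero fun g _ => ?_
    rw [Finset.sum_comm]
    refine Finset.sum_eq_zero fun k _ => ?_
    rw [← Finset.mul_sum]
    simp only [fun p => feat_act g (dreg_nf s.unim s.rows s.cols (s.uu p) (s.ww p)) (ls k) (sl k)]
    rw [sum_feat s _ _ _ _ _ (wt_qMap g _ _ (hv k)), mul_zero]
  have hlt : ∑ p, (∑ g : Gsym, ∑ k, cf k *
      feat (ls k) (sl k).1 (sl k).2.1 (sl k).2.2.1 (sl k).2.2.2 (act g (nf H (vec B p)))).re <
      ∑ _p : Fin 5 × Fin 6, (0 : ℝ) :=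
    Finset.sum_lt_sum_of_nonempty Finset.univ_nonempty fun p _ => hneg p
  rw [← Complex.re_sum, hsum, Finset.sum_const_zero, Complex.zero_re] at hlt
  exact lt_irrefl 0 hlt

/-- The condition does not see phases on rows and columns. -/
lemma TauFlat.phases {H : Fin 6 → Fin 6 → ℂ} (ht : TauFlat H) {x y : Fin 6 → ℂ}
    (hx : ∀ i, conj (x i) * x i = 1) (hy : ∀ j, conj (y j) * y j = 1) :
    TauFlat fun i j => x i * H i j * y j := by
  intro s
  constructor
  · rw [← mul_zero (x (s 0) * x (s 1) * x (s 2) * (conj (x (s 3)) * conj (x (s 4)) *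
      conj (x (s 5)))), ← (ht s).1, Finset.mul_sum]
    refine Finset.sum_congr rfl fun j _ => ?_
    have h3 : (conj (y j) * y j) ^ 3 = 1 := by rw [hy, one_pow]
    simp only [map_mul]
    linear_combination (x (s 0) * x (s 1) * x (s 2) * (conj (x (s 3)) * conj (x (s 4)) *
      conj (x (s 5))) * (H (s 0) j * H (s 1) j * H (s 2) j) *
      (conj (H (s 3) j) * conj (H (s 4) j) * conj (H (s 5) j))) * h3
  · rw [← mul_zero (y (s 0) * y (s 1) * y (s 2) * (conj (y (s 3)) * conj (y (s 4)) *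
      conj (y (s 5)))), ← (ht s).2, Finset.mul_sum]
    refine Finset.sum_congr rfl fun i _ => ?_
    have h3 : (conj (x i) * x i) ^ 3 = 1 := by rw [hx, one_pow]
    simp only [map_mul]
    linear_combination (y (s 0) * y (s 1) * y (s 2) * (conj (y (s 3)) * conj (y (s 4)) *
      conj (y (s 5))) * (H i (s 0) * H i (s 1) * H i (s 2)) *
      (conj (H i (s 3)) * conj (H i (s 4)) * conj (H i (s 5)))) * h3

/-- A flat normal form has a flat source. -/
lemma TauFlat.of_nf {H : Fin 6 → Fin 6 → ℂ} {u : Fin 6 → ℂ}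
    (hu : ∀ i, Complex.normSq (u i) = 1) (hw : ∀ j, Complex.normSq (lin (cF H j) u) = 6)
    (ht : TauFlat (Seven.nf H u)) : TauFlat H := by
  have hq : ∀ j, conj (lin (cF H j) u / rt) * (lin (cF H j) u / rt) = 1 := fun j => by
    rw [← phi_inr]
    exact conj_mul_one (normSq_phi hu hw _)
  have h := ht.phases (x := u) (y := fun j => conj (lin (cF H j) u / rt))
    (fun i => conj_mul_one (hu i)) fun j => by rw [Complex.conj_conj, mul_comm]; exact hq j
  convert h using 1
  funext i j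
  simp only [Seven.nf]
  linear_combination (-(H i j) * conj (u i) * u i) * hq j - H i j * conj_mul_one (hu i)

/-- A checked identity gives a negative average. -/
lemma neg_of_identity {F : List (ℤ × List ℕ × (Slot × Slot × Slot × Slot))}
    (hpar : ∀ x ∈ F, okParity x.2.2 = true) {h : Fin 6 → Fin 6 → ℂ} (hh : DReg h)
    (hid : ∃ s : ℂ, 0 ≤ s.re ∧ termSum h (allFeatTerms F) + s + ((1 : ℤ) : ℂ) * wVal h [] = 0) :
    (∑ g : Gsym, ∑ m : Fin F.length, ((F.get m).1 : ℂ) * qFac (F.get m).2.1 (F.get m).2.2 *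
      feat ((F.get m).2.1.map ldec) (F.get m).2.2.1 (F.get m).2.2.2.1 (F.get m).2.2.2.2.1
        (F.get m).2.2.2.2.2 (act g h)).re < 0 := by
  obtain ⟨s, hs, heq⟩ := hid
  obtain ⟨hw, hpos⟩ := wVal_nil h
  rw [← termSum_allFeatTerms hh F hpar]
  have h1 := congrArg Complex.re heq
  simp [Complex.mul_re] at h1
  rw [hw] at h1
  linarith

/-- An identity on flat matrices and an identity for the rest bound the number of bases. -/
theorem card_le_six_of_split
    (FB FA : List (ℤ × List ℕ × (Slot × Slot × Slot × Slot)))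
    (hparB : ∀ x ∈ FB, okParity x.2.2 = true) (hparA : ∀ x ∈ FA, okParity x.2.2 = true)
    (hvB : ∀ x ∈ FB, monWt (x.2.1.map ldec) = quartWt x.2.2.1 x.2.2.2.1 x.2.2.2.2.1 x.2.2.2.2.2)
    (hvA : ∀ x ∈ FA, monWt (x.2.1.map ldec) = quartWt x.2.2.1 x.2.2.2.1 x.2.2.2.2.1 x.2.2.2.2.2)
    (hidB : ∀ h, DReg h → TauFlat h → ∃ s : ℂ, 0 ≤ s.re ∧
      termSum h (allFeatTerms FB) + s + ((1 : ℤ) : ℂ) * wVal h [] = 0)
    (hidA : ∀ h, DReg h → AFlat h → ∃ s : ℂ, 0 ≤ s.re ∧
      termSum h (allFeatTerms FA) + s + ((1 : ℤ) : ℂ) * wVal h [] = 0)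
    (hA : ∀ h, DReg h → ¬ TauFlat h → AFlat h)
    (k : ℕ) (B : Fin k → OrthonormalBasis (Fin 6) ℂ (EuclideanSpace ℂ (Fin 6)))
    (hB : ∀ c d, c ≠ d → ∀ i j, ‖⟪B c i, B d j⟫_ℂ‖ ^ 2 = 1 / 6) : k ≤ 6 := by
  by_contra hk
  let e : Fin 7 → Fin k := Fin.castLE (by omega)
  let A : Fin 7 → Fin 6 → Fin 6 → ℂ := fun c i l => B (e c) i l
  have hip : ∀ c d i j, ip (A c i) (A d j) = ⟪B (e c) i, B (e d) j⟫_ℂ := by
    intro c d i j
    simp [ip, A, PiLp.inner_apply, mul_comm]
  have hmub : IsMUBSet A := by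
    refine ⟨fun c i j => ?_, fun c d hcd i j => ?_⟩
    · rw [hip]
      exact orthonormal_iff_ite.1 (B (e c)).orthonormal i j
    · rw [hip, Complex.normSq_eq_norm_sq]
      exact hB _ _ (fun h => hcd (Fin.castLE_injective _ h)) i j
  obtain ⟨B', H, s, -⟩ := exists_setup' A hmub
  by_cases ht : TauFlat H
  · exact setup_false _ _ _ (fun m => hvB _ (List.get_mem _ _)) s fun p =>
      neg_of_identity hparB (dreg_nf s.unim s.rows s.cols (s.uu p) (s.ww p))
        (hidB _ (dreg_nf s.unim s.rows s.cols (s.uu p) (s.ww p)) (ht.nf (s.uu p) (s.ww p)))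
  · exact setup_false _ _ _ (fun m => hvA _ (List.get_mem _ _)) s fun p =>
      neg_of_identity hparA (dreg_nf s.unim s.rows s.cols (s.uu p) (s.ww p))
        (hidA _ (dreg_nf s.unim s.rows s.cols (s.uu p) (s.ww p))
          (hA _ (dreg_nf s.unim s.rows s.cols (s.uu p) (s.ww p))
            fun h => ht (TauFlat.of_nf (s.uu p) (s.ww p) h)))

end Vale.Agent.P355.Seven
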