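import Mathlib
import Vale.Agent.P355.Five
import Vale.Agent.P355.Seven.Split
import Vale.Agent.P355.Seven.Outside
import Vale.Agent.P355.Seven.DataA.Total

/-!
Assembly: the checked identity outside the flat case together with an identity in the flat case
bound every family of mutually unbiased bases of `ℂ^6` by five.
-/

namespace Vale.Agent.P355.Seven

open scoped InnerProductSpace

/-- The bound five from an identity for flat matrices. -/
theorem card_le_five_of_flat_identity
    (FB : List (ℤ × List ℕ × (Slot × Slot × Slot × Slot)))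
    (hparB : ∀ x ∈ FB, okParity x.2.2 = true)
    (hvB : ∀ x ∈ FB, monWt (x.2.1.map ldec) = quartWt x.2.2.1 x.2.2.2.1 x.2.2.2.2.1 x.2.2.2.2.2)
    (hidB : ∀ h, DReg h → TauFlat h → ∃ s : ℂ, 0 ≤ s.re ∧
      termSum h (allFeatTerms FB) + s + ((1 : ℤ) : ℂ) * wVal h [] = 0)
    (k : ℕ) (B : Fin k → OrthonormalBasis (Fin 6) ℂ (EuclideanSpace ℂ (Fin 6)))
    (hB : ∀ c d, c ≠ d → ∀ i j, ‖⟪B c i, B d j⟫_ℂ‖ ^ 2 = 1 / 6) : k ≤ 5 :=
  card_le_five_of_card_le_six
    (fun k B hB => card_le_six_of_split FB DataA.feats hparB DataA.feats_par hvB DataA.feats_wt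
      hidB DataA.case_identity (fun _ hh hf => aFlat_of_not_flat hh hf) k B hB) k B hB

end Vale.Agent.P355.Seven
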